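import Vale.Agent.P154.D4.Moment
import Vale.Agent.P154.Tree

/-!
Moment recursion for proper three-colourings of the `4`-ary tree: small second and fourth moments
of the root law stay small and the second moment tends to zero.
-/

noncomputable section

namespace Vale.Agent.P154.D4

open Filter Topology

/-- Bounds on the moments of a law. -/
structure Bnd (A : Law 3) (a l u m : ℝ) : Prop where
  hS : A.S ≤ a
  hl : -l ≤ CC A
  hu : CC A ≤ u
  hm : MM A ≤ m

theorem Bnd.weaken {A : Law 3} {a l u m a' l' u' m' : ℝ} (h : Bnd A a l u m) (ha : a ≤ a')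
    (hl : l ≤ l') (hu : u ≤ u') (hm : m ≤ m') : Bnd A a' l' u' m' :=
  ⟨h.hS.trans ha, le_trans (neg_le_neg hl) h.hl, h.hu.trans hu, h.hm.trans hm⟩

theorem hmul {c K x y p q p' q' X Y : ℝ} (hx : p * X ≤ x ∧ x ≤ q * X)
    (hy : p' * Y ≤ y ∧ y ≤ q' * Y) (h1 : c * p * p' ≤ K) (h2 : c * p * q' ≤ K)
    (h3 : c * q * p' ≤ K) (h4 : c * q * q' ≤ K) (hX : 0 ≤ X) (hY : 0 ≤ Y) :
    c * x * y ≤ K * (X * Y) := by
  have hXY := mul_nonneg hX hY
  rcases le_total 0 (c * y) with h | h
  · have e1 := mul_le_mul_of_nonneg_left hx.2 h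
    rcases le_total 0 (c * q) with h' | h'
    · nlinarith [mul_le_mul_of_nonneg_left hy.2 (mul_nonneg h' hX),
        mul_le_mul_of_nonneg_right h4 hXY]
    · nlinarith [mul_le_mul_of_nonpos_left hy.1 (mul_nonpos_of_nonpos_of_nonneg h' hX),
        mul_le_mul_of_nonneg_right h3 hXY]
  · have e1 := mul_le_mul_of_nonpos_left hx.1 h
    rcases le_total 0 (c * p) with h' | h'
    · nlinarith [mul_le_mul_of_nonneg_left hy.2 (mul_nonneg h' hX),
        mul_le_mul_of_nonneg_right h2 hXY]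
    · nlinarith [mul_le_mul_of_nonpos_left hy.1 (mul_nonpos_of_nonpos_of_nonneg h' hX),
        mul_le_mul_of_nonneg_right h1 hXY]

theorem E_mon_le (A : Law 3) :
    0 ≤ A.E (mon 0 2) ∧ A.E (mon 0 2) ≤ MM A ∧ 0 ≤ A.E (mon 3 0) ∧ A.E (mon 3 0) ≤ MM A ∧
      -(1 / 2) * MM A ≤ A.E (mon 1 1) ∧ A.E (mon 1 1) ≤ MM A ∧
      -(1 / 2) * MM A ≤ A.E (mon 2 1) ∧ A.E (mon 2 1) ≤ MM A ∧ 0 ≤ MM A := by
  have key : ∀ i j (p : ℝ), (∀ u, Dev u → p * ss u ^ 2 ≤ mon i j u ∧ mon i j u ≤ ss u ^ 2) →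
      p * MM A ≤ A.E (mon i j) ∧ A.E (mon i j) ≤ MM A := by
    intro i j p h
    refine ⟨?_, A.mono _ _ fun u hu => (h u hu).2⟩
    rw [MM, ← A.smul_fun]
    exact A.mono _ _ fun u hu => (h u hu).1
  have base : ∀ u : Fin 3 → ℝ, Dev u → 0 ≤ ss u ∧ ss u ≤ 1 ∧ -(ss u / 2) ≤ cc u ∧ cc u ≤ ss u :=
    fun u hu => ⟨ss_nonneg (by norm_num) u, ss_le_one (by norm_num) hu, cc_bounds hu⟩
  have h02 := key 0 2 0 fun u hu => by
    obtain ⟨a, b, c, d⟩ := base u hu
    simp only [mon, pow_zero, one_mul]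
    constructor <;> nlinarith [sq_nonneg (cc u)]
  have h30 := key 3 0 0 fun u hu => by
    obtain ⟨a, b, c, d⟩ := base u hu
    simp only [mon, pow_zero, mul_one]
    constructor <;> nlinarith [pow_nonneg a 3, mul_le_mul_of_nonneg_left b (sq_nonneg (ss u))]
  have h11 := key 1 1 (-(1 / 2)) fun u hu => by
    obtain ⟨a, b, c, d⟩ := base u hu
    simp only [mon, pow_one]
    constructor <;> nlinarith
  have h21 := key 2 1 (-(1 / 2)) fun u hu => by
    obtain ⟨a, b, c, d⟩ := base u hu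
    simp only [mon, pow_one]
    constructor <;> nlinarith [mul_le_mul_of_nonneg_left d (sq_nonneg (ss u)),
      mul_le_mul_of_nonneg_left c (sq_nonneg (ss u)), mul_le_mul_of_nonneg_left b (sq_nonneg (ss u))]
  have hM : 0 ≤ MM A := by
    rw [MM, ← A.const 0]
    exact A.mono _ _ fun u _ => sq_nonneg (ss u)
  exact ⟨by linarith [h02.1], h02.2, by linarith [h30.1], h30.2, h11.1, h11.2, h21.1, h21.2, hM⟩

theorem ss_scale (u : Fin 3 → ℝ) : ss (fun i => -(1 / 2) * u i) = 1 / 4 * ss u := by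
  simp only [ss_three]; ring

theorem cc_scale (u : Fin 3 → ℝ) : cc (fun i => -(1 / 2) * u i) = -1 / 8 * cc u := by
  simp only [cc_three]; ring

theorem edge_E_mon (R : Law 3) (k l : ℕ) :
    (edge R).E (mon k l) = (1 / 4) ^ k * (-1 / 8) ^ l * R.E (mon k l) := by
  rw [edge, Law.scale_E, ← R.smul_fun]
  congr 1
  funext u
  simp only [mon, ss_scale, cc_scale, mul_pow]
  ring

theorem mon_S (A : Law 3) : A.E (mon 1 0) = A.S := by
  refine A.congr fun u _ => ?_
  simp [mon]

theorem mon_C (A : Law 3) : A.E (mon 0 1) = CC A := by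
  refine A.congr fun u _ => ?_
  simp [mon]

theorem mon_M (A : Law 3) : A.E (mon 2 0) = MM A := by
  refine A.congr fun u _ => ?_
  simp [mon]

theorem mon_one (A : Law 3) : A.E (mon 0 0) = 1 := by
  rw [A.congr (h := fun _ => (1 : ℝ)) fun u _ => by simp [mon], A.one]

theorem pX {a y Ch Dh m N l dl S t C D s20 s11 s02 s30 s21 t20 t11 t02 t30 t21 : ℝ}
    (pa : 0 * a ≤ S ∧ S ≤ 1 * a) (qa : 0 * y ≤ t ∧ t ≤ 1 * y)
    (pC : -1 * Ch ≤ C ∧ C ≤ 1 * Ch) (qC : -1 * Dh ≤ D ∧ D ≤ 1 * Dh)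
    (p20 : 0 * m ≤ s20 ∧ s20 ≤ 1 * m) (p11 : -(1 / 2) * m ≤ s11 ∧ s11 ≤ 1 * m)
    (p02 : 0 * m ≤ s02 ∧ s02 ≤ 1 * m) (p30 : 0 * m ≤ s30 ∧ s30 ≤ 1 * m)
    (p21 : -(1 / 2) * m ≤ s21 ∧ s21 ≤ 1 * m)
    (q20 : 0 * N ≤ t20 ∧ t20 ≤ 1 * N) (q11 : -(1 / 2) * N ≤ t11 ∧ t11 ≤ (1 / 4) * N)
    (q02 : 0 * N ≤ t02 ∧ t02 ≤ (1 / 4) * N) (q30 : 0 * N ≤ t30 ∧ t30 ≤ (1 / 4) * N)
    (q21 : -(1 / 8) * N ≤ t21 ∧ t21 ≤ (1 / 16) * N)
    (ha0 : 0 ≤ a) (hy0 : 0 ≤ y) (hC0 : 0 ≤ Ch) (hD0 : 0 ≤ Dh) (hm0 : 0 ≤ m) (hN0 : 0 ≤ N)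
    (ha1 : a ≤ 1 / 6) (hy1 : y ≤ 1 / 6) (hl : -l ≤ C) (hl0 : 0 ≤ l) (hDl : -dl ≤ D)
    (hdl : 0 ≤ dl) :
    (1) * t + (2) * C * D + (-2) * C * t + (-2) * C * t11 + (2) * C * t20 + (1) * S
      + (-2) * S * D + (-1) * S * t + (2) * S * t20 + (-2) * s11 * D + (8) * s11 * t11
      + (-6) * s11 * t20 + (2) * s20 * D + (2) * s20 * t + (-6) * s20 * t11
      + (2) * s20 * t20
      ≤ a + y - a * y + 2 * l * y + 2 * a * dl + 2 * a * N + 2 * m * y + 2 * Ch * Dh
        + 3 * Ch * N + 4 * m * Dh + 12 * m * N := by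
  have := mul_le_mul (show 1 - a ≤ 1 - S by linarith) (show 1 - y ≤ 1 - t by linarith)
    (show 0 ≤ 1 - y by linarith) (show 0 ≤ 1 - S by linarith)
  have := (mul_le_mul_of_nonneg_right (neg_le.mpr hl) (show 0 ≤ t by linarith)).trans
    (mul_le_mul_of_nonneg_left (show t ≤ y by linarith) hl0)
  have := mul_le_mul_of_nonneg_left hDl (show 0 ≤ S by linarith)
  have := mul_le_mul_of_nonneg_right (show S ≤ a by linarith) hdl
  have := mul_nonneg hm0 hN0
  have := mul_nonneg hC0 hN0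
  have := hmul (c := (2)) (K := (2)) pC qC (by norm_num) (by norm_num) (by norm_num) (by norm_num) (by assumption) (by assumption)
  have := hmul (c := (-2)) (K := (1)) pC q11 (by norm_num) (by norm_num) (by norm_num) (by norm_num) (by assumption) (by assumption)
  have := hmul (c := (2)) (K := (2)) pC q20 (by norm_num) (by norm_num) (by norm_num) (by norm_num) (by assumption) (by assumption)
  have := hmul (c := (2)) (K := (2)) pa q20 (by norm_num) (by norm_num) (by norm_num) (by norm_num) (by assumption) (by assumption)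
  have := hmul (c := (-2)) (K := (2)) p11 qC (by norm_num) (by norm_num) (by norm_num) (by norm_num) (by assumption) (by assumption)
  have := hmul (c := (8)) (K := (2)) p11 q11 (by norm_num) (by norm_num) (by norm_num) (by norm_num) (by assumption) (by assumption)
  have := hmul (c := (-6)) (K := (3)) p11 q20 (by norm_num) (by norm_num) (by norm_num) (by norm_num) (by assumption) (by assumption)
  have := hmul (c := (2)) (K := (2)) p20 qC (by norm_num) (by norm_num) (by norm_num) (by norm_num) (by assumption) (by assumption)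
  have := hmul (c := (2)) (K := (2)) p20 qa (by norm_num) (by norm_num) (by norm_num) (by norm_num) (by assumption) (by assumption)
  have := hmul (c := (-6)) (K := (3)) p20 q11 (by norm_num) (by norm_num) (by norm_num) (by norm_num) (by assumption) (by assumption)
  have := hmul (c := (2)) (K := (2)) p20 q20 (by norm_num) (by norm_num) (by norm_num) (by norm_num) (by assumption) (by assumption)
  linarith

theorem pM {a y Ch Dh m N u du S t C D s20 s11 s02 s30 s21 t20 t11 t02 t30 t21 : ℝ}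
    (pa : 0 * a ≤ S ∧ S ≤ 1 * a) (qa : 0 * y ≤ t ∧ t ≤ 1 * y)
    (pC : -1 * Ch ≤ C ∧ C ≤ 1 * Ch) (qC : -1 * Dh ≤ D ∧ D ≤ 1 * Dh)
    (p20 : 0 * m ≤ s20 ∧ s20 ≤ 1 * m) (p11 : -(1 / 2) * m ≤ s11 ∧ s11 ≤ 1 * m)
    (p02 : 0 * m ≤ s02 ∧ s02 ≤ 1 * m) (p30 : 0 * m ≤ s30 ∧ s30 ≤ 1 * m)
    (p21 : -(1 / 2) * m ≤ s21 ∧ s21 ≤ 1 * m)
    (q20 : 0 * N ≤ t20 ∧ t20 ≤ 1 * N) (q11 : -(1 / 2) * N ≤ t11 ∧ t11 ≤ (1 / 4) * N)
    (q02 : 0 * N ≤ t02 ∧ t02 ≤ (1 / 4) * N) (q30 : 0 * N ≤ t30 ∧ t30 ≤ (1 / 4) * N)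
    (q21 : -(1 / 8) * N ≤ t21 ∧ t21 ≤ (1 / 16) * N)
    (ha0 : 0 ≤ a) (hy0 : 0 ≤ y) (hC0 : 0 ≤ Ch) (hD0 : 0 ≤ Dh) (hm0 : 0 ≤ m) (hN0 : 0 ≤ N)
    (hu : C ≤ u) (hu0 : 0 ≤ u) (hDu : D ≤ du) (hdu : 0 ≤ du) :
    (1) * t20 + (10) * C * D + (4) * C * t + (-2) * C * t11 + (-12) * C * t20
      + (64) * s02 * t02 + (-20) * s02 * t11 + (-12) * s02 * t21 + (-32) * s02 * t30
      + (4) * S * D + (4) * S * t + (-12) * S * t11 + (4) * S * t20 + (-2) * s11 * D
      + (-20) * s11 * t02 + (-12) * s11 * t + (94) * s11 * t11 + (-30) * s11 * t21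
      + (-30) * s11 * t30 + (1) * s20 + (-12) * s20 * D + (4) * s20 * t + (37) * s20 * t20
      + (-30) * s20 * t30 + (-12) * s21 * t02 + (-30) * s21 * t11 + (96) * s21 * t21
      + (-54) * s21 * t30 + (-32) * s30 * t02 + (-30) * s30 * t11 + (-30) * s30 * t20
      + (-54) * s30 * t21 + (146) * s30 * t30
      ≤ m + N + 4 * a * y + 4 * u * y + 4 * a * du + 10 * a * N + 10 * m * y + 10 * Ch * Dh
        + 13 * Ch * N + 14 * m * Dh + 215 * m * N := by
  have := mul_le_mul (show S ≤ a by linarith) (show t ≤ y by linarith) (show 0 ≤ t by linarith) ha0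
  have := (mul_le_mul_of_nonneg_right hu (show 0 ≤ t by linarith)).trans
    (mul_le_mul_of_nonneg_left (show t ≤ y by linarith) hu0)
  have := (mul_le_mul_of_nonneg_left hDu (show 0 ≤ S by linarith)).trans
    (mul_le_mul_of_nonneg_right (show S ≤ a by linarith) hdu)
  have := mul_nonneg hm0 hN0
  have := mul_nonneg hC0 hN0
  have := hmul (c := (10)) (K := (10)) pC qC (by norm_num) (by norm_num) (by norm_num) (by norm_num) (by assumption) (by assumption)
  have := hmul (c := (-2)) (K := (1)) pC q11 (by norm_num) (by norm_num) (by norm_num) (by norm_num) (by assumption) (by assumption)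
  have := hmul (c := (-12)) (K := (12)) pC q20 (by norm_num) (by norm_num) (by norm_num) (by norm_num) (by assumption) (by assumption)
  have := hmul (c := (64)) (K := (16)) p02 q02 (by norm_num) (by norm_num) (by norm_num) (by norm_num) (by assumption) (by assumption)
  have := hmul (c := (-20)) (K := (10)) p02 q11 (by norm_num) (by norm_num) (by norm_num) (by norm_num) (by assumption) (by assumption)
  have := hmul (c := (-12)) (K := (3/2)) p02 q21 (by norm_num) (by norm_num) (by norm_num) (by norm_num) (by assumption) (by assumption)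
  have := hmul (c := (-32)) (K := (0)) p02 q30 (by norm_num) (by norm_num) (by norm_num) (by norm_num) (by assumption) (by assumption)
  have := hmul (c := (-12)) (K := (6)) pa q11 (by norm_num) (by norm_num) (by norm_num) (by norm_num) (by assumption) (by assumption)
  have := hmul (c := (4)) (K := (4)) pa q20 (by norm_num) (by norm_num) (by norm_num) (by norm_num) (by assumption) (by assumption)
  have := hmul (c := (-2)) (K := (2)) p11 qC (by norm_num) (by norm_num) (by norm_num) (by norm_num) (by assumption) (by assumption)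
  have := hmul (c := (-20)) (K := (5/2)) p11 q02 (by norm_num) (by norm_num) (by norm_num) (by norm_num) (by assumption) (by assumption)
  have := hmul (c := (-12)) (K := (6)) p11 qa (by norm_num) (by norm_num) (by norm_num) (by norm_num) (by assumption) (by assumption)
  have := hmul (c := (94)) (K := (47/2)) p11 q11 (by norm_num) (by norm_num) (by norm_num) (by norm_num) (by assumption) (by assumption)
  have := hmul (c := (-30)) (K := (15/4)) p11 q21 (by norm_num) (by norm_num) (by norm_num) (by norm_num) (by assumption) (by assumption)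
  have := hmul (c := (-30)) (K := (15/4)) p11 q30 (by norm_num) (by norm_num) (by norm_num) (by norm_num) (by assumption) (by assumption)
  have := hmul (c := (-12)) (K := (12)) p20 qC (by norm_num) (by norm_num) (by norm_num) (by norm_num) (by assumption) (by assumption)
  have := hmul (c := (4)) (K := (4)) p20 qa (by norm_num) (by norm_num) (by norm_num) (by norm_num) (by assumption) (by assumption)
  have := hmul (c := (37)) (K := (37)) p20 q20 (by norm_num) (by norm_num) (by norm_num) (by norm_num) (by assumption) (by assumption)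
  have := hmul (c := (-30)) (K := (0)) p20 q30 (by norm_num) (by norm_num) (by norm_num) (by norm_num) (by assumption) (by assumption)
  have := hmul (c := (-12)) (K := (3/2)) p21 q02 (by norm_num) (by norm_num) (by norm_num) (by norm_num) (by assumption) (by assumption)
  have := hmul (c := (-30)) (K := (15)) p21 q11 (by norm_num) (by norm_num) (by norm_num) (by norm_num) (by assumption) (by assumption)
  have := hmul (c := (96)) (K := (6)) p21 q21 (by norm_num) (by norm_num) (by norm_num) (by norm_num) (by assumption) (by assumption)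
  have := hmul (c := (-54)) (K := (27/4)) p21 q30 (by norm_num) (by norm_num) (by norm_num) (by norm_num) (by assumption) (by assumption)
  have := hmul (c := (-32)) (K := (0)) p30 q02 (by norm_num) (by norm_num) (by norm_num) (by norm_num) (by assumption) (by assumption)
  have := hmul (c := (-30)) (K := (15)) p30 q11 (by norm_num) (by norm_num) (by norm_num) (by norm_num) (by assumption) (by assumption)
  have := hmul (c := (-30)) (K := (0)) p30 q20 (by norm_num) (by norm_num) (by norm_num) (by norm_num) (by assumption) (by assumption)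
  have := hmul (c := (-54)) (K := (27/4)) p30 q21 (by norm_num) (by norm_num) (by norm_num) (by norm_num) (by assumption) (by assumption)
  have := hmul (c := (146)) (K := (73/2)) p30 q30 (by norm_num) (by norm_num) (by norm_num) (by norm_num) (by assumption) (by assumption)
  linarith

theorem pU {a y Ch Dh m N u du S t C D s20 s11 s02 s30 s21 t20 t11 t02 t30 t21 : ℝ}
    (pa : 0 * a ≤ S ∧ S ≤ 1 * a) (qa : 0 * y ≤ t ∧ t ≤ 1 * y)
    (pC : -1 * Ch ≤ C ∧ C ≤ 1 * Ch) (qC : -1 * Dh ≤ D ∧ D ≤ 1 * Dh)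
    (p20 : 0 * m ≤ s20 ∧ s20 ≤ 1 * m) (p11 : -(1 / 2) * m ≤ s11 ∧ s11 ≤ 1 * m)
    (p02 : 0 * m ≤ s02 ∧ s02 ≤ 1 * m) (p30 : 0 * m ≤ s30 ∧ s30 ≤ 1 * m)
    (p21 : -(1 / 2) * m ≤ s21 ∧ s21 ≤ 1 * m)
    (q20 : 0 * N ≤ t20 ∧ t20 ≤ 1 * N) (q11 : -(1 / 2) * N ≤ t11 ∧ t11 ≤ (1 / 4) * N)
    (q02 : 0 * N ≤ t02 ∧ t02 ≤ (1 / 4) * N) (q30 : 0 * N ≤ t30 ∧ t30 ≤ (1 / 4) * N)
    (q21 : -(1 / 8) * N ≤ t21 ∧ t21 ≤ (1 / 16) * N)
    (ha0 : 0 ≤ a) (hy0 : 0 ≤ y) (hC0 : 0 ≤ Ch) (hD0 : 0 ≤ Dh) (hm0 : 0 ≤ m) (hN0 : 0 ≤ N)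
    (ha1 : a ≤ 1 / 6) (hy1 : y ≤ 1 / 6) (hu : C ≤ u) (hu0 : 0 ≤ u) 
    (hDu : D ≤ du) (hdu : 0 ≤ du) (hcor : u * y + du * a ≤ a * y) :
    (1) * D + (1) * C + (7) * C * D + (-6) * C * t + (-2) * C * t11 + (16) * s02 * t02
      + (-8) * s02 * t11 + (-8) * s02 * t30 + (-6) * S * D + (6) * S * t + (-2) * s11 * D
      + (-8) * s11 * t02 + (28) * s11 * t11 + (-6) * s11 * t20 + (-12) * s11 * t30
      + (-6) * s20 * t11 + (18) * s20 * t20 + (-12) * s20 * t30 + (-8) * s30 * t02
      + (-12) * s30 * t11 + (-12) * s30 * t20 + (32) * s30 * t30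
      ≤ u * (1 - 6 * y) + du * (1 - 6 * a) + 6 * a * y + 7 * Ch * Dh + Ch * N + 2 * m * Dh
        + 62.5 * m * N := by
  have := mul_nonneg (show 0 ≤ u - C by linarith) (show 0 ≤ 1 - 6 * t by linarith)
  have := mul_nonneg (show 0 ≤ du - D by linarith) (show 0 ≤ 1 - 6 * S by linarith)
  have : S * t - u * t - du * S ≤ a * y - u * y - du * a := by
    have h1 : S * t - u * t - du * S ≤ max (S * y - u * y - du * S) (-(du * S)) := by
      rcases le_total u S with h | h
      · refine le_trans ?_ (le_max_left _ _)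
        linarith [mul_nonneg (show 0 ≤ y - t by linarith) (show 0 ≤ S - u by linarith)]
      · refine le_trans ?_ (le_max_right _ _)
        linarith [mul_nonneg (show 0 ≤ u - S by linarith) (show 0 ≤ t by linarith)]
    refine h1.trans (max_le ?_ ?_)
    · rcases le_total du y with h | h
      · linarith [mul_nonneg (show 0 ≤ a - S by linarith) (show 0 ≤ y - du by linarith)]
      · linarith [mul_nonneg hu0 hy0, mul_nonneg (show 0 ≤ du - y by linarith)
          (show 0 ≤ S by linarith)]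
    · linarith [mul_nonneg hdu (show 0 ≤ S by linarith)]
  have := mul_nonneg hm0 hN0
  have := mul_nonneg hC0 hN0
  have := hmul (c := (7)) (K := (7)) pC qC (by norm_num) (by norm_num) (by norm_num) (by norm_num) (by assumption) (by assumption)
  have := hmul (c := (-2)) (K := (1)) pC q11 (by norm_num) (by norm_num) (by norm_num) (by norm_num) (by assumption) (by assumption)
  have := hmul (c := (16)) (K := (4)) p02 q02 (by norm_num) (by norm_num) (by norm_num) (by norm_num) (by assumption) (by assumption)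
  have := hmul (c := (-8)) (K := (4)) p02 q11 (by norm_num) (by norm_num) (by norm_num) (by norm_num) (by assumption) (by assumption)
  have := hmul (c := (-8)) (K := (0)) p02 q30 (by norm_num) (by norm_num) (by norm_num) (by norm_num) (by assumption) (by assumption)
  have := hmul (c := (-2)) (K := (2)) p11 qC (by norm_num) (by norm_num) (by norm_num) (by norm_num) (by assumption) (by assumption)
  have := hmul (c := (-8)) (K := (1)) p11 q02 (by norm_num) (by norm_num) (by norm_num) (by norm_num) (by assumption) (by assumption)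
  have := hmul (c := (28)) (K := (7)) p11 q11 (by norm_num) (by norm_num) (by norm_num) (by norm_num) (by assumption) (by assumption)
  have := hmul (c := (-6)) (K := (3)) p11 q20 (by norm_num) (by norm_num) (by norm_num) (by norm_num) (by assumption) (by assumption)
  have := hmul (c := (-12)) (K := (3/2)) p11 q30 (by norm_num) (by norm_num) (by norm_num) (by norm_num) (by assumption) (by assumption)
  have := hmul (c := (-6)) (K := (3)) p20 q11 (by norm_num) (by norm_num) (by norm_num) (by norm_num) (by assumption) (by assumption)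
  have := hmul (c := (18)) (K := (18)) p20 q20 (by norm_num) (by norm_num) (by norm_num) (by norm_num) (by assumption) (by assumption)
  have := hmul (c := (-12)) (K := (0)) p20 q30 (by norm_num) (by norm_num) (by norm_num) (by norm_num) (by assumption) (by assumption)
  have := hmul (c := (-8)) (K := (0)) p30 q02 (by norm_num) (by norm_num) (by norm_num) (by norm_num) (by assumption) (by assumption)
  have := hmul (c := (-12)) (K := (6)) p30 q11 (by norm_num) (by norm_num) (by norm_num) (by norm_num) (by assumption) (by assumption)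
  have := hmul (c := (-12)) (K := (0)) p30 q20 (by norm_num) (by norm_num) (by norm_num) (by norm_num) (by assumption) (by assumption)
  have := hmul (c := (32)) (K := (8)) p30 q30 (by norm_num) (by norm_num) (by norm_num) (by norm_num) (by assumption) (by assumption)
  linarith

theorem pL {a y Ch Dh m N l dl S t C D s20 s11 s02 s30 s21 t20 t11 t02 t30 t21 : ℝ}
    (pa : 0 * a ≤ S ∧ S ≤ 1 * a) (qa : 0 * y ≤ t ∧ t ≤ 1 * y)
    (pC : -1 * Ch ≤ C ∧ C ≤ 1 * Ch) (qC : -1 * Dh ≤ D ∧ D ≤ 1 * Dh)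
    (p20 : 0 * m ≤ s20 ∧ s20 ≤ 1 * m) (p11 : -(1 / 2) * m ≤ s11 ∧ s11 ≤ 1 * m)
    (p02 : 0 * m ≤ s02 ∧ s02 ≤ 1 * m) (p30 : 0 * m ≤ s30 ∧ s30 ≤ 1 * m)
    (p21 : -(1 / 2) * m ≤ s21 ∧ s21 ≤ 1 * m)
    (q20 : 0 * N ≤ t20 ∧ t20 ≤ 1 * N) (q11 : -(1 / 2) * N ≤ t11 ∧ t11 ≤ (1 / 4) * N)
    (q02 : 0 * N ≤ t02 ∧ t02 ≤ (1 / 4) * N) (q30 : 0 * N ≤ t30 ∧ t30 ≤ (1 / 4) * N)
    (q21 : -(1 / 8) * N ≤ t21 ∧ t21 ≤ (1 / 16) * N)
    (ha0 : 0 ≤ a) (hy0 : 0 ≤ y) (hC0 : 0 ≤ Ch) (hD0 : 0 ≤ Dh) (hm0 : 0 ≤ m) (hN0 : 0 ≤ N)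
    (ha1 : a ≤ 1 / 6) (hy1 : y ≤ 1 / 6) (hl : -l ≤ C) (hl0 : 0 ≤ l) (hDl : -dl ≤ D)
    (hdl : 0 ≤ dl) :
    (-1) * D + (-1) * C + (2) * C * D + (6) * C * t + (-1) * C * t11 + (9) * C * t20
      + (8) * s02 * t02 + (-4) * s02 * t11 + (-4) * s02 * t30 + (6) * S * D + (-6) * S * t
      + (9) * S * t20 + (-1) * s11 * D + (-4) * s11 * t02 + (14) * s11 * t11
      + (-3) * s11 * t20 + (-6) * s11 * t30 + (9) * s20 * D + (9) * s20 * t
      + (-3) * s20 * t11 + (9) * s20 * t20 + (-6) * s20 * t30 + (-4) * s30 * t02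
      + (-6) * s30 * t11 + (-6) * s30 * t20 + (16) * s30 * t30
      ≤ l + dl + 2 * Ch * Dh + 9 * (a * N + m * y) + 10 * Ch * N + 10 * m * Dh
        + 31.25 * m * N := by
  have := mul_nonneg (show 0 ≤ C + l by linarith) (show 0 ≤ 1 - 6 * t by linarith)
  have := mul_nonneg (show 0 ≤ D + dl by linarith) (show 0 ≤ 1 - 6 * S by linarith)
  have := mul_nonneg (show 0 ≤ S by linarith) (show 0 ≤ t by linarith)
  have := mul_nonneg hl0 (show 0 ≤ t by linarith)
  have := mul_nonneg hdl (show 0 ≤ S by linarith)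
  have := mul_nonneg hm0 hN0
  have := mul_nonneg hC0 hN0
  have := hmul (c := (2)) (K := (2)) pC qC (by norm_num) (by norm_num) (by norm_num) (by norm_num) (by assumption) (by assumption)
  have := hmul (c := (-1)) (K := (1/2)) pC q11 (by norm_num) (by norm_num) (by norm_num) (by norm_num) (by assumption) (by assumption)
  have := hmul (c := (9)) (K := (9)) pC q20 (by norm_num) (by norm_num) (by norm_num) (by norm_num) (by assumption) (by assumption)
  have := hmul (c := (8)) (K := (2)) p02 q02 (by norm_num) (by norm_num) (by norm_num) (by norm_num) (by assumption) (by assumption)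
  have := hmul (c := (-4)) (K := (2)) p02 q11 (by norm_num) (by norm_num) (by norm_num) (by norm_num) (by assumption) (by assumption)
  have := hmul (c := (-4)) (K := (0)) p02 q30 (by norm_num) (by norm_num) (by norm_num) (by norm_num) (by assumption) (by assumption)
  have := hmul (c := (9)) (K := (9)) pa q20 (by norm_num) (by norm_num) (by norm_num) (by norm_num) (by assumption) (by assumption)
  have := hmul (c := (-1)) (K := (1)) p11 qC (by norm_num) (by norm_num) (by norm_num) (by norm_num) (by assumption) (by assumption)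
  have := hmul (c := (-4)) (K := (1/2)) p11 q02 (by norm_num) (by norm_num) (by norm_num) (by norm_num) (by assumption) (by assumption)
  have := hmul (c := (14)) (K := (7/2)) p11 q11 (by norm_num) (by norm_num) (by norm_num) (by norm_num) (by assumption) (by assumption)
  have := hmul (c := (-3)) (K := (3/2)) p11 q20 (by norm_num) (by norm_num) (by norm_num) (by norm_num) (by assumption) (by assumption)
  have := hmul (c := (-6)) (K := (3/4)) p11 q30 (by norm_num) (by norm_num) (by norm_num) (by norm_num) (by assumption) (by assumption)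
  have := hmul (c := (9)) (K := (9)) p20 qC (by norm_num) (by norm_num) (by norm_num) (by norm_num) (by assumption) (by assumption)
  have := hmul (c := (9)) (K := (9)) p20 qa (by norm_num) (by norm_num) (by norm_num) (by norm_num) (by assumption) (by assumption)
  have := hmul (c := (-3)) (K := (3/2)) p20 q11 (by norm_num) (by norm_num) (by norm_num) (by norm_num) (by assumption) (by assumption)
  have := hmul (c := (9)) (K := (9)) p20 q20 (by norm_num) (by norm_num) (by norm_num) (by norm_num) (by assumption) (by assumption)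
  have := hmul (c := (-6)) (K := (0)) p20 q30 (by norm_num) (by norm_num) (by norm_num) (by norm_num) (by assumption) (by assumption)
  have := hmul (c := (-4)) (K := (0)) p30 q02 (by norm_num) (by norm_num) (by norm_num) (by norm_num) (by assumption) (by assumption)
  have := hmul (c := (-6)) (K := (3)) p30 q11 (by norm_num) (by norm_num) (by norm_num) (by norm_num) (by assumption) (by assumption)
  have := hmul (c := (-6)) (K := (0)) p30 q20 (by norm_num) (by norm_num) (by norm_num) (by norm_num) (by assumption) (by assumption)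
  have := hmul (c := (16)) (K := (4)) p30 q30 (by norm_num) (by norm_num) (by norm_num) (by norm_num) (by assumption) (by assumption)
  linarith

/-- Moments of the combination of an edge with a further law. -/
theorem step {A R : Law 3} {a l u m x L U M Ch Dh : ℝ} (hA : Bnd A a l u m) (hR : Bnd R x L U M)
    (ha : a ≤ 1 / 6) (hx : x ≤ 4 / 6) (hcor : u * (x / 4) + L / 8 * a ≤ a * (x / 4)) (hl0 : 0 ≤ l)
    (hu0 : 0 ≤ u) (hL0 : 0 ≤ L) (hU0 : 0 ≤ U) (hCl : l ≤ Ch) (hCu : u ≤ Ch) (hDl : U / 8 ≤ Dh)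
    (hDu : L / 8 ≤ Dh) :
    Bnd ((edge R).merge (by norm_num) A)
      (a + x / 4 - a * (x / 4) + 2 * l * (x / 4) + 2 * a * (U / 8) + 2 * a * (M / 16)
        + 2 * m * (x / 4) + 2 * Ch * Dh + 3 * Ch * (M / 16) + 4 * m * Dh + 12 * m * (M / 16))
      (l + U / 8 + 2 * Ch * Dh + 9 * (a * (M / 16) + m * (x / 4)) + 10 * Ch * (M / 16)
        + 10 * m * Dh + 31.25 * m * (M / 16))
      (u * (1 - 6 * (x / 4)) + L / 8 * (1 - 6 * a) + 6 * a * (x / 4) + 7 * Ch * Dh
        + Ch * (M / 16) + 2 * m * Dh + 62.5 * m * (M / 16))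
      (m + M / 16 + 4 * a * (x / 4) + 4 * u * (x / 4) + 4 * a * (L / 8) + 10 * a * (M / 16)
        + 10 * m * (x / 4) + 10 * Ch * Dh + 13 * Ch * (M / 16) + 14 * m * Dh
        + 215 * m * (M / 16)) := by
  obtain ⟨hS, hl, hu, hm⟩ := hA
  obtain ⟨rS, rl, ru, rm⟩ := hR
  set N := M / 16 with hN
  set y := x / 4 with hy
  set dl := U / 8 with hdl
  set du := L / 8 with hdu
  have hS0 : 0 ≤ A.S := Law.S_nonneg (by norm_num) A
  have rS0 : 0 ≤ R.S := Law.S_nonneg (by norm_num) R
  obtain ⟨a1, a2, a3, a4, a5, a6, a7, a8, a9⟩ := E_mon_le A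
  obtain ⟨b1, b2, b3, b4, b5, b6, b7, b8, b9⟩ := E_mon_le R
  set b : ℕ → ℕ → ℝ := fun k l => (1 / 4) ^ k * (-1 / 8) ^ l * R.E (mon k l) with hb
  have hE : ∀ Ls, (edge R).E (fun v => A.E (fun w => pev Ls v w)) =
      (Ls.map fun z => z.1 * A.E (mon z.2.1 z.2.2.1) * b z.2.2.2.1 z.2.2.2.2).sum := by
    intro Ls
    exact E_pev A (edge R) id (fun i j => A.E (mon i j)) b (fun _ _ => rfl)
      (fun k l => edge_E_mon R k l) Ls
  have bS : b 1 0 = R.S / 4 := by simp [hb, mon_S]; ring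
  have bC : b 0 1 = -(CC R) / 8 := by simp [hb, mon_C]; ring
  have b00 : b 0 0 = 1 := by simp [hb, mon_one]
  have hm0 : 0 ≤ m := a9.trans hm
  have hN0 : 0 ≤ N := by rw [hN]; linarith [b9.trans rm]
  have hy0 : 0 ≤ y := by rw [hy]; linarith
  have ha0 : 0 ≤ a := hS0.trans hS
  have hC0 : 0 ≤ Ch := hl0.trans hCl
  have hD0 : 0 ≤ Dh := le_trans (by rw [hdl]; linarith) hDl
  have pa : 0 * a ≤ A.S ∧ A.S ≤ 1 * a := ⟨by linarith, by linarith⟩
  have qa : 0 * y ≤ b 1 0 ∧ b 1 0 ≤ 1 * y := by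
    rw [bS]; constructor <;> linarith
  have pC : -1 * Ch ≤ CC A ∧ CC A ≤ 1 * Ch := ⟨by linarith, by linarith⟩
  have qC : -1 * Dh ≤ b 0 1 ∧ b 0 1 ≤ 1 * Dh := by
    rw [bC]; constructor <;> linarith
  have p20 : 0 * m ≤ MM A ∧ MM A ≤ 1 * m := ⟨by linarith, by linarith⟩
  have p11 : -(1 / 2) * m ≤ A.E (mon 1 1) ∧ A.E (mon 1 1) ≤ 1 * m := ⟨by linarith, by linarith⟩
  have p02 : 0 * m ≤ A.E (mon 0 2) ∧ A.E (mon 0 2) ≤ 1 * m := ⟨by linarith, by linarith⟩
  have p30 : 0 * m ≤ A.E (mon 3 0) ∧ A.E (mon 3 0) ≤ 1 * m := ⟨by linarith, by linarith⟩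
  have p21 : -(1 / 2) * m ≤ A.E (mon 2 1) ∧ A.E (mon 2 1) ≤ 1 * m := ⟨by linarith, by linarith⟩
  have q20 : 0 * N ≤ b 2 0 ∧ b 2 0 ≤ 1 * N := by
    simp only [hb, mon_M]; norm_num; constructor <;> linarith
  have q11 : -(1 / 2) * N ≤ b 1 1 ∧ b 1 1 ≤ (1 / 4) * N := by
    simp only [hb]; norm_num; constructor <;> linarith
  have q02 : 0 * N ≤ b 0 2 ∧ b 0 2 ≤ (1 / 4) * N := by
    simp only [hb]; norm_num; constructor <;> linarith
  have q30 : 0 * N ≤ b 3 0 ∧ b 3 0 ≤ (1 / 4) * N := by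
    simp only [hb]; norm_num; constructor <;> linarith
  have q21 : -(1 / 8) * N ≤ b 2 1 ∧ b 2 1 ≤ (1 / 16) * N := by
    simp only [hb]; norm_num; constructor <;> linarith
  have hDb : -dl ≤ b 0 1 ∧ b 0 1 ≤ du := by
    rw [bC, hdl, hdu]; constructor <;> linarith
  have hy1 : y ≤ 1 / 6 := by rw [hy]; linarith
  have hdl0 : 0 ≤ dl := by rw [hdl]; linarith
  have hdu0 : 0 ≤ du := by rw [hdu]; linarith
  refine ⟨?_, ?_, ?_, ?_⟩
  · refine (merge_le A (edge R) (fun v w hv hw => (merged_bounds hv hw).1)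
      (fun v w hv hw => avp_polX hv hw)).trans ?_
    rw [hE]
    simp only [listX, List.map_cons, List.map_nil, List.sum_cons, List.sum_nil, mon_S, mon_C,
      mon_M, mon_one, b00]
    linarith [pX pa qa pC qC p20 p11 p02 p30 p21 q20 q11 q02 q30 q21 ha0 hy0 hC0 hD0 hm0 hN0 ha hy1 hl hl0 hDb.1 hdl0]
  · rw [neg_le]
    have h := merge_le A (edge R) (g := fun w => -cc w) (P := fun v w => -polL v w)
      (L := listL.map fun z => (-z.1, z.2))
      (fun v w hv hw => by rw [mul_neg]; exact neg_le_neg (merged_bounds hv hw).2.2.2)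
      (fun v w hv hw => by
        have e := avp_polL hv hw
        simp only [avp, pev, listL, List.map_cons, List.map_nil, List.sum_cons,
          List.sum_nil] at e ⊢
        linarith)
    have hneg : ((edge R).merge (by norm_num) A).E (fun w => -cc w)
        = -CC ((edge R).merge (by norm_num) A) := map_neg _ cc
    rw [← hneg]
    refine h.trans ?_
    rw [hE]
    simp only [listL, List.map_cons, List.map_nil, List.sum_cons, List.sum_nil, mon_S, mon_C,
      mon_M, mon_one, b00]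
    linarith [pL pa qa pC qC p20 p11 p02 p30 p21 q20 q11 q02 q30 q21 ha0 hy0 hC0 hD0 hm0 hN0 ha hy1 hl hl0 hDb.1 hdl0]
  · refine (merge_le A (edge R) (fun v w hv hw => (merged_bounds hv hw).2.2.1)
      (fun v w hv hw => avp_polU hv hw)).trans ?_
    rw [hE]
    simp only [listU, List.map_cons, List.map_nil, List.sum_cons, List.sum_nil, mon_S, mon_C,
      mon_M, mon_one, b00]
    linarith [pU pa qa pC qC p20 p11 p02 p30 p21 q20 q11 q02 q30 q21 ha0 hy0 hC0 hD0 hm0 hN0 ha hy1 hu hu0 hDb.2 hdu0 hcor]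
  · refine (merge_le A (edge R) (fun v w hv hw => (merged_bounds hv hw).2.1)
      (fun v w hv hw => avp_polM hv hw)).trans ?_
    rw [hE]
    simp only [listM, List.map_cons, List.map_nil, List.sum_cons, List.sum_nil, mon_S, mon_C,
      mon_M, mon_one, b00]
    linarith [pM pa qa pC qC p20 p11 p02 p30 p21 q20 q11 q02 q30 q21 ha0 hy0 hC0 hD0 hm0 hN0 hu hu0 hDb.2 hdu0]

/-- `k` children, each carrying `R`. -/
def run (R : Law 3) (k : ℕ) : Law 3 := Law.node (by norm_num) k fun _ => edge R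

theorem rootLaw_succ (n : ℕ) : rootLaw (n + 1) = run (rootLaw n) 4 := rfl

theorem run_one_E (R : Law 3) (g : (Fin 3 → ℝ) → ℝ) : (run R 1).E g = (edge R).E g := by
  show (edge R).E (fun u => mz u 0 * g (merged u 0)) = _
  refine (edge R).congr fun u hu => ?_
  have h1 : mz u 0 = 1 := by simp [mz, Finset.sum_add_distrib, hu.1]
  have h2 : merged u 0 = u := by funext i; simp [merged, h1]
  rw [h1, h2, one_mul]

theorem run_succ (R : Law 3) (k : ℕ) :
    run R (k + 1) = (edge R).merge (by norm_num) (run R k) := rfl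

theorem run_one {R : Law 3} {x L U M : ℝ} (h : Bnd R x L U M) :
    Bnd (run R 1) (x / 4) (U / 8) (L / 8) (M / 16) := by
  obtain ⟨h1, h2, h3, h4⟩ := h
  have e1 : (run R 1).S = R.S / 4 := by
    rw [← mon_S, run_one_E, edge_E_mon, mon_S]; ring
  have e2 : CC (run R 1) = -(CC R) / 8 := by
    rw [← mon_C, run_one_E, edge_E_mon, mon_C]; ring
  have e3 : MM (run R 1) = MM R / 16 := by
    rw [← mon_M, run_one_E, edge_E_mon, mon_M]; ring
  constructor <;> linarith

/-- The invariant. -/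
def Inv (A : Law 3) (B : ℝ) : Prop :=
  Bnd A B (2.65 * B ^ 2) (3.63 * B ^ 2) (4.35 * B ^ 2)

theorem settle0 {R : Law 3} (h : Bnd R (1 / 20) (83 / 5000) (83 / 5000) (11 / 2000)) :
    Bnd (run R 4) (50069 / 1000000) (2391 / 250000) (6123 / 500000) (537 / 62500) := by
  have h1 : Bnd (run R 1) (1 / 80) (83 / 40000) (83 / 40000) (11 / 32000) :=
    (run_one h).weaken (by norm_num) (by norm_num) (by norm_num) (by norm_num)
  have h2 : Bnd (run R 2) (1249 / 50000) (2127 / 500000) (301 / 62500) (847 / 500000) := by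
    rw [run_succ]
    refine (step (Ch := (83 / 40000)) (Dh := (83 / 40000)) h1 h ?_ ?_ ?_ ?_ ?_ ?_ ?_ ?_ ?_ ?_ ?_).weaken
      ?_ ?_ ?_ ?_ <;> norm_num
  have h3 : Bnd (run R 3) (9371 / 250000) (6687 / 1000000) (513 / 62500) (4329 / 1000000) := by
    rw [run_succ]
    refine (step (Ch := (301 / 62500)) (Dh := (83 / 40000)) h2 h ?_ ?_ ?_ ?_ ?_ ?_ ?_ ?_ ?_ ?_ ?_).weaken
      ?_ ?_ ?_ ?_ <;> norm_num
  have h4 : Bnd (run R 4) (50069 / 1000000) (2391 / 250000) (6123 / 500000) (537 / 62500) := by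
    rw [run_succ]
    refine (step (Ch := (513 / 62500)) (Dh := (83 / 40000)) h3 h ?_ ?_ ?_ ?_ ?_ ?_ ?_ ?_ ?_ ?_ ?_).weaken
      ?_ ?_ ?_ ?_ <;> norm_num
  exact h4

theorem settle1 {R : Law 3} (h : Bnd R (1 / 20) (2391 / 250000) (6123 / 500000) (537 / 62500)) :
    Bnd (run R 4) (24977 / 500000) (7657 / 1000000) (9483 / 1000000) (1873 / 200000) := by
  have h1 : Bnd (run R 1) (1 / 80) (6123 / 4000000) (2391 / 2000000) (537 / 1000000) :=
    (run_one h).weaken (by norm_num) (by norm_num) (by norm_num) (by norm_num)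
  have h2 : Bnd (run R 2) (12481 / 500000) (3213 / 1000000) (3187 / 1000000) (2061 / 1000000) := by
    rw [run_succ]
    refine (step (Ch := (6123 / 4000000)) (Dh := (6123 / 4000000)) h1 h ?_ ?_ ?_ ?_ ?_ ?_ ?_ ?_ ?_ ?_ ?_).weaken
      ?_ ?_ ?_ ?_ <;> norm_num
  have h3 : Bnd (run R 3) (18713 / 500000) (519 / 100000) (5949 / 1000000) (4871 / 1000000) := by
    rw [run_succ]
    refine (step (Ch := (3213 / 1000000)) (Dh := (6123 / 4000000)) h2 h ?_ ?_ ?_ ?_ ?_ ?_ ?_ ?_ ?_ ?_ ?_).weaken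
      ?_ ?_ ?_ ?_ <;> norm_num
  have h4 : Bnd (run R 4) (24977 / 500000) (7657 / 1000000) (9483 / 1000000) (1873 / 200000) := by
    rw [run_succ]
    refine (step (Ch := (5949 / 1000000)) (Dh := (6123 / 4000000)) h3 h ?_ ?_ ?_ ?_ ?_ ?_ ?_ ?_ ?_ ?_ ?_).weaken
      ?_ ?_ ?_ ?_ <;> norm_num
  exact h4

theorem settle2 {R : Law 3} (h : Bnd R (1 / 20) (7657 / 1000000) (9483 / 1000000) (1873 / 200000)) :
    Bnd (run R 4) (997 / 20000) (3157 / 500000) (4359 / 500000) (297 / 31250) := by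
  have h1 : Bnd (run R 1) (1 / 80) (9483 / 8000000) (7657 / 8000000) (1873 / 3200000) :=
    (run_one h).weaken (by norm_num) (by norm_num) (by norm_num) (by norm_num)
  have h2 : Bnd (run R 2) (4989 / 200000) (253 / 100000) (1371 / 500000) (429 / 200000) := by
    rw [run_succ]
    refine (step (Ch := (9483 / 8000000)) (Dh := (9483 / 8000000)) h1 h ?_ ?_ ?_ ?_ ?_ ?_ ?_ ?_ ?_ ?_ ?_).weaken
      ?_ ?_ ?_ ?_ <;> norm_num
  have h3 : Bnd (run R 3) (299 / 8000) (261 / 62500) (533 / 100000) (623 / 125000) := by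
    rw [run_succ]
    refine (step (Ch := (1371 / 500000)) (Dh := (9483 / 8000000)) h2 h ?_ ?_ ?_ ?_ ?_ ?_ ?_ ?_ ?_ ?_ ?_).weaken
      ?_ ?_ ?_ ?_ <;> norm_num
  have h4 : Bnd (run R 4) (997 / 20000) (3157 / 500000) (4359 / 500000) (297 / 31250) := by
    rw [run_succ]
    refine (step (Ch := (533 / 100000)) (Dh := (9483 / 8000000)) h3 h ?_ ?_ ?_ ?_ ?_ ?_ ?_ ?_ ?_ ?_ ?_).weaken
      ?_ ?_ ?_ ?_ <;> norm_num
  exact h4

theorem stages {R : Law 3} {B : ℝ} (hB0 : 0 ≤ B) (hB : B ≤ 1 / 20) (h : Inv R B) :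
    Inv (run R 4) (B - 0.03 * B ^ 2) := by
  have h2B := mul_le_mul_of_nonneg_left hB hB0
  have h3B : B ^ 3 ≤ B ^ 2 / 20 := by nlinarith
  have h4B : B ^ 4 ≤ B ^ 3 / 20 := by nlinarith [mul_le_mul_of_nonneg_left hB (pow_nonneg hB0 3)]
  have p2 := sq_nonneg B
  have p3 := pow_nonneg hB0 3
  have p4 := pow_nonneg hB0 4
  have h1 : Bnd (run R 1) (B / 4) (0.45375 * B ^ 2) (0.33125 * B ^ 2) (0.271875 * B ^ 2) :=
    (run_one h).weaken le_rfl (by linarith) (by linarith) (by linarith)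
  have h2 : Bnd (run R 2) (2 * (B / 4) - 0.02 * B ^ 2) (0.983 * B ^ 2) (1.038 * B ^ 2)
      (0.949 * B ^ 2) := by
    rw [run_succ]
    exact (step (Ch := 0.45375 * B ^ 2) (Dh := 0.45375 * B ^ 2) h1 h (by linarith) (by linarith)
      (by linarith) (by positivity) (by positivity) (by positivity) (by positivity)
      (by linarith) (by linarith) (by linarith) (by linarith)).weaken
      (by linarith) (by linarith) (by linarith) (by linarith)
  have h3 : Bnd (run R 3) (3 * (B / 4) - 0.043 * B ^ 2) (1.646 * B ^ 2) (2.12 * B ^ 2)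
      (2.167 * B ^ 2) := by
    rw [run_succ]
    exact (step (Ch := 1.038 * B ^ 2) (Dh := 0.45375 * B ^ 2) h2 h (by linarith) (by linarith)
      (by linarith) (by positivity) (by positivity) (by positivity) (by positivity)
      (by linarith) (by linarith) (by linarith) (by linarith)).weaken
      (by linarith) (by linarith) (by linarith) (by linarith)
  have h4 : Bnd (run R 4) (B - 0.043 * B ^ 2) (2.526 * B ^ 2) (3.58 * B ^ 2)
      (4.11 * B ^ 2) := by
    rw [run_succ]
    exact (step (Ch := 2.12 * B ^ 2) (Dh := 0.45375 * B ^ 2) h3 h (by linarith) (by linarith)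
      (by linarith) (by positivity) (by positivity) (by positivity) (by positivity)
      (by linarith) (by linarith) (by linarith) (by linarith)).weaken
      (by linarith) (by linarith) (by linarith) (by linarith)
  have hsq : 0.997 * B ^ 2 ≤ (B - 0.03 * B ^ 2) ^ 2 := by linarith
  exact h4.weaken (by linarith) (by linarith) (by linarith) (by linarith)

theorem abs_CC_le (A : Law 3) :
    -(3 / 2 * MM A + A.S / 6) ≤ CC A ∧ CC A ≤ 3 / 2 * MM A + A.S / 6 := by
  have key : ∀ u, Dev u → -(3 / 2 * ss u ^ 2 + 1 / 6 * ss u) ≤ cc u ∧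
      cc u ≤ 3 / 2 * ss u ^ 2 + 1 / 6 * ss u := by
    intro u hu
    have h0 : 0 ≤ ss u := ss_nonneg (by norm_num) u
    have h3 : cc u ^ 2 ≤ ss u ^ 3 := by
      rw [ss_three, cc_three, dev3 hu]
      linarith [sq_nonneg ((u 0 - u 1) * (2 * u 1 + u 0) * (2 * u 0 + u 1))]
    have h4 : ss u ^ 3 ≤ (3 / 2 * ss u ^ 2 + 1 / 6 * ss u) ^ 2 := by
      nlinarith [sq_nonneg (ss u * (3 / 2 * ss u - 1 / 6))]
    exact abs_le.mp (abs_le_of_sq_le_sq (h3.trans h4) (by positivity))
  have e : A.E (fun u => 3 / 2 * ss u ^ 2 + 1 / 6 * ss u) = 3 / 2 * MM A + A.S / 6 := by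
    rw [A.add_fun, A.smul_fun, A.smul_fun]
    simp only [MM, Law.S]
    ring
  rw [← e]
  constructor
  · rw [neg_le, CC]
    calc -A.E cc = A.E (fun u => -cc u) := (map_neg A.E cc).symm
      _ ≤ _ := A.mono _ _ fun u hu => neg_le.mp (key u hu).1
  · exact A.mono _ _ fun u hu => (key u hu).2

/-- The root second moment tends to zero once the computation has made it small. -/
theorem localStatement : LocalStatement := by
  rintro ⟨n₀, hS, hM⟩
  have h0 : Bnd (rootLaw n₀) (1 / 20) (83 / 5000) (83 / 5000) (11 / 2000) := by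
    obtain ⟨a, b⟩ := abs_CC_le (rootLaw n₀)
    have := hS n₀ le_rfl
    exact ⟨this, by linarith, by linarith, hM⟩
  have next' : ∀ n l u m a, n₀ ≤ n → Bnd (run (rootLaw n) 4) a l u m →
      Bnd (rootLaw (n + 1)) (1 / 20) l u m := fun n l u m a hn h => by
    rw [rootLaw_succ]
    exact ⟨by rw [← rootLaw_succ]; exact hS _ (by omega), h.hl, h.hu, h.hm⟩
  have h1 := next' n₀ _ _ _ _ le_rfl (settle0 h0)
  have h2 := next' (n₀ + 1) _ _ _ _ (by omega) (settle1 h1)
  have h3 := next' (n₀ + 2) _ _ _ _ (by omega) (settle2 h2)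
  set n₁ := n₀ + 3 with hn₁
  let Bs : ℕ → ℝ := fun k => Nat.rec (1 / 20) (fun _ B => B - 0.03 * B ^ 2) k
  have hinv : ∀ k, 0 ≤ Bs k ∧ Bs k ≤ 1 / 20 ∧ Inv (rootLaw (n₁ + k)) (Bs k) := by
    intro k
    induction k with
    | zero =>
      refine ⟨by norm_num [Bs], by norm_num [Bs], ?_⟩
      exact h3.weaken (by norm_num [Bs]) (by norm_num [Bs]) (by norm_num [Bs]) (by norm_num [Bs])
    | succ k ih =>
      obtain ⟨p, q, r⟩ := ih
      have hs : Bs (k + 1) = Bs k - 0.03 * Bs k ^ 2 := rfl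
      refine ⟨by rw [hs]; nlinarith, by rw [hs]; nlinarith, ?_⟩
      rw [hs, ← Nat.add_assoc, rootLaw_succ]
      exact stages p q r
  have hB : Tendsto Bs atTop (𝓝 0) :=
    tendsto_zero_of_step (fun n => (hinv n).1) (c := 0.03) (by norm_num) 1
      (fun n => le_of_eq rfl)
  refine (tendsto_add_atTop_iff_nat n₁).1 (squeeze_zero (fun k => Law.S_nonneg (by norm_num) _)
    (fun k => ?_) hB)
  rw [Nat.add_comm]
  exact (hinv k).2.2.hS

end Vale.Agent.P154.D4
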