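import Vale.Agent.P154.D4.Order
import Vale.Agent.P154.D4.Local
import Vale.Agent.P154.Range

/-!
Monotonicity in the depth, and the passage from an upper family at one depth to nonreconstruction
on the `d`-ary tree for `d ≤ 4` and `λ ∈ [-1/2, 0]`.
-/

noncomputable section

namespace Vale.Agent.P154.D4

open Finset Filter Topology

/-- The order of information tested on functions sublinear on the orthant. -/
def LeP (e e' : Tr.Ens 3) : Prop := ∀ G, SubP G → e.S G ≤ e'.S G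

theorem LeP.mul {a a' b b' : Tr.Ens 3} (h : LeP a a') (h' : LeP b b') :
    LeP (a.mul b) (a'.mul b') := by
  intro G hG
  rw [Tr.Ens.S_mul, Tr.Ens.S_mul]
  refine le_trans (Finset.sum_le_sum fun x _ => h' _ (hG.comp_mul (u := a.L x) (a.nonneg x))) ?_
  simp only [Tr.Ens.S]
  rw [Finset.sum_comm, Finset.sum_comm (γ := a'.ι)]
  refine Finset.sum_le_sum fun y _ => ?_
  have := h _ (hG.comp_mul (u := b'.L y) (b'.nonneg y))
  simpa [Tr.Ens.S, mul_comm] using this

theorem LeP.chanE {e e' : Tr.Ens 3} (h : LeP e e') :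
    LeP (e.chanE (-(1 / 2)) chan_lo lam_hi) (e'.chanE (-(1 / 2)) chan_lo lam_hi) := by
  intro G hG
  rw [Tr.Ens.S_chanE, Tr.Ens.S_chanE]
  have hnn : ∀ x : Fin 3 → ℝ, NN x → NN (Tr.chanV (-(1 / 2)) x) := by
    intro x hx i
    simp only [Tr.chanV, Tr.mean, Fin.sum_univ_three]
    have := hx 0; have := hx 1; have := hx 2
    fin_cases i <;> (simp; linarith)
  refine h _ ⟨fun x y hx hy => ?_, fun c hc x hx => ?_⟩
  · refine le_of_eq_of_le (congrArg G ?_) (hG.add _ _ (hnn x hx) (hnn y hy))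
    funext i; simp [Tr.chanV, Tr.mean, sum_add_distrib, add_div]; ring
  · rw [← hG.smul c hc _ (hnn x hx)]
    refine congrArg G (funext fun i => ?_)
    simp [Tr.chanV, Tr.mean, ← mul_sum]
    ring

theorem LeP.prodE : ∀ (k : ℕ) {e e' : Tr.Ens 3}, LeP e e' →
    LeP (Tr.Ens.prodE k fun _ => e) (Tr.Ens.prodE k fun _ => e')
  | 0, _, _, _ => fun _ _ => le_rfl
  | k + 1, _, _, h => h.mul (LeP.prodE k h)

theorem SubP.sum_le {G : (Fin 3 → ℝ) → ℝ} (hG : SubP G) (a b c : Fin 3 → ℝ) (ha : NN a) (hb : NN b)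
    (hc : NN c) : G (a + b + c) ≤ G a + G b + G c :=
  (hG.add (a + b) c (fun i => add_nonneg (ha i) (hb i)) hc).trans
    (add_le_add (hG.add a b ha hb) le_rfl)

/-- The spin itself is the most informative observation. -/
theorem leP_leaf (e : Tr.Ens 3) : LeP e (Tr.Ens.leaf 3) := by
  intro G hG
  set d : Fin 3 → Fin 3 → ℝ := (Tr.Ens.leaf 3).L with hd
  have hdn : ∀ j, NN (d j) := (Tr.Ens.leaf 3).nonneg
  have key : ∀ x, G (e.L x) ≤ ∑ j, e.L x j * G (d j) := by
    intro x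
    have hn : ∀ j, NN (e.L x j • d j) := fun j i => mul_nonneg (e.nonneg x j) (hdn j i)
    have hdec : e.L x = e.L x 0 • d 0 + e.L x 1 • d 1 + e.L x 2 • d 2 := by
      funext i
      show _ = e.L x 0 * (if (0 : Fin 3) = i then 1 else 0) + e.L x 1 * (if (1 : Fin 3) = i then 1
        else 0) + e.L x 2 * (if (2 : Fin 3) = i then 1 else 0)
      fin_cases i <;> simp
    rw [Fin.sum_univ_three]
    conv_lhs => rw [hdec]
    refine (hG.sum_le _ _ _ (hn 0) (hn 1) (hn 2)).trans (le_of_eq ?_)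
    rw [hG.smul _ (e.nonneg x 0) _ (hdn 0), hG.smul _ (e.nonneg x 1) _ (hdn 1),
      hG.smul _ (e.nonneg x 2) _ (hdn 2)]
  calc e.S G ≤ ∑ x, ∑ j, e.L x j * G (d j) := Finset.sum_le_sum fun x _ => key x
    _ = ∑ j, G (d j) := by
        rw [Finset.sum_comm]
        refine Finset.sum_congr rfl fun j _ => ?_
        rw [← Finset.sum_mul, e.sum_one, one_mul]
    _ = _ := rfl

/-- The root observation at depth `n`. -/
def rootE (n : ℕ) : Tr.Ens 3 := Tr.treeE (-(1 / 2)) chan_lo lam_hi n (regular 4 n)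

theorem rootE_succ_le : ∀ n, LeP (rootE (n + 1)) (rootE n)
  | 0 => leP_leaf _
  | n + 1 => LeP.prodE 4 (rootE_succ_le n).chanE

theorem pers_smul (g : (Fin 3 → ℝ) → ℝ) {c : ℝ} (hc : 0 ≤ c) (x : Fin 3 → ℝ) :
    Tr.pers g (c • x) = c * Tr.pers g x := by
  have hm : Tr.mean (c • x) = c * Tr.mean x := by
    simp [Tr.mean, ← mul_sum, mul_div_assoc]
  rcases eq_or_lt_of_le hc with rfl | hc0
  · simp [Tr.pers, Tr.mean]
  · rw [Tr.pers, Tr.pers, hm, mul_assoc]
    congr 3
    funext i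
    simp only [Tr.dev, hm, Pi.smul_apply, smul_eq_mul]
    rw [mul_div_mul_left _ _ hc0.ne']

theorem mean_add (x y : Fin 3 → ℝ) : Tr.mean (x + y) = Tr.mean x + Tr.mean y := by
  simp [Tr.mean, sum_add_distrib, add_div]

theorem pers_ss_add {x y : Fin 3 → ℝ} (hx : 0 < Tr.mean x) (hy : 0 < Tr.mean y) :
    Tr.pers ss (x + y) ≤ Tr.pers ss x + Tr.pers ss y := by
  simp only [Tr.pers, ss_three, Tr.dev, mean_add, Pi.add_apply]
  set m := Tr.mean x
  set n := Tr.mean y
  have key : ∀ a b : ℝ, (m + n) * ((a + b) / (m + n) - 1) ^ 2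
      ≤ m * (a / m - 1) ^ 2 + n * (b / n - 1) ^ 2 := by
    intro a b
    have e : (a + b) / (m + n) - 1 = (m * (a / m - 1) + n * (b / n - 1)) / (m + n) := by
      field_simp; ring
    rw [e]
    set p := a / m - 1
    set r := b / n - 1
    rw [div_pow, ← mul_div_assoc, div_le_iff₀ (by positivity)]
    linarith [mul_nonneg (mul_nonneg (mul_nonneg hx.le hy.le) (show 0 ≤ m + n by linarith))
      (sq_nonneg (p - r))]
  linarith [key (x 0) (y 0), key (x 1) (y 1), key (x 2) (y 2)]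

theorem subP_pers {g : (Fin 3 → ℝ) → ℝ}
    (h : ∀ x y, NN x → NN y → 0 < Tr.mean x → 0 < Tr.mean y →
      Tr.pers g (x + y) ≤ Tr.pers g x + Tr.pers g y) : SubP (Tr.pers g) := by
  refine ⟨fun x y hx hy => ?_, fun c hc x _ => pers_smul g hc x⟩
  have hz : Tr.pers g (0 : Fin 3 → ℝ) = 0 := by simp [Tr.pers, Tr.mean]
  rcases eq_or_lt_of_le (Tr.mean_nonneg hx) with h0 | h0
  · rw [Tr.eq_zero_of_mean (by norm_num) hx h0.symm, zero_add, hz, zero_add]
  rcases eq_or_lt_of_le (Tr.mean_nonneg hy) with h1 | h1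
  · rw [Tr.eq_zero_of_mean (by norm_num) hy h1.symm, add_zero, hz, add_zero]
  exact h x y hx hy h0 h1

theorem subP_ss : SubP (Tr.pers ss : (Fin 3 → ℝ) → ℝ) :=
  subP_pers fun _ _ _ _ h0 h1 => pers_ss_add h0 h1

theorem subP_ss_sq : SubP (Tr.pers (fun u => ss u ^ 2) : (Fin 3 → ℝ) → ℝ) := by
  refine subP_pers fun x y _ _ h0 h1 => ?_
  have h := pers_ss_add h0 h1
  simp only [Tr.pers, mean_add] at h ⊢
  set m := Tr.mean x
  set n := Tr.mean y
  set a := ss (Tr.dev x)
  set b := ss (Tr.dev y)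
  set c := ss (Tr.dev (x + y))
  have hc : 0 ≤ c := ss_nonneg (by norm_num) _
  have h2 := mul_le_mul h h (mul_nonneg (by linarith) hc)
    (le_trans (mul_nonneg (by linarith) hc) h)
  refine le_of_mul_le_mul_left ?_ (show 0 < m + n by linarith)
  linarith [mul_nonneg (mul_nonneg h0.le h1.le) (sq_nonneg (a - b))]

theorem rootLaw_E (n : ℕ) (g : (Fin 3 → ℝ) → ℝ) : (rootLaw n).E g = (rootE n).E g :=
  (treeE_eq_treeLaw two_le _ lam_lo lam_hi n _ g).symm

/-- The second moment decreases in the depth. -/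
theorem S_antitone : Antitone fun n => (rootLaw n).S := by
  refine antitone_nat_of_succ_le fun n => ?_
  simp only [Law.S, rootLaw_E]
  exact rootE_succ_le n _ subP_ss

theorem edgeE_E (n : ℕ) (g : (Fin 3 → ℝ) → ℝ) :
    (edgeE n).E g = (rootLaw n).E fun u => g fun j => -(1 / 2) * u j := by
  rw [rootLaw_E]
  exact Tr.Ens.E_chanE (rootE n) (by norm_num) _ chan_lo lam_hi g

/-- An upper family at one depth gives `Transient`. -/
theorem transient_of_upper {n₀ : ℕ} {l : List (Fin 3 → ℝ)}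
    (h : ∀ G, SubP G → (edgeE n₀).S G ≤ lsum l G) (hS : 4 * lsum l (Tr.pers ss) ≤ 1 / 20)
    (hM : 16 * lsum l (Tr.pers fun u => ss u ^ 2) ≤ 11 / 2000) : Transient := by
  refine ⟨n₀, fun n hn => (S_antitone hn).trans ?_, ?_⟩
  · have h1 := h _ subP_ss
    have h2 : (edgeE n₀).E ss = 1 / 4 * (rootLaw n₀).S := by
      rw [edgeE_E, Law.S, ← Law.smul_fun]
      exact congrArg _ (funext ss_scale)
    rw [Tr.Ens.E] at h2
    show (rootLaw n₀).S ≤ _
    linarith
  · have h1 := h _ subP_ss_sq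
    have h2 : (edgeE n₀).E (fun u => ss u ^ 2) = 1 / 16 * MM (rootLaw n₀) := by
      rw [edgeE_E, MM, ← Law.smul_fun]
      refine congrArg _ (funext fun u => ?_)
      rw [ss_scale]; ring
    rw [Tr.Ens.E] at h2
    linarith

/-- Nonreconstruction on the `d`-ary tree, `d ≤ 4`, for `λ ∈ [-1/2, 0]`. -/
theorem nonReconstructs_four (h : Transient) (d : ℕ) (hd : d ≤ 4) (lam : ℝ)
    (hl : -(1 / 2) ≤ lam) (h0 : lam ≤ 0) : NonReconstructs (aRegular 3 lam d) := by
  have hN : NonReconstructs (aRegular 3 (-(1 / 2)) 4) :=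
    nonReconstructs_of_S two_le _ lam_lo lam_hi 4 (localStatement h)
  have hl' : -(1 / (((3 : ℕ) : ℝ) - 1)) ≤ lam := by norm_num; linarith
  refine squeeze_zero (fun n => advantage_nonneg two_le lam hl' (by linarith) n _) (fun n => ?_) hN
  refine (aRegular_mono two_le lam hl' (by linarith) hd n).trans ?_
  show advantage 3 lam n _ ≤ advantage 3 (-(1 / 2)) n _
  have he : lam = -2 * lam * -(1 / 2) := by ring
  conv_lhs => rw [he]
  exact advantage_mono_lam two_le (-2 * lam) (-(1 / 2)) (by linarith) (by linarith) lam_lo lam_hi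
    (he ▸ hl') (he ▸ (by linarith : lam ≤ 1)) n _

end Vale.Agent.P154.D4
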