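import Vale.Agent.P154.D4.Eval
import Vale.Agent.P154.D4.Data.CheckEnd

/-!
The first generation: one edge above a leaf is an exclusion.
-/

namespace Vale.Agent.P154.D4

open Finset

/-- The upper law of generation zero is exact. -/
theorem up_zero : Up 0 latA state0 := by
  refine ⟨state0_valid, fun g hg => le_of_eq ?_⟩
  have hW : state0.W.length = latA.reps.length := by decide +kernel
  rw [family_test _ (restW_nonneg latA_good state0_valid) hg, fvecs_test latA_good hW hg,
    Finset.sum_eq_zero fun k hk => ?_, zero_add]
  · have he : state0.e = 1 / 2 := by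
      norm_num [State.e, state0, unitP, bitsP]
    have hv : NN v110 := fun c => by fin_cases c <;> norm_num [v110]
    have h0 : ∀ σ : Equiv.Perm (Fin 3), g (fun i => 1 / 2 * v110 (σ i)) = 1 / 2 * g v110 := by
      intro σ
      rw [hg.symm σ fun i => 1 / 2 * v110 i, ← hg.subP.smul (1 / 2) (by norm_num) _ hv]
      rfl
    have e : (edgeE 0).S g = ∑ x : Fin 3, g (chalf fun i => if x = i then 1 else 0) := by
      rw [edgeE, Tr.Ens.S_chanE]
      simp only [chanV_half]
      rfl
    rw [e, he, Fin.sum_univ_three]
    have a0 : (chalf fun i => if (0 : Fin 3) = i then 1 else 0) =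
        fun i => 1 / 2 * v110 (Equiv.swap 0 2 i) := by
      funext i; fin_cases i <;> norm_num [chalf, v110, Equiv.swap_apply_def, Fin.ext_iff] <;> rfl
    have a1 : (chalf fun i => if (1 : Fin 3) = i then 1 else 0) =
        fun i => 1 / 2 * v110 (Equiv.swap 1 2 i) := by
      funext i; fin_cases i <;> norm_num [chalf, v110, Equiv.swap_apply_def, Fin.ext_iff] <;> rfl
    have a2 : (chalf fun i => if (2 : Fin 3) = i then 1 else 0) =
        fun i => 1 / 2 * v110 ((1 : Equiv.Perm (Fin 3)) i) := by
      funext i; fin_cases i <;> norm_num [chalf, v110, Fin.ext_iff]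
    rw [a0, a1, a2, h0, h0, h0]
    ring
  · have : state0.W.getD k 0 = 0 := by
      have h : ∀ k < latA.reps.length, state0.W.getD k 0 = 0 := by decide +kernel
      exact h k (mem_range.1 hk)
    rw [this, Nat.cast_zero, mul_zero, zero_div, zero_mul]

lemma valid_of_step {d : StepData} {G : Lat} (hG : d.src = G) {s s' : State}
    (h : d.step s = (s', true)) : G.valid s = true := by
  simp only [StepData.step, Prod.mk.injEq, Bool.and_eq_true] at h
  exact hG ▸ h.2.2

lemma up_step {d : StepData} {G dst : Lat} (hG : d.src = G) (hok : d.ok dst = true) {s s' : State}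
    (h : d.step s = (s', true)) (hv : dst.valid s' = true) {n : ℕ} (hu : Up n G s) :
    Up (n + 1) dst s' := by
  subst hG
  exact step_sound d dst hok h hv hu

end Vale.Agent.P154.D4
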