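import Mathlib.Data.Nat.Notation

/-!
The computation for the `4`-ary tree at `λ = -1/2`: laws of an edge are bounded above, in the
order of information, by laws on the points `(t ^ i, t ^ j, t ^ k)` of a lattice, `t = p / q`.
Four-fold products are fourth powers of one natural number (Kronecker substitution).
-/

namespace Vale.Agent.P154.D4

/-- A lattice: the ratio `p / q`, the depth `L`, and the orbit representatives used. -/
structure Lat where
  p : ℕ
  q : ℕ
  L : ℕ
  reps : List (ℕ × ℕ × ℕ)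

/-- Number of binary digits of a weight. -/
def bitsP : ℕ := 64

/-- Number of binary digits of a table entry. -/
def bitsT : ℕ := 64

/-- The width of a row of slots. -/
def Lat.wid (G : Lat) : ℕ := 8 * G.L + 1

/-- The six permutations of a triple. -/
def six (e : ℕ × ℕ × ℕ) : List (ℕ × ℕ × ℕ) :=
  [(e.1, e.2.1, e.2.2), (e.1, e.2.2, e.2.1), (e.2.1, e.1, e.2.2), (e.2.1, e.2.2, e.1),
    (e.2.2, e.1, e.2.1), (e.2.2, e.2.1, e.1)]

/-- Slot and integral weight of an atom, in the chart where the last coordinate is `1`. -/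
def Lat.atom2 (G : Lat) (W : ℕ) (e : ℕ × ℕ × ℕ) : ℕ × ℕ :=
  ((e.1 + G.L - e.2.2) * G.wid + (e.2.1 + G.L - e.2.2), W * (G.p ^ e.2.2 * G.q ^ (G.L - e.2.2)))

/-- The same on the face where the last coordinate vanishes. -/
def Lat.atom1 (G : Lat) (W : ℕ) (e : ℕ × ℕ × ℕ) : ℕ × ℕ :=
  (e.1 + G.L - e.2.1, W * (G.p ^ e.2.1 * G.q ^ (G.L - e.2.1)))

/-- All atoms. -/
def Lat.atoms (G : Lat) (f : Lat → ℕ → ℕ × ℕ × ℕ → ℕ × ℕ) (W : List ℕ) : List (ℕ × ℕ) :=
  (W.zip G.reps).flatMap fun we => (six we.2).map (f G we.1)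

/-- Kronecker substitution. -/
def pack (K : ℕ) : List (ℕ × ℕ) → ℕ
  | [] => 0
  | a :: l => (a.2 <<< (K * a.1)) + pack K l

/-- The same number, summed by halving the range of slots, which keeps the partial sums short. -/
def packT (K : ℕ) : ℕ → ℕ → List (ℕ × ℕ) → ℕ
  | 0, _, l => pack K l
  | f + 1, h, l =>
    packT K f (h / 2) (l.filter fun a => Nat.blt a.1 h) +
      (packT K f (h / 2) ((l.filter fun a => !(Nat.blt a.1 h)).map fun a => (a.1 - h, a.2))
        <<< (K * h))

/-- Sum of the weights. -/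
def mass : List (ℕ × ℕ) → ℕ
  | [] => 0
  | a :: l => a.2 + mass l

/-- A table entry: three targets with weights, and the weight of the exclusion point. -/
structure Entry where
  i1 : ℕ
  i2 : ℕ
  i3 : ℕ
  w1 : ℕ
  w2 : ℕ
  w3 : ℕ
  wE : ℕ

/-- Decoding of an entry. -/
def Entry.ofNat (x : ℕ) : Entry :=
  { i1 := x % 2 ^ 10
    i2 := x / 2 ^ 10 % 2 ^ 10
    i3 := x / 2 ^ 20 % 2 ^ 10
    w1 := x / 2 ^ 30 % 2 ^ 96
    w2 := x / 2 ^ 126 % 2 ^ 96
    w3 := x / 2 ^ 222 % 2 ^ 96
    wE := x / 2 ^ 318 }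

/-- Contribution of one entry, packed by target; slot `n` is the exclusion point. -/
def Entry.pack (K n : ℕ) (c : ℕ) (e : Entry) : ℕ × ℕ :=
  (((c * e.w1) <<< (K * e.i1)) + ((c * e.w2) <<< (K * e.i2)) + ((c * e.w3) <<< (K * e.i3)) +
      ((c * e.wE) <<< (K * n)),
    c * (e.w1 + e.w2 + e.w3 + e.wE))

/-- Multiplicity of a slot of the sector `A ≤ B ≤ m`. -/
def mult (m A B : ℕ) : ℕ :=
  if A = B then (if B = m then 1 else 3) else (if B = m then 3 else 6)

/-- One row of the sector, from `B` on. -/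
def rowSum (K K' n m A row : ℕ) : ℕ → List ℕ → ℕ × ℕ
  | _, [] => (0, 0)
  | B, x :: xs =>
    let r := rowSum K K' n m A row (B + 1) xs
    let e := (Entry.ofNat x).pack K' n (mult m A B * ((row >>> (K * B)) &&& (2 ^ K - 1)))
    (e.1 + r.1, e.2 + r.2)

/-- All rows of the sector, from `A` on. -/
def allRows (K K' n m w N : ℕ) : ℕ → List (List ℕ) → ℕ × ℕ
  | _, [] => (0, 0)
  | A, t :: ts =>
    let r := allRows K K' n m w N (A + 1) ts
    let e := rowSum K K' n m A ((N >>> (K * (A * w))) &&& (2 ^ (K * w) - 1)) A t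
    (e.1 + r.1, e.2 + r.2)

/-- The face. -/
def faceSum (K K' n D : ℕ) : ℕ → List ℕ → ℕ × ℕ
  | _, [] => (0, 0)
  | s, x :: xs =>
    let r := faceSum K K' n D (s + 1) xs
    let e := (Entry.ofNat x).pack K' n (3 * ((D >>> (K * s)) &&& (2 ^ K - 1)))
    (e.1 + r.1, e.2 + r.2)

/-- Data of a step: source, number of targets, slot widths and the tables. -/
structure StepData where
  src : Lat
  n : ℕ
  K : ℕ
  K' : ℕ
  tab : List (List ℕ)
  tab1 : List ℕ

/-- An upper law: weights of the orbit representatives and of the exclusion points. -/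
structure State where
  W : List ℕ
  E : ℕ
deriving DecidableEq

/-- Reading off the new weights. -/
def unpackAcc (K' den : ℕ) (acc : ℕ) : ℕ → List ℕ
  | 0 => []
  | n + 1 => ((acc &&& (2 ^ K' - 1)) / den) :: unpackAcc K' den (acc >>> K') n

/-- The weights have the right number and leave a nonnegative mass to certainty. -/
def Lat.valid (G : Lat) (s : State) : Bool :=
  decide (s.W.length = G.reps.length) &&
    decide (mass (G.atoms Lat.atom1 s.W) + 2 * (s.E * G.q ^ G.L) ≤ 2 ^ bitsP * G.q ^ G.L)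

/-- One generation, with the overflow test. -/
def StepData.step (d : StepData) (s : State) : State × Bool :=
  let G := d.src
  let F2 := G.atoms Lat.atom2 s.W
  let F1 := G.atoms Lat.atom1 s.W
  let G1 := (G.L, s.E * G.q ^ G.L) :: F1
  let N := packT d.K 7 (G.L * G.wid) F2 ^ 4
  let D := pack d.K G1 ^ 4 - pack d.K F1 ^ 4
  let u := allRows d.K d.K' d.n (4 * G.L) G.wid N 0 d.tab
  let v := faceSum d.K d.K' d.n D 0 d.tab1
  let den := 2 ^ (3 * bitsP + bitsT) * G.q ^ (4 * G.L)
  let rest := 3 * (2 ^ bitsP * G.q ^ G.L) ^ 4 + 3 * mass F1 ^ 4 - 6 * mass G1 ^ 4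
  ({ W := unpackAcc d.K' (6 * den) (u.1 + v.1) d.n
     E := (((u.1 + v.1) >>> (d.K' * d.n)) + rest * 2 ^ (bitsT - 1)) / (3 * den) },
    decide (mass F2 ^ 4 < 2 ^ d.K) && decide (mass G1 ^ 4 < 2 ^ d.K) &&
      decide (u.2 + v.2 < 2 ^ d.K') && G.valid s)

/-- Several generations. -/
def StepData.run (d : StepData) : ℕ → State → State × Bool
  | 0, s => (s, true)
  | n + 1, s =>
    let r := d.step s
    let r' := d.run n r.1
    (r'.1, r.2 && r'.2)

end Vale.Agent.P154.D4
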