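import Mathlib
import Vale.Agent.P154.D4.Comp

/-!
Kronecker substitution: reading the digits of a fourth power.
-/

namespace Vale.Agent.P154.D4

open Finset

/-- Sum over quadruples of a list of weighted slots. -/
def qs {R : Type*} [CommSemiring R] (l : List (ℕ × ℕ)) (ψ : ℕ → R) : R :=
  (l.map fun a => (l.map fun b => (l.map fun c => (l.map fun d =>
    ((a.2 * b.2 * c.2 * d.2 : ℕ) : R) * ψ (a.1 + b.1 + c.1 + d.1)).sum).sum).sum).sum

/-- The coefficient of a slot in the fourth power. -/
def coef (l : List (ℕ × ℕ)) (s : ℕ) : ℕ := qs l fun t => if t = s then 1 else 0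

/-- One digit. -/
def digit (K N s : ℕ) : ℕ := (N >>> (K * s)) &&& (2 ^ K - 1)

lemma pack_eq (K : ℕ) (l : List (ℕ × ℕ)) :
    pack K l = (l.map fun a => a.2 * 2 ^ (K * a.1)).sum := by
  induction l with
  | nil => rfl
  | cons a l ih => simp [pack, ih, Nat.shiftLeft_eq]

lemma mass_eq (l : List (ℕ × ℕ)) : mass l = (l.map Prod.snd).sum := by
  induction l with
  | nil => rfl
  | cons a l ih => simp [mass, ih]

lemma pack_filter (K : ℕ) (p : ℕ × ℕ → Bool) (l : List (ℕ × ℕ)) :
    pack K (l.filter p) + pack K (l.filter fun a => !(p a)) = pack K l := by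
  induction l with
  | nil => rfl
  | cons a l ih => cases h : p a <;> simp [List.filter_cons, h, pack] <;> omega

lemma packT_eq (K : ℕ) : ∀ (f h : ℕ) (l : List (ℕ × ℕ)), packT K f h l = pack K l := by
  intro f
  induction f with
  | zero => intro h l; rfl
  | succ f ih =>
    intro h l
    rw [packT, ih, ih, ← pack_filter K (fun a => Nat.blt a.1 h) l]
    congr 1
    rw [pack_eq, pack_eq, Nat.shiftLeft_eq, List.map_map, ← List.sum_map_mul_right]
    refine congrArg List.sum (List.map_congr_left fun a ha => ?_)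
    have h' : h ≤ a.1 := by
      by_contra hlt
      have h1 := (List.mem_filter.1 ha).2
      rw [Nat.blt_eq.mpr (not_le.1 hlt)] at h1
      exact absurd h1 (by decide)
    simp only [Function.comp, mul_assoc, ← pow_add, ← mul_add, Nat.sub_add_cancel h']

lemma list_sum_finset {α R : Type*} [AddCommMonoid R] (S : Finset ℕ) (l : List α)
    (f : α → ℕ → R) : (l.map fun a => ∑ s ∈ S, f a s).sum = ∑ s ∈ S, (l.map fun a => f a s).sum := by
  induction l with
  | nil => simp
  | cons a l ih => simp [ih, sum_add_distrib]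

lemma qs_eq_sum {R : Type*} [CommSemiring R] {l : List (ℕ × ℕ)} {N : ℕ}
    (he : ∀ a ∈ l, 4 * a.1 < N) (ψ : ℕ → R) :
    qs l ψ = ∑ s ∈ range N, (coef l s : R) * ψ s := by
  have h : ∀ t < N, ψ t = ∑ s ∈ range N, ((if t = s then 1 else 0 : ℕ) : R) * ψ s := by
    intro t ht
    rw [Finset.sum_eq_single t] <;> simp_all [eq_comm]
  simp only [coef, qs, Nat.cast_id, Nat.cast_list_sum, List.map_map, Function.comp_def,
    ← List.sum_map_mul_right, Nat.cast_mul]
  simp only [← list_sum_finset]
  refine congrArg List.sum (List.map_congr_left fun a ha => congrArg List.sum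
    (List.map_congr_left fun b hb => congrArg List.sum (List.map_congr_left fun c hc =>
      congrArg List.sum (List.map_congr_left fun d hd => ?_))))
  have hlt : a.1 + b.1 + c.1 + d.1 < N := by
    have := he a ha; have := he b hb; have := he c hc; have := he d hd; omega
  rw [h _ hlt, mul_sum]
  exact sum_congr rfl fun s _ => by push_cast; ring

lemma pow4_pack (K : ℕ) (l : List (ℕ × ℕ)) : pack K l ^ 4 = qs l fun s => 2 ^ (K * s) := by
  simp only [qs, Nat.cast_id, pack_eq, pow_succ, pow_zero, one_mul, ← List.sum_map_mul_right,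
    ← List.sum_map_mul_left]
  refine congrArg List.sum (List.map_congr_left fun a _ => congrArg List.sum
    (List.map_congr_left fun b _ => congrArg List.sum (List.map_congr_left fun c _ =>
      congrArg List.sum (List.map_congr_left fun d _ => ?_))))
  rw [mul_add, mul_add, mul_add, pow_add, pow_add, pow_add]
  ring

lemma mass_pow4 (l : List (ℕ × ℕ)) : mass l ^ 4 = qs l fun _ => 1 := by
  simp only [qs, Nat.cast_id, mass_eq, pow_succ, pow_zero, one_mul, mul_one,
    ← List.sum_map_mul_right, ← List.sum_map_mul_left]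
  refine congrArg List.sum (List.map_congr_left fun a _ => congrArg List.sum
    (List.map_congr_left fun b _ => congrArg List.sum (List.map_congr_left fun c _ =>
      congrArg List.sum (List.map_congr_left fun d _ => ?_))))
  ring

lemma qs_le {l : List (ℕ × ℕ)} {ψ ψ' : ℕ → ℕ} (h : ∀ s, ψ s ≤ ψ' s) : qs l ψ ≤ qs l ψ' :=
  List.sum_le_sum fun a _ => List.sum_le_sum fun b _ => List.sum_le_sum fun c _ =>
    List.sum_le_sum fun d _ => Nat.mul_le_mul_left _ (h _)

lemma coef_lt {K : ℕ} {l : List (ℕ × ℕ)} (hb : mass l ^ 4 < 2 ^ K) (s : ℕ) :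
    coef l s < 2 ^ K := by
  refine lt_of_le_of_lt ?_ hb
  rw [mass_pow4]
  exact qs_le fun t => by split_ifs <;> simp

lemma coef_cons_le (a : ℕ × ℕ) (l : List (ℕ × ℕ)) (s : ℕ) : coef l s ≤ coef (a :: l) s := by
  simp only [coef, qs, Nat.cast_id, List.map_cons, List.sum_cons]
  refine le_trans ?_ (Nat.le_add_left _ _)
  refine List.sum_le_sum fun a _ => le_trans ?_ (Nat.le_add_left _ _)
  refine List.sum_le_sum fun b _ => le_trans ?_ (Nat.le_add_left _ _)
  exact List.sum_le_sum fun c _ => Nat.le_add_left _ _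

lemma digit_sum {K : ℕ} (N : ℕ) : ∀ (c : ℕ → ℕ), (∀ s, c s < 2 ^ K) → ∀ m,
    digit K (∑ s ∈ range N, c s * 2 ^ (K * s)) m = if m < N then c m else 0 := by
  induction N with
  | zero => intro c _ m; simp [digit]
  | succ N ih =>
    intro c hc m
    have hsplit : ∑ s ∈ range (N + 1), c s * 2 ^ (K * s) =
        c 0 + 2 ^ K * ∑ s ∈ range N, c (s + 1) * 2 ^ (K * s) := by
      rw [sum_range_succ', mul_sum, Nat.mul_zero, pow_zero, mul_one, add_comm]
      congr 1
      refine sum_congr rfl fun s _ => ?_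
      rw [Nat.mul_succ, pow_add]; ring
    rw [hsplit]
    cases m with
    | zero =>
      simp [digit, Nat.and_two_pow_sub_one_eq_mod, Nat.add_mul_mod_self_left,
        Nat.mod_eq_of_lt (hc 0)]
    | succ m =>
      have := ih (fun s => c (s + 1)) (fun s => hc _) m
      simp only [digit, Nat.and_two_pow_sub_one_eq_mod, Nat.shiftRight_eq_div_pow] at this ⊢
      rw [Nat.mul_succ, add_comm (K * m), pow_add, ← Nat.div_div_eq_div_mul,
        Nat.add_mul_div_left _ _ (by positivity), Nat.div_eq_of_lt (hc 0), zero_add, this]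
      simp only [Nat.succ_lt_succ_iff]

lemma digit_pow4 {K N : ℕ} {l : List (ℕ × ℕ)} (he : ∀ a ∈ l, 4 * a.1 < N)
    (hb : mass l ^ 4 < 2 ^ K) {s : ℕ} (hs : s < N) : digit K (pack K l ^ 4) s = coef l s := by
  rw [pow4_pack, qs_eq_sum he]
  simp only [Nat.cast_id]
  rw [digit_sum N _ (coef_lt hb), if_pos hs]

lemma digit_pow4_sub {K N : ℕ} {a : ℕ × ℕ} {l : List (ℕ × ℕ)}
    (he : ∀ b ∈ a :: l, 4 * b.1 < N) (hb : mass (a :: l) ^ 4 < 2 ^ K) {s : ℕ} (hs : s < N) :
    digit K (pack K (a :: l) ^ 4 - pack K l ^ 4) s = coef (a :: l) s - coef l s := by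
  have h : pack K (a :: l) ^ 4 - pack K l ^ 4 =
      ∑ t ∈ range N, (coef (a :: l) t - coef l t) * 2 ^ (K * t) := by
    rw [pow4_pack, pow4_pack, qs_eq_sum he, qs_eq_sum fun b hb' => he b (List.mem_cons_of_mem _ hb')]
    simp only [Nat.cast_id]
    rw [Nat.sub_eq_iff_eq_add (sum_le_sum fun t _ => Nat.mul_le_mul_right _ (coef_cons_le a l t)),
      ← sum_add_distrib]
    exact sum_congr rfl fun t _ => by rw [← add_mul, Nat.sub_add_cancel (coef_cons_le a l t)]
  rw [h, digit_sum N _ (fun t => lt_of_le_of_lt (Nat.sub_le _ _) (coef_lt hb t)), if_pos hs]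

end Vale.Agent.P154.D4
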