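import Vale.Agent.P154.D4.Step

/-!
The second and fourth moments of an encoded family, bounded in integers.
-/

namespace Vale.Agent.P154.D4

open Finset

/-- The numerator `∑ (3 X - ∑ X) ^ 2` of a representative. -/
def Lat.spread (G : Lat) (k : ℕ) : ℕ :=
  9 * (G.repI k 0 ^ 2 + G.repI k 1 ^ 2 + G.repI k 2 ^ 2) -
    3 * (G.repI k 0 + G.repI k 1 + G.repI k 2) ^ 2

/-- The coordinate sum of a representative. -/
def Lat.total (G : Lat) (k : ℕ) : ℕ := G.repI k 0 + G.repI k 1 + G.repI k 2

/-- Second moment of the lattice part, rounded up, in units `2 ^ (-bitsP) q ^ (-L)`. -/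
def Lat.m2 (G : Lat) (W : List ℕ) : ℕ → ℕ
  | 0 => 0
  | k + 1 => W.getD k 0 * G.spread k / (3 * G.total k) + 1 + G.m2 W k

/-- Fourth moment of the lattice part, rounded up. -/
def Lat.m4 (G : Lat) (W : List ℕ) : ℕ → ℕ
  | 0 => 0
  | k + 1 => W.getD k 0 * G.spread k ^ 2 / (18 * G.total k ^ 3) + 1 + G.m4 W k

/-- The bounds required at the end of the computation. -/
def Lat.small (G : Lat) (s : State) : Bool :=
  let U := 2 ^ bitsP * G.q ^ G.L
  let E := s.E * G.q ^ G.L
  let r := U - (mass (G.atoms Lat.atom1 s.W) + 2 * E)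
  decide (80 * (G.m2 s.W G.reps.length + (E / 2 + 1) + r) ≤ U) &&
    decide (32000 * (G.m4 s.W G.reps.length + (E / 8 + 1) + r) ≤ 11 * U)

/-- `mean · ss ^ m`, as a function of a likelihood vector. -/
noncomputable def persP (m : ℕ) : (Fin 3 → ℝ) → ℝ := Tr.pers fun u => ss u ^ m

lemma persP_formula {m : ℕ} {x : Fin 3 → ℝ} (hx : x 0 + x 1 + x 2 ≠ 0) :
    persP m x = (x 0 + x 1 + x 2) / 3 *
      (((3 * x 0 - (x 0 + x 1 + x 2)) ^ 2 + (3 * x 1 - (x 0 + x 1 + x 2)) ^ 2 +
        (3 * x 2 - (x 0 + x 1 + x 2)) ^ 2) / (6 * (x 0 + x 1 + x 2) ^ 2)) ^ m := by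
  simp only [persP, Tr.pers, Tr.mean, Tr.dev, ss, Fin.sum_univ_three, Nat.cast_ofNat]
  congr 2
  field_simp
  ring

lemma persP_perm (m : ℕ) (x : Fin 3 → ℝ) (σ : Equiv.Perm (Fin 3)) :
    persP m (fun i => x (σ i)) = persP m x := by
  have h1 : Tr.mean (fun i => x (σ i)) = Tr.mean x := by
    simp only [Tr.mean, Equiv.sum_comp σ x]
  simp only [persP, Tr.pers, ss, h1]
  congr 3
  rw [← Equiv.sum_comp σ fun i => Tr.dev x i ^ 2]
  exact sum_congr rfl fun i _ => by simp [Tr.dev, h1]

lemma persP_smul (m : ℕ) {c : ℝ} (hc : 0 ≤ c) (x : Fin 3 → ℝ) :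
    persP m (fun i => c * x i) = c * persP m x := by
  rcases hc.eq_or_lt with h | h
  · simp [persP, Tr.pers, Tr.mean, ← h]
  have h1 : Tr.mean (fun i => c * x i) = c * Tr.mean x := by
    simp only [Tr.mean, ← mul_sum]; ring
  have h2 : Tr.dev (fun i => c * x i) = Tr.dev x := by
    funext i; simp only [Tr.dev, h1, mul_div_mul_left _ _ h.ne']
  simp only [persP, Tr.pers, h1, h2]
  ring

lemma rep_sum {G : Lat} (hG : G.good = true) {m : ℕ} {W : List ℕ} (hW : W.length = G.reps.length) :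
    lsum (fvecs G W) (persP m) = ∑ k ∈ range G.reps.length,
      6 * ((W.getD k 0 : ℕ) : ℝ) / unitP * persP m (G.vec (G.reps.getD k (0, 0, 0))) := by
  have hperm : ∀ (w : ℕ) (e : ℕ × ℕ × ℕ) (σ : Equiv.Perm (Fin 3)),
      persP m (fun i => fV G (w, e) (σ i)) = (w : ℝ) / unitP * persP m (G.vec e) := by
    intro w e σ
    rw [persP_perm m _ σ]
    exact persP_smul m (div_nonneg (Nat.cast_nonneg _) unitP_pos.le) _
  rw [fvecs, lsum_map, lsum_base, lsum_zip_getD 0 (0, 0, 0) W G.reps hW]
  refine sum_congr rfl fun k _ => ?_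
  obtain ⟨I, J, K⟩ := G.reps.getD k (0, 0, 0)
  set w := W.getD k 0
  have h1 := hperm w (I, J, K) 1
  have h2 := hperm w (I, J, K) (Equiv.swap 1 2)
  have h3 := hperm w (I, J, K) (Equiv.swap 0 1)
  have h4 := hperm w (I, J, K) (Equiv.swap 0 1 * Equiv.swap 1 2)
  have h5 := hperm w (I, J, K) (Equiv.swap 1 2 * Equiv.swap 0 1)
  have h6 := hperm w (I, J, K) (Equiv.swap 0 2)
  simp only [perm_vec, fV_eq] at h1 h2 h3 h4 h5 h6 ⊢
  simp [Equiv.swap_apply_def] at h1 h2 h3 h4 h5 h6
  simp only [h1, h2, h3, h4, h5, h6]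
  ring

lemma le_div_add_one (a b : ℕ) (hb : 0 < b) : (a : ℝ) / b ≤ ((a / b + 1 : ℕ) : ℝ) := by
  rw [div_le_iff₀ (by exact_mod_cast hb)]
  exact_mod_cast (Nat.lt_div_mul_add hb (a := a)).le.trans (le_of_eq (Nat.succ_mul _ _).symm)

/-- The kernel test gives the two moment bounds. -/
theorem small_bound {G : Lat} (hG : G.good = true) {s : State} (hv : G.valid s = true)
    (h : G.small s = true) :
    4 * lsum (family G s) (Tr.pers ss) ≤ 1 / 20 ∧
      16 * lsum (family G s) (Tr.pers fun u => ss u ^ 2) ≤ 11 / 2000 := by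
  have hu := unitP_pos
  have hq := pow_pos (Lat.good.p_pos hG).2 G.L
  simp only [Lat.valid, Bool.and_eq_true, decide_eq_true_eq] at hv
  simp only [Lat.small, Bool.and_eq_true, decide_eq_true_eq] at h
  obtain ⟨h2, h4⟩ := h
  set U := 2 ^ bitsP * G.q ^ G.L with hU
  set E := s.E * G.q ^ G.L with hE
  set r := U - (mass (G.atoms Lat.atom1 s.W) + 2 * E) with hr
  have hUr : (U : ℝ) = unitP * (G.q : ℝ) ^ G.L := by
    rw [hU]; push_cast; rfl
  have hU0 : (0 : ℝ) < U := by rw [hUr]; positivity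
  have hR : restW G s = (r : ℝ) / U := by
    rw [restW, colF, State.e, hr, Nat.cast_sub hv.2, ← hUr]
    push_cast [hE]
    rw [eq_div_iff hU0.ne', sub_mul, sub_mul, one_mul, div_mul_cancel₀ _ hU0.ne',
      show 2 * ((s.E : ℝ) / unitP) * (U : ℝ) = 2 * ((s.E : ℝ) * (G.q : ℝ) ^ G.L) by
        rw [hUr]; field_simp]
    ring
  have hrep : ∀ k < G.reps.length, ∀ c, G.vec (G.reps.getD k (0, 0, 0)) c =
      (G.repI k c : ℝ) / (G.q : ℝ) ^ G.L := fun k hk c => by
    rw [repI_eq hG hk c, mul_div_cancel_left₀ _ hq.ne']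
  have ht : ∀ k, 0 < G.total k := fun k => by
    have hp : 0 < G.p := by exact_mod_cast (Lat.good.p_pos hG).1
    have hq' : 0 < G.q := by exact_mod_cast (Lat.good.p_pos hG).2
    have : ∀ c, 0 < G.repI k c := fun c => by unfold Lat.repI; positivity
    exact Nat.add_pos_right _ (this 2)
  have hval : ∀ k < G.reps.length, ∀ m, persP m (G.vec (G.reps.getD k (0, 0, 0))) =
      (G.total k : ℝ) / 3 * ((G.spread k : ℝ) / (6 * (G.total k : ℝ) ^ 2)) ^ m /
        (G.q : ℝ) ^ G.L := by
    intro k hk m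
    have hv : G.vec (G.reps.getD k (0, 0, 0)) =
        fun c => 1 / (G.q : ℝ) ^ G.L * (G.repI k c : ℝ) := by
      funext c; rw [hrep k hk c]; ring
    have hne : ((G.repI k 0 : ℝ) + G.repI k 1 + G.repI k 2) ≠ 0 := by
      have := ht k; unfold Lat.total at this; exact_mod_cast this.ne'
    have hle : 3 * (G.repI k 0 + G.repI k 1 + G.repI k 2) ^ 2 ≤
        9 * (G.repI k 0 ^ 2 + G.repI k 1 ^ 2 + G.repI k 2 ^ 2) := by
      zify
      nlinarith [sq_nonneg ((G.repI k 0 : ℤ) - G.repI k 1),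
        sq_nonneg ((G.repI k 0 : ℤ) - G.repI k 2), sq_nonneg ((G.repI k 1 : ℤ) - G.repI k 2)]
    rw [hv, persP_smul m (by positivity), persP_formula hne, Lat.spread, Lat.total,
      Nat.cast_sub hle]
    push_cast
    ring
  have hsum : ∀ (m : ℕ), lsum (family G s) (persP m) = lsum (fvecs G s.W) (persP m) +
      3 * s.e * persP m v110 + 3 * restW G s * persP m v100 := by
    intro m
    have he := e_nonneg s
    have hrr : 0 ≤ restW G s := by rw [hR]; positivity
    have a1 : ![s.e, s.e, 0] = fun i => s.e * v110 i := by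
      funext i; fin_cases i <;> simp [v110]
    have a4 : ![restW G s, 0, 0] = fun i => restW G s * v100 i := by
      funext i; fin_cases i <;> simp [v100]
    have a2 : ![s.e, 0, s.e] = fun i => ![s.e, s.e, 0] (Equiv.swap 1 2 i) := by
      funext i; fin_cases i <;> simp [Equiv.swap_apply_def]
    have a3 : ![0, s.e, s.e] = fun i => ![s.e, s.e, 0] (Equiv.swap 0 2 i) := by
      funext i; fin_cases i <;> simp [Equiv.swap_apply_def]
    have a5 : ![0, restW G s, 0] = fun i => ![restW G s, 0, 0] (Equiv.swap 0 1 i) := by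
      funext i; fin_cases i <;> simp [Equiv.swap_apply_def]
    have a6 : ![0, 0, restW G s] = fun i => ![restW G s, 0, 0] (Equiv.swap 0 2 i) := by
      funext i; fin_cases i <;> simp [Equiv.swap_apply_def]
    simp only [family, lsum_append, zvecs, lsum_cons, lsum_nil]
    rw [a2, a3, a5, a6, persP_perm, persP_perm, persP_perm, persP_perm, a1, a4,
      persP_smul m he, persP_smul m hrr]
    ring
  have p1 : ∀ m, persP m v110 = 2 / 3 * (1 / 4) ^ m := fun m => by
    have h0 : v110 0 = 1 := rfl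
    have h1 : v110 1 = 1 := rfl
    have h2 : v110 2 = 0 := rfl
    rw [persP_formula (by rw [h0, h1, h2]; norm_num), h0, h1, h2]; norm_num
  have p0 : ∀ m, persP m v100 = 1 / 3 := fun m => by
    have h0 : v100 0 = 1 := rfl
    have h1 : v100 1 = 0 := rfl
    have h2 : v100 2 = 0 := rfl
    rw [persP_formula (by rw [h0, h1, h2]; norm_num), h0, h1, h2]; norm_num
  have hm2 : lsum (fvecs G s.W) (persP 1) * U ≤ (G.m2 s.W G.reps.length : ℝ) := by
    rw [rep_sum hG hv.1]
    have : ∀ n ≤ G.reps.length, (∑ k ∈ range n, 6 * ((s.W.getD k 0 : ℕ) : ℝ) / unitP *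
        persP 1 (G.vec (G.reps.getD k (0, 0, 0)))) * U ≤ (G.m2 s.W n : ℝ) := by
      intro n
      induction n with
      | zero => intro _; simp [Lat.m2]
      | succ n ih =>
        intro hn
        rw [sum_range_succ, add_mul, Lat.m2, Nat.cast_add, add_comm]
        refine add_le_add (le_trans (le_of_eq ?_)
          (le_div_add_one (s.W.getD n 0 * G.spread n) (3 * G.total n) (by have := ht n; omega)))
          (ih (by omega))
        rw [hval n (by omega), hUr]
        have : (0 : ℝ) < G.total n := by exact_mod_cast ht n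
        push_cast
        field_simp
    exact this _ le_rfl
  have hm4 : lsum (fvecs G s.W) (persP 2) * U ≤ (G.m4 s.W G.reps.length : ℝ) := by
    rw [rep_sum hG hv.1]
    have : ∀ n ≤ G.reps.length, (∑ k ∈ range n, 6 * ((s.W.getD k 0 : ℕ) : ℝ) / unitP *
        persP 2 (G.vec (G.reps.getD k (0, 0, 0)))) * U ≤ (G.m4 s.W n : ℝ) := by
      intro n
      induction n with
      | zero => intro _; simp [Lat.m4]
      | succ n ih =>
        intro hn
        rw [sum_range_succ, add_mul, Lat.m4, Nat.cast_add, add_comm]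
        refine add_le_add (le_trans (le_of_eq ?_)
          (le_div_add_one (s.W.getD n 0 * G.spread n ^ 2) (18 * G.total n ^ 3)
            (by have := ht n; positivity))) (ih (by omega))
        rw [hval n (by omega), hUr]
        have : (0 : ℝ) < G.total n := by exact_mod_cast ht n
        push_cast
        field_simp
        ring
    exact this _ le_rfl
  have heU : s.e * U = (E : ℝ) := by
    rw [hUr, State.e, hE]; push_cast; field_simp
  have hrU : restW G s * U = (r : ℝ) := by rw [hR, div_mul_cancel₀ _ hU0.ne']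
  have e2 := (Nat.cast_le (α := ℝ)).2 h2
  have e4 := (Nat.cast_le (α := ℝ)).2 h4
  have f2 := le_div_add_one E 2 (by norm_num)
  have f8 := le_div_add_one E 8 (by norm_num)
  push_cast at e2 e4 f2 f8
  have k1 : persP 1 = Tr.pers ss := by simp [persP]
  constructor
  · rw [← k1, hsum, p1, p0]
    refine le_of_mul_le_mul_right ?_ hU0
    nlinarith
  · show 16 * lsum (family G s) (persP 2) ≤ _
    rw [hsum, p1, p0]
    refine le_of_mul_le_mul_right ?_ hU0
    nlinarith

end Vale.Agent.P154.D4
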