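import Vale.Agent.P154.D4.Split

/-!
The families of vectors encoded by the weights, and their slots.
-/

namespace Vale.Agent.P154.D4

open Finset

/-- The unit of weights. -/
noncomputable def unitP : ℝ := 2 ^ bitsP

lemma unitP_pos : 0 < unitP := by unfold unitP; positivity

/-- Weighted exponents of the atoms. -/
def base (G : Lat) (W : List ℕ) : List (ℕ × (ℕ × ℕ × ℕ)) :=
  (W.zip G.reps).flatMap fun we => (six we.2).map (Prod.mk we.1)

/-- The vector of an atom. -/
noncomputable def fV (G : Lat) (a : ℕ × (ℕ × ℕ × ℕ)) : Fin 3 → ℝ :=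
  fun c => (a.1 : ℝ) / unitP * G.vec a.2 c

/-- The lattice atoms. -/
noncomputable def fvecs (G : Lat) (W : List ℕ) : List (Fin 3 → ℝ) := (base G W).map (fV G)

/-- Total of the lattice atoms at one coordinate. -/
noncomputable def colF (G : Lat) (W : List ℕ) : ℝ :=
  (mass (G.atoms Lat.atom1 W) : ℝ) / (unitP * (G.q : ℝ) ^ G.L)

/-- Weight of an exclusion point. -/
noncomputable def State.e (s : State) : ℝ := (s.E : ℝ) / unitP

/-- Weight of a certainty. -/
noncomputable def restW (G : Lat) (s : State) : ℝ := 1 - colF G s.W - 2 * s.e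

/-- Exclusion points and certainties. -/
noncomputable def zvecs (G : Lat) (s : State) : List (Fin 3 → ℝ) :=
  [![s.e, s.e, 0], ![s.e, 0, s.e], ![0, s.e, s.e],
    ![restW G s, 0, 0], ![0, restW G s, 0], ![0, 0, restW G s]]

/-- The family encoded by a state. -/
noncomputable def family (G : Lat) (s : State) : List (Fin 3 → ℝ) := fvecs G s.W ++ zvecs G s

/-- The upper bound on the edge law of a generation. -/
def Up (n : ℕ) (G : Lat) (s : State) : Prop :=
  G.valid s = true ∧ ∀ g, Test g → (edgeE n).S g ≤ lsum (family G s) g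

lemma perm3_cases : ∀ σ : Equiv.Perm (Fin 3),
    (σ 0 = 0 ∧ σ 1 = 1 ∧ σ 2 = 2) ∨ (σ 0 = 0 ∧ σ 1 = 2 ∧ σ 2 = 1) ∨
    (σ 0 = 1 ∧ σ 1 = 0 ∧ σ 2 = 2) ∨ (σ 0 = 1 ∧ σ 1 = 2 ∧ σ 2 = 0) ∨
    (σ 0 = 2 ∧ σ 1 = 0 ∧ σ 2 = 1) ∨ (σ 0 = 2 ∧ σ 1 = 1 ∧ σ 2 = 0) := by
  decide

lemma perm_vec (σ : Equiv.Perm (Fin 3)) (x : Fin 3 → ℝ) :
    (fun i => x (σ i)) = ![x (σ 0), x (σ 1), x (σ 2)] := by
  funext i; fin_cases i <;> rfl

lemma symL_zvecs (G : Lat) (s : State) : SymL (zvecs G s) := by
  intro σ g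
  simp only [perm_vec σ]
  rcases perm3_cases σ with ⟨h0, h1, h2⟩ | ⟨h0, h1, h2⟩ | ⟨h0, h1, h2⟩ | ⟨h0, h1, h2⟩ |
    ⟨h0, h1, h2⟩ | ⟨h0, h1, h2⟩ <;> simp [zvecs, h0, h1, h2] <;> ring

lemma fV_eq (G : Lat) (W : ℕ) (e : ℕ × ℕ × ℕ) :
    fV G (W, e) = ![(W : ℝ) / unitP * G.t ^ e.1, (W : ℝ) / unitP * G.t ^ e.2.1,
      (W : ℝ) / unitP * G.t ^ e.2.2] := by
  funext i; fin_cases i <;> simp [fV, Lat.vec, expo]

lemma lsum_base (G : Lat) (W : List ℕ) (f : ℕ × (ℕ × ℕ × ℕ) → ℝ) :
    lsum (base G W) f = lsum (W.zip G.reps) fun we =>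
      f (we.1, (we.2.1, we.2.2.1, we.2.2.2)) + f (we.1, (we.2.1, we.2.2.2, we.2.2.1)) +
      f (we.1, (we.2.2.1, we.2.1, we.2.2.2)) + f (we.1, (we.2.2.1, we.2.2.2, we.2.1)) +
      f (we.1, (we.2.2.2, we.2.1, we.2.2.1)) + f (we.1, (we.2.2.2, we.2.2.1, we.2.1)) := by
  rw [base, lsum_flatMap]
  refine lsum_congr fun we _ => ?_
  simp [six]
  ring

lemma symL_fvecs (G : Lat) (W : List ℕ) : SymL (fvecs G W) := by
  intro σ g
  simp only [fvecs, lsum_map, perm_vec σ, lsum_base, fV_eq]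
  refine lsum_congr fun we _ => ?_
  rcases perm3_cases σ with ⟨h0, h1, h2⟩ | ⟨h0, h1, h2⟩ | ⟨h0, h1, h2⟩ | ⟨h0, h1, h2⟩ |
    ⟨h0, h1, h2⟩ | ⟨h0, h1, h2⟩ <;> simp [h0, h1, h2] <;> ring

lemma symL_family (G : Lat) (s : State) : SymL (family G s) := fun σ g => by
  rw [family, lsum_append, lsum_append, symL_fvecs G s.W σ g, symL_zvecs G s σ g]

lemma col_perm {l : List (Fin 3 → ℝ)} (hl : SymL l) (i j : Fin 3) :
    lsum l (fun x => x i) = lsum l fun x => x j := by
  have := hl (Equiv.swap j i) fun x => x j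
  simpa using this

lemma base_mem {G : Lat} (hG : G.good = true) {W : List ℕ} {a : ℕ × (ℕ × ℕ × ℕ)}
    (ha : a ∈ base G W) : a.2.1 ≤ G.L ∧ a.2.2.1 ≤ G.L ∧ a.2.2.2 ≤ G.L := by
  simp only [base, List.mem_flatMap, List.mem_map] at ha
  obtain ⟨we, hwe, e, he, rfl⟩ := ha
  have hm := (List.of_mem_zip (a := we.1) (b := we.2) hwe).2
  have h0 := Lat.good.le hG hm 0
  have h1 := Lat.good.le hG hm 1
  have h2 := Lat.good.le hG hm 2
  simp [expo] at h0 h1 h2
  simp only [six, List.mem_cons, List.not_mem_nil, or_false] at he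
  rcases he with rfl | rfl | rfl | rfl | rfl | rfl <;> exact ⟨by assumption, by assumption, by assumption⟩

lemma atoms_eq (G : Lat) (f : Lat → ℕ → ℕ × ℕ × ℕ → ℕ × ℕ) (W : List ℕ) :
    G.atoms f W = (base G W).map fun a => f G a.1 a.2 := by
  simp [Lat.atoms, base, List.map_flatMap, List.map_map, Function.comp_def]

lemma t_scale {G : Lat} (hG : G.good = true) {k : ℕ} (hk : k ≤ G.L) :
    ((G.p ^ k * G.q ^ (G.L - k) : ℕ) : ℝ) = (G.q : ℝ) ^ G.L * G.t ^ k := by
  have hq := (Lat.good.p_pos hG).2.ne'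
  rw [Lat.t, div_pow, Nat.cast_mul, Nat.cast_pow, Nat.cast_pow, pow_sub₀ _ hq hk]
  field_simp

lemma colF_eq {G : Lat} (hG : G.good = true) (W : List ℕ) (i : Fin 3) :
    lsum (fvecs G W) (fun x => x i) = colF G W := by
  rw [col_perm (symL_fvecs G W) i 1, colF, mass_eq, atoms_eq, List.map_map, fvecs, lsum_map,
    Nat.cast_list_sum, List.map_map, eq_div_iff (mul_ne_zero unitP_pos.ne'
      (pow_ne_zero _ (Lat.good.p_pos hG).2.ne')), ← lsum_mul_right]
  refine congrArg List.sum (List.map_congr_left fun a ha => ?_)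
  simp only [Function.comp, Lat.atom1, Nat.cast_mul, t_scale hG (base_mem hG ha).2.1, fV, Lat.vec]
  have := unitP_pos.ne'
  simp [expo]
  field_simp

lemma e_nonneg (s : State) : 0 ≤ s.e := div_nonneg (Nat.cast_nonneg _) unitP_pos.le

lemma restW_nonneg {G : Lat} (hG : G.good = true) {s : State} (h : G.valid s = true) :
    0 ≤ restW G s := by
  simp only [Lat.valid, Bool.and_eq_true, decide_eq_true_eq] at h
  have hc := (Nat.cast_le (α := ℝ)).2 h.2
  push_cast at hc
  have hq := pow_pos (Lat.good.p_pos hG).2 G.L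
  have hu := unitP_pos
  have hu' : (2 : ℝ) ^ bitsP = unitP := rfl
  rw [hu'] at hc
  have h0 : restW G s = (unitP * (G.q : ℝ) ^ G.L - ((mass (G.atoms Lat.atom1 s.W) : ℝ) +
      2 * ((s.E : ℝ) * (G.q : ℝ) ^ G.L))) / (unitP * (G.q : ℝ) ^ G.L) := by
    rw [restW, colF, State.e]
    field_simp
    ring
  rw [h0]
  exact div_nonneg (sub_nonneg.2 hc) (mul_pos hu hq).le

lemma family_nn {G : Lat} (hG : G.good = true) {s : State} (h : G.valid s = true) :
    ∀ x ∈ family G s, NN x := by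
  intro x hx
  rcases List.mem_append.1 hx with hx | hx
  · simp only [fvecs, List.mem_map] at hx
    obtain ⟨a, -, rfl⟩ := hx
    exact fun c => mul_nonneg (div_nonneg (Nat.cast_nonneg _) unitP_pos.le) (vec_nn hG _ c)
  · have he := e_nonneg s
    have hr := restW_nonneg hG h
    simp only [zvecs, List.mem_cons, List.not_mem_nil, or_false] at hx
    rcases hx with rfl | rfl | rfl | rfl | rfl | rfl <;>
      (intro c; fin_cases c <;> simp [he, hr])

lemma family_col {G : Lat} (hG : G.good = true) (s : State) (i : Fin 3) :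
    lsum (family G s) (fun x => x i) = 1 := by
  rw [family, lsum_append, colF_eq hG]
  fin_cases i <;> simp [zvecs, restW] <;> ring

lemma family_test {G : Lat} (s : State) (hv : 0 ≤ restW G s) {g : (Fin 3 → ℝ) → ℝ} (hg : Test g) :
    lsum (family G s) g = lsum (fvecs G s.W) g + 3 * s.e * g v110 := by
  have he := e_nonneg s
  have hvn : NN v110 := fun c => by fin_cases c <;> norm_num [v110]
  have h1 : g ![s.e, s.e, 0] = s.e * g v110 := by
    rw [← hg.subP.smul _ he _ hvn]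
    congr 1; funext c; fin_cases c <;> simp [v110]
  have h2 : g ![s.e, 0, s.e] = s.e * g v110 := by
    rw [← h1, ← hg.symm (Equiv.swap 1 2) ![s.e, 0, s.e]]
    congr 1; funext c; fin_cases c <;> simp [Equiv.swap_apply_def]
  have h3 : g ![0, s.e, s.e] = s.e * g v110 := by
    rw [← h1, ← hg.symm (Equiv.swap 0 2) ![0, s.e, s.e]]
    congr 1; funext c; fin_cases c <;> simp [Equiv.swap_apply_def]
  have hz : ∀ (i : Fin 3) (x : Fin 3 → ℝ), NN x → (∀ j, j ≠ i → x j = 0) → g x = 0 :=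
    fun i x hx h => by rw [single_eval hg.subP hg.symm hx i h, hg.zero, mul_zero]
  have r1 := hz 0 ![restW G s, 0, 0] (fun c => by fin_cases c <;> simp [hv])
    (fun j hj => by fin_cases j <;> simp_all)
  have r2 := hz 1 ![0, restW G s, 0] (fun c => by fin_cases c <;> simp [hv])
    (fun j hj => by fin_cases j <;> simp_all)
  have r3 := hz 2 ![0, 0, restW G s] (fun c => by fin_cases c <;> simp [hv])
    (fun j hj => by fin_cases j <;> simp_all)
  simp only [family, lsum_append, zvecs, lsum_cons, lsum_nil, h1, h2, h3, r1, r2, r3]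
  ring

lemma vec_zero_one (G : Lat) : 0 ≤ G.t := div_nonneg (Nat.cast_nonneg _) (Nat.cast_nonneg _)

lemma ens_total (e : Tr.Ens 3) : e.S (fun x => x 0 + x 1 + x 2) = 3 := by
  simp only [Tr.Ens.S, sum_add_distrib, e.sum_one]
  norm_num

/-- An upper bound for test functions is one for all sublinear functions. -/
theorem Up.below {n : ℕ} {G : Lat} (hG : G.good = true) {s : State} (h : Up n G s)
    {g : (Fin 3 → ℝ) → ℝ} (hg : SubP g) : (edgeE n).S g ≤ lsum (family G s) g := by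
  refine below_of_symm (symL_family G s) (fun g hP hS => ?_) hg
  let g' : (Fin 3 → ℝ) → ℝ := fun x => g x + (-(g v100)) * (x 0 + x 1 + x 2)
  have hT : Test g' := by
    refine ⟨⟨fun x y hx hy => ?_, fun c hc x hx => ?_⟩, fun σ x => ?_, ?_⟩
    · have := hP.add x y hx hy
      simp only [g', Pi.add_apply]
      linarith
    · simp only [g', hP.smul c hc x hx, Pi.smul_apply, smul_eq_mul]
      ring
    · simp only [g', hS σ x]
      have := Equiv.sum_comp σ x
      simp only [Fin.sum_univ_three] at this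
      rw [this]
    · simp [g', v100]
  have h' := h.2 g' hT
  have e1 : (edgeE n).S g' = (edgeE n).S g + (-(g v100)) * 3 := by
    rw [← ens_total (edgeE n)]
    simp only [g', Tr.Ens.S, sum_add_distrib, ← mul_sum]
  have e2 : lsum (family G s) g' = lsum (family G s) g + (-(g v100)) * 3 := by
    simp only [g', lsum_add, lsum_mul_left, family_col hG]
    ring
  linarith

end Vale.Agent.P154.D4
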