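import Vale.Agent.P154.Tree

/-!
Interfaces for the `4`-ary tree at `λ = -1/2` (proper three-colourings): a computation shows
that the second and fourth moments of the root law become small, a moment recursion does the rest.
-/

namespace Vale.Agent.P154.D4

open Filter Topology

theorem two_le : (2 : ℕ) ≤ 3 := by norm_num

theorem lam_lo : -(1 / (((3 : ℕ) : ℝ) - 1)) ≤ -(1 / 2 : ℝ) := by norm_num

theorem lam_hi : -(1 / 2 : ℝ) ≤ 1 := by norm_num

/-- Normalised third moment of a deviation. -/
noncomputable def cc (u : Fin 3 → ℝ) : ℝ := (∑ i, u i ^ 3) / 6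

/-- The root law on the `4`-ary tree of depth `n` for proper three-colourings. -/
noncomputable def rootLaw (n : ℕ) : Law 3 :=
  treeLaw two_le (-(1 / 2)) lam_lo lam_hi n (regular 4 n)

/-- Third moment of a law. -/
noncomputable def CC (A : Law 3) : ℝ := A.E cc

/-- Fourth moment of a law. -/
noncomputable def MM (A : Law 3) : ℝ := A.E (fun u => ss u ^ 2)

/-- One edge. -/
noncomputable def edge (A : Law 3) : Law 3 := A.scale two_le (-(1 / 2)) lam_lo lam_hi

/-- The result of the computation. -/
def Transient : Prop :=
  ∃ n₀, (∀ n, n₀ ≤ n → (rootLaw n).S ≤ 1 / 20) ∧ MM (rootLaw n₀) ≤ 11 / 2000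

/-- The result of the moment recursion. -/
def LocalStatement : Prop :=
  Transient → Tendsto (fun n => (rootLaw n).S) atTop (𝓝 0)

end Vale.Agent.P154.D4
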