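import Vale.Agent.P154.D4.Iface
import Vale.Agent.P154.Class3

/-!
Polynomial bounds for the moments of a combination of two observations, averaged over the six
relative permutations.
-/

noncomputable section

namespace Vale.Agent.P154.D4

open Class3

/-- Overlap. -/
def ov (u v : Fin 3 → ℝ) : ℝ := (u 0 * v 0 + u 1 * v 1 + u 2 * v 2) / 3

/-- Centred combined weight. -/
def dv (u v : Fin 3 → ℝ) (i : Fin 3) : ℝ := u i + v i + u i * v i - ov u v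

/-- Second moment of the combined weights. -/
def dd2 (u v : Fin 3 → ℝ) : ℝ := (dv u v 0 ^ 2 + dv u v 1 ^ 2 + dv u v 2 ^ 2) / 6

/-- Third moment of the combined weights. -/
def dd3 (u v : Fin 3 → ℝ) : ℝ := (dv u v 0 ^ 3 + dv u v 1 ^ 3 + dv u v 2 ^ 3) / 6

/-- Bound for the weighted second moment. -/
def dsu (u v : Fin 3 → ℝ) : ℝ := dd2 u v * (1 - ov u v) + ov u v ^ 2 * (1 + ov u v)

/-- Upper bound for `Z s`. -/
def polX (u v : Fin 3 → ℝ) : ℝ :=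
  (1 + ov u v) - ((1 + ov u v) ^ 2 - dd2 u v) * (1 - ov u v + ov u v ^ 2 - ov u v ^ 3)

/-- Upper bound for `Z s²`. -/
def polM (u v : Fin 3 → ℝ) : ℝ :=
  dd2 u v ^ 2 * (1 - 3 * ov u v) + (6 + 8 * ov u v + 3 * ov u v ^ 2) * ov u v ^ 2 * dsu u v

/-- Upper bound for `Z c`. -/
def polU (u v : Fin 3 → ℝ) : ℝ :=
  dd3 u v * (1 - 2 * ov u v) + (3 + 2 * ov u v) * ov u v ^ 2 * dsu u v

/-- Lower bound for `Z c`. -/
def polL (u v : Fin 3 → ℝ) : ℝ :=
  dd3 u v * (1 - 2 * ov u v) - 1 / 2 * ((3 + 2 * ov u v) * ov u v ^ 2 * dsu u v)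

/-- Averaged polynomial bound, by monomials. -/
def listX : List (ℝ × ℕ × ℕ × ℕ × ℕ) :=
  [ (1, 0, 0, 1, 0), (1, 1, 0, 0, 0), (-1, 1, 0, 1, 0), (-2, 0, 1, 1, 0),
    (-2, 1, 0, 0, 1), (2, 0, 1, 0, 1), (2, 1, 0, 2, 0), (2, 2, 0, 1, 0),
    (2, 0, 1, 2, 0), (2, 2, 0, 0, 1), (-2, 0, 1, 1, 1), (-2, 1, 1, 0, 1),
    (2, 2, 0, 2, 0), (-6, 1, 1, 2, 0), (-6, 2, 0, 1, 1), (8, 1, 1, 1, 1) ]

/-- Averaged polynomial bound, by monomials. -/
def listM : List (ℝ × ℕ × ℕ × ℕ × ℕ) :=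
  [ (1, 0, 0, 2, 0), (4, 1, 0, 1, 0), (1, 2, 0, 0, 0), (4, 0, 1, 1, 0),
    (4, 1, 0, 0, 1), (10, 0, 1, 0, 1), (4, 1, 0, 2, 0), (4, 2, 0, 1, 0),
    (-12, 0, 1, 2, 0), (-12, 1, 0, 1, 1), (-12, 1, 1, 1, 0), (-12, 2, 0, 0, 1),
    (-2, 0, 1, 1, 1), (-2, 1, 1, 0, 1), (37, 2, 0, 2, 0), (94, 1, 1, 1, 1),
    (-30, 2, 0, 3, 0), (-30, 3, 0, 2, 0), (-20, 0, 2, 1, 1), (-20, 1, 1, 0, 2),
    (-30, 1, 1, 3, 0), (-30, 3, 0, 1, 1), (64, 0, 2, 0, 2), (-32, 0, 2, 3, 0),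
    (-30, 1, 1, 2, 1), (-30, 2, 1, 1, 1), (-32, 3, 0, 0, 2), (146, 3, 0, 3, 0),
    (-12, 0, 2, 2, 1), (-12, 2, 1, 0, 2), (-54, 2, 1, 3, 0), (-54, 3, 0, 2, 1),
    (96, 2, 1, 2, 1) ]

/-- Averaged polynomial bound, by monomials. -/
def listU : List (ℝ × ℕ × ℕ × ℕ × ℕ) :=
  [ (1, 0, 0, 0, 1), (1, 0, 1, 0, 0), (6, 1, 0, 1, 0), (-6, 0, 1, 1, 0),
    (-6, 1, 0, 0, 1), (7, 0, 1, 0, 1), (-2, 0, 1, 1, 1), (-2, 1, 1, 0, 1),
    (18, 2, 0, 2, 0), (-6, 1, 1, 2, 0), (-6, 2, 0, 1, 1), (28, 1, 1, 1, 1),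
    (-12, 2, 0, 3, 0), (-12, 3, 0, 2, 0), (-8, 0, 2, 1, 1), (-8, 1, 1, 0, 2),
    (-12, 1, 1, 3, 0), (-12, 3, 0, 1, 1), (16, 0, 2, 0, 2), (-8, 0, 2, 3, 0),
    (-8, 3, 0, 0, 2), (32, 3, 0, 3, 0) ]

/-- Averaged polynomial bound, by monomials. -/
def listL : List (ℝ × ℕ × ℕ × ℕ × ℕ) :=
  [ (1, 0, 0, 0, 1), (1, 0, 1, 0, 0), (6, 1, 0, 1, 0), (-6, 0, 1, 1, 0),
    (-6, 1, 0, 0, 1), (-2, 0, 1, 0, 1), (-9, 1, 0, 2, 0), (-9, 2, 0, 1, 0),
    (-9, 0, 1, 2, 0), (-9, 2, 0, 0, 1), (1, 0, 1, 1, 1), (1, 1, 1, 0, 1),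
    (-9, 2, 0, 2, 0), (3, 1, 1, 2, 0), (3, 2, 0, 1, 1), (-14, 1, 1, 1, 1),
    (6, 2, 0, 3, 0), (6, 3, 0, 2, 0), (4, 0, 2, 1, 1), (4, 1, 1, 0, 2),
    (6, 1, 1, 3, 0), (6, 3, 0, 1, 1), (-8, 0, 2, 0, 2), (4, 0, 2, 3, 0),
    (4, 3, 0, 0, 2), (-16, 3, 0, 3, 0) ]

/-- Monomial in the two moments. -/
def mon (i j : ℕ) (u : Fin 3 → ℝ) : ℝ := ss u ^ i * cc u ^ j

/-- Value of a list of monomials. -/
def pev (L : List (ℝ × ℕ × ℕ × ℕ × ℕ)) (u v : Fin 3 → ℝ) : ℝ :=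
  (L.map fun x => x.1 * mon x.2.1 x.2.2.1 v * mon x.2.2.2.1 x.2.2.2.2 u).sum

theorem dev3 {u : Fin 3 → ℝ} (h : Dev u) : u 2 = -u 0 - u 1 := by
  have := h.1
  rw [Fin.sum_univ_three] at this
  linarith

theorem ss_three (u : Fin 3 → ℝ) : ss u = (u 0 ^ 2 + u 1 ^ 2 + u 2 ^ 2) / 6 := by
  simp only [ss, Fin.sum_univ_three]; norm_num

theorem cc_three (u : Fin 3 → ℝ) : cc u = (u 0 ^ 3 + u 1 ^ 3 + u 2 ^ 3) / 6 := by
  simp only [cc, Fin.sum_univ_three]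

/-- Average of `F` over the six permutations of `v`. -/
def avp (F : (Fin 3 → ℝ) → ℝ) (v : Fin 3 → ℝ) : ℝ :=
  (F ![v 0, v 1, v 2] + F ![v 1, v 2, v 0] + F ![v 2, v 0, v 1] + F ![v 0, v 2, v 1]
    + F ![v 2, v 1, v 0] + F ![v 1, v 0, v 2]) / 6

theorem E_avp (A : Law 3) (F : (Fin 3 → ℝ) → ℝ) : A.E F = A.E (avp F) := by
  rw [← A.avg F]
  refine A.congr fun v _ => ?_
  have h := avg6_eq_sum_perm F (fun _ => 1) v
  simp only [avg6, comb, one_mul] at h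
  rw [avp, h, Fintype.card_perm, Fintype.card_fin]
  norm_num [Function.comp_def]


theorem avp_polX {u v : Fin 3 → ℝ} (hu : Dev u) (hv : Dev v) :
    avp (polX u) v = pev listX u v := by
  simp only [avp, polX, dd2, dv, ov, pev, listX, mon, ss_three, cc_three,
    List.map_cons, List.map_nil, List.sum_cons, List.sum_nil, Matrix.cons_val, dev3 hu, dev3 hv]
  ring

theorem avp_polM {u v : Fin 3 → ℝ} (hu : Dev u) (hv : Dev v) :
    avp (polM u) v = pev listM u v := by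
  simp only [avp, polM, dsu, dd2, dv, ov, pev, listM, mon, ss_three, cc_three,
    List.map_cons, List.map_nil, List.sum_cons, List.sum_nil, Matrix.cons_val, dev3 hu, dev3 hv]
  ring

theorem avp_polU {u v : Fin 3 → ℝ} (hu : Dev u) (hv : Dev v) :
    avp (polU u) v = pev listU u v := by
  simp only [avp, polU, dsu, dd2, dd3, dv, ov, pev, listU, mon, ss_three, cc_three,
    List.map_cons, List.map_nil, List.sum_cons, List.sum_nil, Matrix.cons_val, dev3 hu, dev3 hv]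
  ring

theorem avp_polL {u v : Fin 3 → ℝ} (hu : Dev u) (hv : Dev v) :
    avp (polL u) v = pev listL u v := by
  simp only [avp, polL, dsu, dd2, dd3, dv, ov, pev, listL, mon, ss_three, cc_three,
    List.map_cons, List.map_nil, List.sum_cons, List.sum_nil, Matrix.cons_val, dev3 hu, dev3 hv]
  ring

theorem cc_bounds {u : Fin 3 → ℝ} (h : Dev u) :
    -(ss u / 2) ≤ cc u ∧ cc u ≤ ss u := by
  have h0 := h.2 0
  have h1 := h.2 1
  have h2 := h.2 2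
  rw [ss_three, cc_three, dev3 h]
  rw [dev3 h] at h2
  set a := u 0
  set b := u 1
  have hP := mul_nonneg (mul_nonneg (show (0:ℝ) ≤ 1 + a by linarith)
    (show (0:ℝ) ≤ 1 + b by linarith)) (show (0:ℝ) ≤ 1 + (-a - b) by linarith)
  set s := (a ^ 2 + b ^ 2 + (-a - b) ^ 2) / 6 with hs
  set c := (a ^ 3 + b ^ 3 + (-a - b) ^ 3) / 6 with hc
  constructor
  · have hP' : 0 ≤ 1 - 3 * s + 2 * c := by rw [hs, hc]; linarith
    have hd : c ^ 2 ≤ s ^ 3 := by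
      rw [hs, hc]; linarith [sq_nonneg ((a - b) * (2 * b + a) * (2 * a + b))]
    rcases le_or_gt (1 / 4) s with h4 | h4
    · linarith
    · have h5 : 0 ≤ s := by positivity
      nlinarith [mul_nonneg (mul_nonneg h5 h5) (sub_nonneg.mpr h4.le), sq_nonneg (c + s / 2)]
  · have e : s - c = ((1 + (-a - b)) * (a - b) ^ 2 + (1 + a) * (b - (-a - b)) ^ 2
        + (1 + b) * (-a - b - a) ^ 2) / 18 := by rw [hs, hc]; ring
    have := mul_nonneg (show (0:ℝ) ≤ 1 + (-a - b) by linarith) (sq_nonneg (a - b))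
    have := mul_nonneg (show (0:ℝ) ≤ 1 + a by linarith) (sq_nonneg (b - (-a - b)))
    have := mul_nonneg (show (0:ℝ) ≤ 1 + b by linarith) (sq_nonneg (-a - b - a))
    linarith

theorem merged_bounds {u v : Fin 3 → ℝ} (hu : Dev u) (hv : Dev v) :
    mz u v * ss (merged u v) ≤ polX u v ∧ mz u v * ss (merged u v) ^ 2 ≤ polM u v ∧
      mz u v * cc (merged u v) ≤ polU u v ∧ polL u v ≤ mz u v * cc (merged u v) := by
  have hZ : mz u v = 1 + ov u v := by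
    simp only [mz, ov, Fin.sum_univ_three, dev3 hu, dev3 hv]; push_cast; ring
  set W := ov u v with hW
  have h0 : 0 ≤ 1 + W := hZ ▸ mz_nonneg hu hv
  have hd : ∀ i, (1 + u i) * (1 + v i) = (1 + W) + dv u v i := fun i => by
    simp only [dv, ← hW]; ring
  rcases eq_or_lt_of_le h0 with hz | hz
  · have hs : (∑ i, (1 + u i) * (1 + v i)) = 0 := by
      have e := hZ.trans hz.symm
      simpa [mz] using e
    have hi : ∀ i, dv u v i = 0 := fun i => by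
      have e := (Finset.sum_eq_zero_iff_of_nonneg fun j _ =>
        mul_nonneg (by linarith [hu.2 j]) (by linarith [hv.2 j])).mp hs i (Finset.mem_univ i)
      rw [hd i] at e; linarith
    have e2 : dd2 u v = 0 := by simp [dd2, hi]
    have e3 : dd3 u v = 0 := by simp [dd3, hi]
    rw [hZ, polX, polM, polU, polL, dsu, ← hW, e2, e3, ← hz]
    simp
  · have hmd := hu.merged hv (by rw [hZ]; exact hz.ne')
    have hw : ∀ i, merged u v i = dv u v i / (1 + W) := fun i => by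
      rw [merged, hZ, hd i]; field_simp; ring
    set Z := 1 + W with hZdef
    set s := ss (merged u v) with hs
    set c := cc (merged u v) with hc
    have hd2 : dd2 u v = Z ^ 2 * s := by
      rw [hs, ss_three, hw, hw, hw, dd2]; field_simp
    have hd3 : dd3 u v = Z ^ 3 * c := by
      rw [hc, cc_three, hw, hw, hw, dd3]; field_simp
    have hs1 : s ≤ 1 := ss_le_one (by norm_num) hmd
    have hs0 : 0 ≤ s := ss_nonneg (by norm_num) _
    obtain ⟨hc0, hc1⟩ := cc_bounds hmd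
    rw [← hs, ← hc] at hc0 hc1
    have hW' : W = Z - 1 := by rw [hZdef]; ring
    have e4 : 0 ≤ W ^ 4 * Z * (1 - s) := by positivity
    have hsu : Z * s ≤ dsu u v := by
      rw [dsu, ← hW, hd2]
      have : 0 ≤ W ^ 2 * Z * (1 - s) := mul_nonneg (mul_nonneg (sq_nonneg _) hz.le) (by linarith)
      rw [hW'] at this ⊢; nlinarith
    have hq : 0 ≤ (6 + 8 * W + 3 * W ^ 2) * W ^ 2 := by
      refine mul_nonneg ?_ (sq_nonneg _); nlinarith [sq_nonneg (3 * W + 4)]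
    have hl : 0 ≤ (3 + 2 * W) * W ^ 2 := mul_nonneg (by linarith) (sq_nonneg _)
    rw [hZ]
    refine ⟨?_, ?_, ?_, ?_⟩
    · rw [polX, ← hW, hd2]; rw [hW'] at e4 ⊢; nlinarith
    · have := mul_le_mul_of_nonneg_left hsu hq
      have h2 := mul_le_mul_of_nonneg_left
        (mul_le_mul_of_nonneg_left (show s ^ 2 ≤ s by nlinarith) hz.le) hq
      rw [polM, ← hW, hd2]
      rw [hW'] at this h2 ⊢
      nlinarith
    · have := mul_le_mul_of_nonneg_left hsu hl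
      have h2 := mul_le_mul_of_nonneg_left (mul_le_mul_of_nonneg_left hc1 hz.le) hl
      rw [polU, ← hW, hd3]
      rw [hW'] at this h2 ⊢
      nlinarith
    · have := mul_le_mul_of_nonneg_left hsu hl
      have h2 := mul_le_mul_of_nonneg_left (mul_le_mul_of_nonneg_left hc0 hz.le) hl
      rw [polL, ← hW, hd3]
      rw [hW'] at this h2 ⊢
      nlinarith

/-- Iterated expectation of a list of monomials. -/
theorem E_pev (A R : Law 3) (s : (Fin 3 → ℝ) → Fin 3 → ℝ) (a b : ℕ → ℕ → ℝ)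
    (ha : ∀ i j, A.E (mon i j) = a i j) (hb : ∀ k l, R.E (fun u => mon k l (s u)) = b k l) :
    ∀ L, R.E (fun u => A.E (fun v => pev L (s u) v)) =
      (L.map fun x => x.1 * a x.2.1 x.2.2.1 * b x.2.2.2.1 x.2.2.2.2).sum
  | [] => by simp [pev, A.const, R.const]
  | x :: L => by
    have ih := E_pev A R s a b ha hb L
    simp only [pev, List.map_cons, List.sum_cons] at ih ⊢
    simp only [A.add_fun, R.add_fun, ih]
    congr 1
    have e : ∀ u, A.E (fun v => x.1 * mon x.2.1 x.2.2.1 v * mon x.2.2.2.1 x.2.2.2.2 (s u)) =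
        x.1 * a x.2.1 x.2.2.1 * mon x.2.2.2.1 x.2.2.2.2 (s u) := fun u => by
      rw [← ha, mul_right_comm, ← A.smul_fun]
      congr 1; funext v; ring
    simp only [e, R.smul_fun, hb]

/-- A moment bound through a pointwise polynomial bound. -/
theorem merge_le (A B : Law 3) {g : (Fin 3 → ℝ) → ℝ} {P : (Fin 3 → ℝ) → (Fin 3 → ℝ) → ℝ}
    {L : List (ℝ × ℕ × ℕ × ℕ × ℕ)}
    (hP : ∀ u v, Dev u → Dev v → mz u v * g (merged u v) ≤ P u v)
    (hL : ∀ u v, Dev u → Dev v → avp (P u) v = pev L u v) :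
    (B.merge (by norm_num) A).E g ≤ B.E (fun u => A.E (fun v => pev L u v)) := by
  rw [Law.merge_E]
  refine B.mono _ _ fun u hu => ?_
  rw [← A.congr (fun v hv => hL u v hu hv), ← E_avp]
  exact A.mono _ _ fun v hv => hP u v hu hv

end Vale.Agent.P154.D4
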