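import Vale.Agent.P154.D4.Iface
import Vale.Agent.P154.TreeAux.Ens

/-!
The order of information on finite families of likelihood vectors: sublinear functions on the
nonnegative orthant, and the monotonicity of four-fold combinations.
-/

namespace Vale.Agent.P154.D4

open Finset

/-- Sum of a function over a list. -/
def lsum {α : Type*} (l : List α) (f : α → ℝ) : ℝ := (l.map f).sum

section lsum

variable {α β : Type*}

@[simp] lemma lsum_nil (f : α → ℝ) : lsum ([] : List α) f = 0 := rfl

@[simp] lemma lsum_cons (a : α) (l : List α) (f : α → ℝ) : lsum (a :: l) f = f a + lsum l f := by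
  simp [lsum]

@[simp] lemma lsum_append (l l' : List α) (f : α → ℝ) : lsum (l ++ l') f = lsum l f + lsum l' f := by
  simp [lsum]

lemma lsum_congr {l : List α} {f g : α → ℝ} (h : ∀ a ∈ l, f a = g a) : lsum l f = lsum l g := by
  rw [lsum, lsum, List.map_congr_left h]

lemma lsum_le {l : List α} {f g : α → ℝ} (h : ∀ a ∈ l, f a ≤ g a) : lsum l f ≤ lsum l g :=
  List.sum_le_sum h

lemma lsum_map (g : α → β) (l : List α) (f : β → ℝ) :
    lsum (l.map g) f = lsum l (fun a => f (g a)) := by
  rw [lsum, List.map_map]; rfl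

lemma lsum_flatMap (g : α → List β) (l : List α) (f : β → ℝ) :
    lsum (l.flatMap g) f = lsum l (fun a => lsum (g a) f) := by
  induction l with
  | nil => rfl
  | cons a l ih => simp [ih]

lemma lsum_add (l : List α) (f g : α → ℝ) :
    lsum l (fun a => f a + g a) = lsum l f + lsum l g := by
  induction l with
  | nil => simp
  | cons a l ih => simp only [lsum_cons, ih]; ring

lemma lsum_mul_left (l : List α) (c : ℝ) (f : α → ℝ) :
    lsum l (fun a => c * f a) = c * lsum l f := by
  induction l with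
  | nil => simp
  | cons a l ih => simp only [lsum_cons, ih]; ring

lemma lsum_mul_right (l : List α) (c : ℝ) (f : α → ℝ) :
    lsum l (fun a => f a * c) = lsum l f * c := by
  induction l with
  | nil => simp
  | cons a l ih => simp only [lsum_cons, ih]; ring

lemma lsum_comm (l : List α) (l' : List β) (f : α → β → ℝ) :
    lsum l (fun a => lsum l' (f a)) = lsum l' (fun b => lsum l (fun a => f a b)) := by
  induction l with
  | nil =>
    induction l' with
    | nil => rfl
    | cons b l' ih => simpa using ih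
  | cons a l ih => simp only [lsum_cons, ih, lsum_add]

lemma sum_lsum_comm {ι : Type*} [Fintype ι] (l : List β) (f : ι → β → ℝ) :
    ∑ a, lsum l (f a) = lsum l (fun b => ∑ a, f a b) := by
  induction l with
  | nil => simp
  | cons b l ih => simp [sum_add_distrib, ih]

lemma lsum_fin (l : List α) (f : α → ℝ) : lsum l f = ∑ i : Fin l.length, f l[i.1] := by
  rw [Fin.sum_univ_fun_getElem]; rfl

lemma lsum_const (l : List α) (c : ℝ) : lsum l (fun _ => c) = (l.length : ℝ) * c := by
  induction l with
  | nil => simp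
  | cons a l ih => simp only [lsum_cons, ih, List.length_cons, Nat.cast_succ]; ring

end lsum

/-- The sum over quadruples of products of four vectors of a family. -/
def quad (l : List (Fin 3 → ℝ)) (G : (Fin 3 → ℝ) → ℝ) : ℝ :=
  lsum l fun a => lsum l fun b => lsum l fun c => lsum l fun d => G fun i => a i * b i * c i * d i

/-- Nonnegative vectors. -/
def NN (x : Fin 3 → ℝ) : Prop := ∀ i, 0 ≤ x i

/-- Subadditive and positively homogeneous on the nonnegative orthant. -/
structure SubP (G : (Fin 3 → ℝ) → ℝ) : Prop where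
  add : ∀ x y, NN x → NN y → G (x + y) ≤ G x + G y
  smul : ∀ (c : ℝ), 0 ≤ c → ∀ x, NN x → G (c • x) = c * G x

/-- Invariance under permutations of the coordinates. -/
def Symm (G : (Fin 3 → ℝ) → ℝ) : Prop := ∀ (σ : Equiv.Perm (Fin 3)) x, G (fun i => x (σ i)) = G x

/-- Symmetrisation. -/
noncomputable def symG (G : (Fin 3 → ℝ) → ℝ) (x : Fin 3 → ℝ) : ℝ :=
  (∑ σ : Equiv.Perm (Fin 3), G fun i => x (σ i)) / 6

lemma symG_symm (G : (Fin 3 → ℝ) → ℝ) : Symm (symG G) := by
  intro σ x
  unfold symG
  congr 1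
  exact Equiv.sum_comp (Equiv.mulLeft σ) fun τ : Equiv.Perm (Fin 3) => G fun i => x (τ i)

lemma symG_subP {G : (Fin 3 → ℝ) → ℝ} (hG : SubP G) : SubP (symG G) := by
  constructor
  · intro x y hx hy
    rw [symG, symG, symG, ← add_div, ← sum_add_distrib]
    gcongr with σ
    exact hG.add _ _ (fun i => hx (σ i)) (fun i => hy (σ i))
  · intro c hc x hx
    rw [symG, symG, ← mul_div_assoc, mul_sum]
    congr 1
    exact sum_congr rfl fun σ _ => hG.smul c hc _ fun i => hx (σ i)

lemma SubP.comp_mul {G : (Fin 3 → ℝ) → ℝ} (hG : SubP G) {u : Fin 3 → ℝ} (hu : NN u) :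
    SubP fun w => G fun i => u i * w i := by
  constructor
  · intro x y hx hy
    refine le_trans (le_of_eq (congrArg G ?_)) (hG.add _ _ (fun i => mul_nonneg (hu i) (hx i))
      fun i => mul_nonneg (hu i) (hy i))
    funext i; simp [mul_add]
  · intro c hc x hx
    rw [← hG.smul c hc _ fun i => mul_nonneg (hu i) (hx i)]
    refine congrArg G ?_
    funext i; simp; ring

lemma mul_below {e b : Tr.Ens 3} {l : List (Fin 3 → ℝ)} (hl : ∀ x ∈ l, NN x)
    {Q : ((Fin 3 → ℝ) → ℝ) → ℝ} (he : ∀ G, SubP G → e.S G ≤ lsum l G)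
    (hb : ∀ G, SubP G → b.S G ≤ Q G) {G : (Fin 3 → ℝ) → ℝ} (hG : SubP G) :
    (e.mul b).S G ≤ lsum l fun a => Q fun w => G fun i => a i * w i := by
  rw [Tr.Ens.S_mul, Finset.sum_comm]
  refine le_trans (b := ∑ y, lsum l fun a => G fun i => a i * b.L y i) ?_ ?_
  · refine sum_le_sum fun y _ => ?_
    refine le_trans (le_of_eq ?_) (he _ (hG.comp_mul (u := b.L y) (b.nonneg y))) |>.trans_eq ?_
    · exact sum_congr rfl fun x _ => congrArg G (funext fun i => mul_comm _ _)
    · exact lsum_congr fun a _ => congrArg G (funext fun i => mul_comm _ _)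
  · rw [sum_lsum_comm]
    exact lsum_le fun a ha => hb _ (hG.comp_mul (hl a ha))

/-- Monotonicity of four-fold combinations. -/
theorem quad_mono {e : Tr.Ens 3} {l : List (Fin 3 → ℝ)} (hl : ∀ x ∈ l, NN x)
    (h : ∀ G, SubP G → e.S G ≤ lsum l G) {G : (Fin 3 → ℝ) → ℝ} (hG : SubP G) :
    (Tr.Ens.prodE 4 fun _ => e).S G ≤ quad l G := by
  have h0 : ∀ G, SubP G → (Tr.Ens.prodE 0 fun _ => e).S G ≤ G fun _ => 1 := fun G _ => by
    show ∑ _x : Unit, G (fun _ => 1) ≤ _
    simp
  have h1 := fun G (hG : SubP G) => mul_below (b := Tr.Ens.prodE 0 fun _ => e) hl h h0 hG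
  have h2 := fun G (hG : SubP G) => mul_below (b := Tr.Ens.prodE 1 fun _ => e) hl h h1 hG
  have h3 := fun G (hG : SubP G) => mul_below (b := Tr.Ens.prodE 2 fun _ => e) hl h h2 hG
  refine (mul_below (b := Tr.Ens.prodE 3 fun _ => e) hl h h3 hG).trans (le_of_eq ?_)
  refine lsum_congr fun a _ => lsum_congr fun b _ => lsum_congr fun c _ => lsum_congr fun d _ => ?_
  refine congrArg G (funext fun i => ?_)
  ring

/-- A family is invariant under permutations of the coordinates. -/
def SymL (l : List (Fin 3 → ℝ)) : Prop :=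
  ∀ (σ : Equiv.Perm (Fin 3)) (G : (Fin 3 → ℝ) → ℝ),
    lsum l (fun x => G fun i => x (σ i)) = lsum l G

/-- It suffices to compare on symmetric functions. -/
theorem below_of_symm {e : Tr.Ens 3} {l : List (Fin 3 → ℝ)} (hs : SymL l)
    (h : ∀ G, SubP G → Symm G → e.S G ≤ lsum l G) {G : (Fin 3 → ℝ) → ℝ} (hG : SubP G) :
    e.S G ≤ lsum l G := by
  have h6 : (Fintype.card (Equiv.Perm (Fin 3)) : ℝ) = 6 := by
    rw [Fintype.card_perm, Fintype.card_fin]; norm_num [Nat.factorial]
  have hL : lsum l (symG G) = lsum l G := by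
    unfold symG
    simp only [div_eq_mul_inv, lsum_mul_right]
    rw [← sum_lsum_comm]
    simp only [hs _ G, sum_const, card_univ, nsmul_eq_mul, h6]
    ring
  have hR : e.S (symG G) = e.S G := by
    unfold symG Tr.Ens.S
    rw [← sum_div, Finset.sum_comm]
    simp only [e.symm _ G, sum_const, card_univ, nsmul_eq_mul, h6]
    ring
  have := h _ (symG_subP hG) (symG_symm G)
  rwa [hL, hR] at this

theorem chan_lo : -1 ≤ -(1 / 2 : ℝ) * (((3 : ℕ) : ℝ) - 1) := by norm_num

/-- The observation of the parent through one edge, on the `4`-ary tree at `λ = -1/2`. -/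
noncomputable def edgeE (n : ℕ) : Tr.Ens 3 :=
  (Tr.treeE (-(1 / 2)) chan_lo lam_hi n (regular 4 n)).chanE (-(1 / 2)) chan_lo lam_hi

end Vale.Agent.P154.D4
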