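import Vale.Agent.P154.D4.Family

/-!
The sums over quadruples in terms of the digits of the packed fourth powers.
-/

namespace Vale.Agent.P154.D4

open Finset

/-- The slot point of the sector chart. -/
noncomputable def pt2 (G : Lat) (s : ℕ) : Fin 3 → ℝ :=
  ![G.t ^ (((s / G.wid : ℕ) : ℤ) - 4 * G.L), G.t ^ (((s % G.wid : ℕ) : ℤ) - 4 * G.L), 1]

/-- The slot point of the face chart. -/
noncomputable def pt1 (G : Lat) (s : ℕ) : Fin 3 → ℝ := ![G.t ^ ((s : ℤ) - 4 * G.L), 1, 0]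

/-- The common denominator of the digits. -/
noncomputable def scale4 (G : Lat) : ℝ := (unitP * (G.q : ℝ) ^ G.L) ^ 4

/-- The channel at `λ = -1/2` on likelihood vectors. -/
noncomputable def chalf (x : Fin 3 → ℝ) : Fin 3 → ℝ := fun i => (x 0 + x 1 + x 2 - x i) / 2

lemma NN.chalf {x : Fin 3 → ℝ} (hx : NN x) : NN (chalf x) := fun i => by
  have := hx 0; have := hx 1; have := hx 2
  unfold Vale.Agent.P154.D4.chalf
  fin_cases i <;> simp <;> linarith

lemma chanV_half (x : Fin 3 → ℝ) : Tr.chanV (-(1 / 2)) x = chalf x := by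
  funext i
  simp only [Tr.chanV, Tr.mean, chalf, Fin.sum_univ_three, Nat.cast_ofNat]
  ring

lemma SubP.comp_chalf {g : (Fin 3 → ℝ) → ℝ} (hg : SubP g) : SubP fun x => g (chalf x) := by
  constructor
  · intro x y hx hy
    refine le_trans (le_of_eq (congrArg g ?_)) (hg.add _ _ hx.chalf hy.chalf)
    funext i; simp [chalf]; ring
  · intro c hc x hx
    rw [← hg.smul c hc _ hx.chalf]
    refine congrArg g (funext fun i => ?_)
    simp [chalf]; ring

lemma Symm.comp_chalf {g : (Fin 3 → ℝ) → ℝ} (hg : Symm g) : Symm fun x => g (chalf x) := by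
  intro σ x
  show g _ = g _
  rw [← hg σ (chalf x)]
  refine congrArg g (funext fun i => ?_)
  have := Equiv.sum_comp σ x
  simp only [Fin.sum_univ_three] at this
  simp only [chalf]
  rw [this]

lemma t_pos {G : Lat} (hG : G.good = true) : 0 < G.t :=
  div_pos (Lat.good.p_pos hG).1 (Lat.good.p_pos hG).2

lemma zpow_sum {t : ℝ} (ht : t ≠ 0) (I K N : ℕ) :
    t ^ I = t ^ K * t ^ (((I : ℤ) - K + N) - N) := by
  rw [add_sub_cancel_right, ← zpow_natCast t K, ← zpow_add₀ ht, add_sub_cancel, zpow_natCast]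

lemma slot_fit {G : Lat} {I J K : ℕ} (hI : I ≤ G.L) (hJ : J ≤ G.L) :
    4 * ((I + G.L - K) * G.wid + (J + G.L - K)) < G.wid * G.wid := by
  have h1 : 4 * ((I + G.L - K) * G.wid) ≤ 8 * G.L * G.wid := by
    rw [← mul_assoc]; exact Nat.mul_le_mul_right _ (by omega)
  have h2 : 4 * (J + G.L - K) < G.wid := by simp only [Lat.wid]; omega
  have h3 : G.wid * G.wid = 8 * G.L * G.wid + G.wid := by simp only [Lat.wid]; ring
  rw [mul_add, h3]
  omega

/-- Coordinates of the slot of four atoms. -/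
lemma slot_sum {G : Lat} {a b c d : ℕ × (ℕ × ℕ × ℕ)}
    (ha : a.2.1 ≤ G.L ∧ a.2.2.1 ≤ G.L ∧ a.2.2.2 ≤ G.L)
    (hb : b.2.1 ≤ G.L ∧ b.2.2.1 ≤ G.L ∧ b.2.2.2 ≤ G.L)
    (hc : c.2.1 ≤ G.L ∧ c.2.2.1 ≤ G.L ∧ c.2.2.2 ≤ G.L)
    (hd : d.2.1 ≤ G.L ∧ d.2.2.1 ≤ G.L ∧ d.2.2.2 ≤ G.L) :
    let s := (G.atom2 a.1 a.2).1 + (G.atom2 b.1 b.2).1 + (G.atom2 c.1 c.2).1 + (G.atom2 d.1 d.2).1
    (s / G.wid : ℕ) + (a.2.2.2 + b.2.2.2 + c.2.2.2 + d.2.2.2) =
        a.2.1 + b.2.1 + c.2.1 + d.2.1 + 4 * G.L ∧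
      (s % G.wid : ℕ) + (a.2.2.2 + b.2.2.2 + c.2.2.2 + d.2.2.2) =
        a.2.2.1 + b.2.2.1 + c.2.2.1 + d.2.2.1 + 4 * G.L := by
  obtain ⟨A, hA⟩ : ∃ A, A = (a.2.1 + G.L - a.2.2.2) + (b.2.1 + G.L - b.2.2.2) +
    (c.2.1 + G.L - c.2.2.2) + (d.2.1 + G.L - d.2.2.2) := ⟨_, rfl⟩
  obtain ⟨B, hB⟩ : ∃ B, B = (a.2.2.1 + G.L - a.2.2.2) + (b.2.2.1 + G.L - b.2.2.2) +
    (c.2.2.1 + G.L - c.2.2.2) + (d.2.2.1 + G.L - d.2.2.2) := ⟨_, rfl⟩
  have hBw : B < G.wid := by simp only [Lat.wid]; omega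
  have hs : (G.atom2 a.1 a.2).1 + (G.atom2 b.1 b.2).1 + (G.atom2 c.1 c.2).1 + (G.atom2 d.1 d.2).1 =
      B + G.wid * A := by
    simp only [Lat.atom2, hA, hB]; ring
  simp only [hs]
  rw [Nat.add_mul_div_left _ _ (by simp [Lat.wid]), Nat.div_eq_of_lt hBw, zero_add,
    Nat.add_mul_mod_self_left, Nat.mod_eq_of_lt hBw]
  omega

/-- Sum of four triples. -/
def tsum4 (a b c d : ℕ × ℕ × ℕ) : ℕ × ℕ × ℕ :=
  (a.1 + b.1 + c.1 + d.1, a.2.1 + b.2.1 + c.2.1 + d.2.1, a.2.2 + b.2.2 + c.2.2 + d.2.2)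

/-- Quadruple sum over the exponents of the atoms. -/
noncomputable def qb (G : Lat) (W : List ℕ) (f : ℕ × ℕ × ℕ → ℝ) : ℝ :=
  lsum (base G W) fun a => lsum (base G W) fun b => lsum (base G W) fun c => lsum (base G W) fun d =>
    (a.1 : ℝ) / unitP * ((b.1 : ℝ) / unitP) * ((c.1 : ℝ) / unitP) * ((d.1 : ℝ) / unitP) *
      f (tsum4 a.2 b.2 c.2 d.2)

/-- A permutation of triples. -/
def perm6 : Fin 6 → ℕ × ℕ × ℕ → ℕ × ℕ × ℕ
  | 0, e => (e.1, e.2.1, e.2.2)
  | 1, e => (e.1, e.2.2, e.2.1)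
  | 2, e => (e.2.1, e.1, e.2.2)
  | 3, e => (e.2.1, e.2.2, e.1)
  | 4, e => (e.2.2, e.1, e.2.1)
  | 5, e => (e.2.2, e.2.1, e.1)

lemma lsum_base_perm (G : Lat) (W : List ℕ) (k : Fin 6) (f : ℕ × (ℕ × ℕ × ℕ) → ℝ) :
    lsum (base G W) (fun a => f (a.1, perm6 k a.2)) = lsum (base G W) f := by
  rw [lsum_base, lsum_base]
  refine lsum_congr fun we _ => ?_
  fin_cases k <;> simp [perm6] <;> ring

lemma perm6_tsum4 (k : Fin 6) (a b c d : ℕ × ℕ × ℕ) :
    perm6 k (tsum4 a b c d) = tsum4 (perm6 k a) (perm6 k b) (perm6 k c) (perm6 k d) := by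
  fin_cases k <;> rfl

lemma qb_perm (G : Lat) (W : List ℕ) (k : Fin 6) (f : ℕ × ℕ × ℕ → ℝ) :
    qb G W (fun e => f (perm6 k e)) = qb G W f := by
  simp only [qb, perm6_tsum4]
  refine Eq.trans ?_ (lsum_base_perm G W k _)
  refine lsum_congr fun a _ => ?_
  refine Eq.trans ?_ (lsum_base_perm G W k _)
  refine lsum_congr fun b _ => ?_
  refine Eq.trans ?_ (lsum_base_perm G W k _)
  refine lsum_congr fun c _ => ?_
  exact lsum_base_perm G W k fun d => (a.1 : ℝ) / unitP * ((b.1 : ℝ) / unitP) *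
    ((c.1 : ℝ) / unitP) * ((d.1 : ℝ) / unitP) *
      f (tsum4 (perm6 k a.2) (perm6 k b.2) (perm6 k c.2) d.2)

/-- Multiplicity of the sorted representative of an orbit. -/
def secMult (e : ℕ × ℕ × ℕ) : ℕ :=
  if e.1 ≤ e.2.1 ∧ e.2.1 ≤ e.2.2 then
    (if e.1 = e.2.1 then (if e.2.1 = e.2.2 then 1 else 3) else (if e.2.1 = e.2.2 then 3 else 6))
  else 0

lemma secMult_sum (e : ℕ × ℕ × ℕ) : ∑ k : Fin 6, secMult (perm6 k e) = 6 := by
  obtain ⟨I, J, K⟩ := e
  simp only [Fin.sum_univ_six, perm6, secMult]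
  rcases lt_trichotomy I J with h | h | h <;> rcases lt_trichotomy J K with h' | h' | h' <;>
    rcases lt_trichotomy I K with h'' | h'' | h'' <;>
    first
      | omega
      | (subst_vars; simp [*, le_of_lt, not_le_of_gt, ne_of_lt, ne_of_gt])

lemma qb_sector (G : Lat) (W : List ℕ) {f : ℕ × ℕ × ℕ → ℝ} (hf : ∀ k e, f (perm6 k e) = f e) :
    qb G W f = qb G W fun e => (secMult e : ℝ) * f e := by
  have h : ∀ k : Fin 6, qb G W (fun e => (secMult (perm6 k e) : ℝ) * f e) =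
      qb G W fun e => (secMult e : ℝ) * f e := fun k => by
    rw [← qb_perm G W k fun e => (secMult e : ℝ) * f e]
    simp only [hf]
  have h6 : ∑ k : Fin 6, qb G W (fun e => (secMult (perm6 k e) : ℝ) * f e) =
      qb G W fun e => 6 * f e := by
    simp only [qb, sum_lsum_comm, ← mul_sum, ← sum_mul, ← Nat.cast_sum, secMult_sum,
      Nat.cast_ofNat]
  have hc : qb G W (fun e => 6 * f e) = 6 * qb G W f := by
    simp only [qb, ← lsum_mul_left]
    refine lsum_congr fun a _ => lsum_congr fun b _ => lsum_congr fun c _ => lsum_congr fun d _ => ?_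
    ring
  rw [sum_congr rfl fun k _ => h k, sum_const, card_univ, Fintype.card_fin, nsmul_eq_mul, hc] at h6
  push_cast at h6
  linarith

/-- Sums over slots, in rows. -/
lemma sum_range_rows {M : Type*} [AddCommMonoid M] (w a : ℕ) (f : ℕ → M) :
    ∑ s ∈ range (a * w), f s = ∑ A ∈ range a, ∑ B ∈ range w, f (A * w + B) := by
  induction a with
  | zero => simp
  | succ a ih => rw [Nat.succ_mul, sum_range_add, ih, sum_range_succ]

/-- The lattice part of the fourth power, on the sector. -/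
theorem quad_fvecs {G : Lat} (hG : G.good = true) (W : List ℕ) {K : ℕ}
    (hb : mass (G.atoms Lat.atom2 W) ^ 4 < 2 ^ K) {H : (Fin 3 → ℝ) → ℝ} (hP : SubP H)
    (hS : Symm H) :
    quad (fvecs G W) H = 1 / scale4 G * ∑ A ∈ range (4 * G.L + 1),
      ∑ i ∈ range (4 * G.L + 1 - A), ((mult (4 * G.L) A (A + i) *
        digit K (pack K (G.atoms Lat.atom2 W) ^ 4) (A * G.wid + (A + i)) : ℕ) : ℝ) *
          H (pt2 G (A * G.wid + (A + i))) := by
  set F2 := G.atoms Lat.atom2 W with hF2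
  have ht := t_pos hG
  have hu := unitP_pos
  have hq := (Lat.good.p_pos hG).2
  have hin : ∀ x ∈ F2, 4 * x.1 < G.wid * G.wid := by
    intro x hx
    rw [hF2, atoms_eq, List.mem_map] at hx
    obtain ⟨a, ha, rfl⟩ := hx
    obtain ⟨h1, h2, -⟩ := base_mem hG ha
    exact slot_fit h1 h2
  have h1 : quad (fvecs G W) H = qb G W fun e => H (G.vec e) := by
    simp only [quad, fvecs, lsum_map, qb]
    refine lsum_congr fun a _ => lsum_congr fun b _ => lsum_congr fun c _ => lsum_congr fun d _ => ?_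
    rw [← hP.smul _ (by positivity) _ (vec_nn hG _)]
    refine congrArg H (funext fun i => ?_)
    fin_cases i <;> simp [fV, Lat.vec, expo, tsum4, pow_add] <;> ring
  have hsym : ∀ k e, H (G.vec (perm6 k e)) = H (G.vec e) := by
    intro k e
    have hv : ∀ e, G.vec e = ![G.t ^ e.1, G.t ^ e.2.1, G.t ^ e.2.2] := fun e => by
      funext i; fin_cases i <;> simp [Lat.vec, expo]
    fin_cases k
    · rfl
    · rw [← hS (Equiv.swap 1 2) (G.vec e)]
      refine congrArg H (funext fun i => ?_)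
      fin_cases i <;> simp [hv, perm6, Equiv.swap_apply_def]
    · rw [← hS (Equiv.swap 0 1) (G.vec e)]
      refine congrArg H (funext fun i => ?_)
      fin_cases i <;> simp [hv, perm6, Equiv.swap_apply_def]
    · rw [← hS (Equiv.swap 0 1) (G.vec e), ← hS (Equiv.swap 1 2) fun i => G.vec e (Equiv.swap 0 1 i)]
      refine congrArg H (funext fun i => ?_)
      fin_cases i <;> simp [hv, perm6, Equiv.swap_apply_def]
    · rw [← hS (Equiv.swap 1 2) (G.vec e), ← hS (Equiv.swap 0 1) fun i => G.vec e (Equiv.swap 1 2 i)]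
      refine congrArg H (funext fun i => ?_)
      fin_cases i <;> simp [hv, perm6, Equiv.swap_apply_def]
    · rw [← hS (Equiv.swap 0 2) (G.vec e)]
      refine congrArg H (funext fun i => ?_)
      fin_cases i <;> simp [hv, perm6, Equiv.swap_apply_def]
  let φ : ℕ → ℕ := fun s => if s / G.wid ≤ s % G.wid ∧ s % G.wid ≤ 4 * G.L then
    mult (4 * G.L) (s / G.wid) (s % G.wid) else 0
  have h2 : qb G W (fun e => (secMult e : ℝ) * H (G.vec e)) =
      1 / scale4 G * qs F2 fun s => (φ s : ℝ) * H (pt2 G s) := by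
    simp only [qb, qs, hF2, atoms_eq, List.map_map]
    change _ = 1 / scale4 G * lsum (base G W) (fun a => lsum (base G W) fun b =>
      lsum (base G W) fun c => lsum (base G W) fun d =>
      (((G.atom2 a.1 a.2).2 * (G.atom2 b.1 b.2).2 * (G.atom2 c.1 c.2).2 * (G.atom2 d.1 d.2).2 : ℕ)
        : ℝ) * ((φ ((G.atom2 a.1 a.2).1 + (G.atom2 b.1 b.2).1 + (G.atom2 c.1 c.2).1 +
          (G.atom2 d.1 d.2).1) : ℝ) * H (pt2 G ((G.atom2 a.1 a.2).1 + (G.atom2 b.1 b.2).1 +
          (G.atom2 c.1 c.2).1 + (G.atom2 d.1 d.2).1))))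
    simp only [← lsum_mul_left]
    refine lsum_congr fun a ha => lsum_congr fun b hb' => lsum_congr fun c hc =>
      lsum_congr fun d hd => ?_
    have ba := base_mem hG ha; have bb := base_mem hG hb'
    have bc := base_mem hG hc; have bd := base_mem hG hd
    obtain ⟨eA, eB⟩ := slot_sum ba bb bc bd
    set s := (G.atom2 a.1 a.2).1 + (G.atom2 b.1 b.2).1 + (G.atom2 c.1 c.2).1 +
      (G.atom2 d.1 d.2).1
    set T := tsum4 a.2 b.2 c.2 d.2 with hT
    have eA' : s / G.wid + T.2.2 = T.1 + 4 * G.L := eA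
    have eB' : s % G.wid + T.2.2 = T.2.1 + 4 * G.L := eB
    have hφ : φ s = secMult T := by
      simp only [φ, mult, secMult]
      split_ifs <;> omega
    have hvec : G.vec T = G.t ^ T.2.2 • pt2 G s := by
      funext i
      have e1 : ((s / G.wid : ℕ) : ℤ) = (T.1 : ℤ) - T.2.2 + (4 * G.L : ℕ) := by omega
      have e2 : ((s % G.wid : ℕ) : ℤ) = (T.2.1 : ℤ) - T.2.2 + (4 * G.L : ℕ) := by omega
      have z1 := zpow_sum ht.ne' T.1 T.2.2 (4 * G.L)
      have z2 := zpow_sum ht.ne' T.2.1 T.2.2 (4 * G.L)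
      push_cast at e1 e2 z1 z2
      fin_cases i <;> simp [Lat.vec, expo, pt2]
      · rw [e1]; exact z1
      · rw [e2]; exact z2
    have hpn : NN (pt2 G s) := fun i => by
      fin_cases i <;> simp [pt2] <;> exact zpow_nonneg ht.le _
    rw [hφ, hvec, hP.smul _ (pow_nonneg ht.le _) _ hpn]
    simp only [Lat.atom2]
    rw [Nat.cast_mul, Nat.cast_mul, Nat.cast_mul, Nat.cast_mul (a.1), Nat.cast_mul (b.1),
      Nat.cast_mul (c.1), Nat.cast_mul (d.1), t_scale hG ba.2.2, t_scale hG bb.2.2,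
      t_scale hG bc.2.2, t_scale hG bd.2.2, scale4, hT, tsum4]
    simp only [pow_add]
    field_simp
  rw [h1, qb_sector G W hsym, h2, qs_eq_sum hin, sum_range_rows]
  congr 1
  rw [← sum_subset (range_mono (by simp only [Lat.wid]; omega : 4 * G.L + 1 ≤ G.wid))]
  · refine sum_congr rfl fun A hA => ?_
    have hA' : A < 4 * G.L + 1 := mem_range.1 hA
    have hw : 4 * G.L + 1 ≤ G.wid := by simp [Lat.wid]; omega
    rw [← sum_subset (fun B hB => mem_range.2 (by have := (mem_Ico.1 hB).2; omega) :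
      Ico A (4 * G.L + 1) ⊆ range G.wid)]
    · rw [sum_Ico_eq_sum_range]
      refine sum_congr rfl fun i hi => ?_
      have hi' : i < 4 * G.L + 1 - A := mem_range.1 hi
      have hB : A + i < G.wid := by omega
      have hs : A * G.wid + (A + i) < G.wid * G.wid := by
        have : (A + 1) * G.wid ≤ G.wid * G.wid := Nat.mul_le_mul_right _ (by omega)
        rw [Nat.succ_mul] at this
        omega
      rw [digit_pow4 hin hb hs]
      have hd : (A * G.wid + (A + i)) / G.wid = A ∧ (A * G.wid + (A + i)) % G.wid = A + i := by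
        rw [add_comm, mul_comm]
        refine ⟨?_, by rw [Nat.add_mul_mod_self_left, Nat.mod_eq_of_lt hB]⟩
        rw [Nat.add_mul_div_left _ _ (by simp [Lat.wid]), Nat.div_eq_of_lt hB, zero_add]
      simp only [φ, hd.1, hd.2]
      rw [if_pos ⟨by omega, by omega⟩]
      push_cast
      ring
    · intro B hB hB'
      have hBw : B < G.wid := mem_range.1 hB
      have hd : (A * G.wid + B) / G.wid = A ∧ (A * G.wid + B) % G.wid = B := by
        rw [add_comm, mul_comm]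
        refine ⟨?_, by rw [Nat.add_mul_mod_self_left, Nat.mod_eq_of_lt hBw]⟩
        rw [Nat.add_mul_div_left _ _ (by simp [Lat.wid]), Nat.div_eq_of_lt hBw, zero_add]
      simp only [φ, hd.1, hd.2]
      rw [if_neg (fun h => hB' (mem_Ico.2 ⟨h.1, by omega⟩))]
      simp
  · intro A hA hA'
    refine sum_eq_zero fun B hB => ?_
    have hBw : B < G.wid := mem_range.1 hB
    have hd : (A * G.wid + B) / G.wid = A ∧ (A * G.wid + B) % G.wid = B := by
      rw [add_comm, mul_comm]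
      refine ⟨?_, by rw [Nat.add_mul_mod_self_left, Nat.mod_eq_of_lt hBw]⟩
      rw [Nat.add_mul_div_left _ _ (by simp [Lat.wid]), Nat.div_eq_of_lt hBw, zero_add]
    simp only [φ, hd.1, hd.2]
    rw [if_neg (fun h => by simp at hA'; omega)]
    simp

end Vale.Agent.P154.D4
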