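import Vale.Agent.P154.D4.Table

/-!
Sums over quadruples: linearity, symmetry, and the reduction of the products with a vanishing
coordinate to one face.
-/

namespace Vale.Agent.P154.D4

/-- Product of four vectors. -/
def prod4 (a b c d : Fin 3 → ℝ) : Fin 3 → ℝ := fun i => a i * b i * c i * d i

lemma NN.prod4 {a b c d : Fin 3 → ℝ} (ha : NN a) (hb : NN b) (hc : NN c) (hd : NN d) :
    NN (prod4 a b c d) := fun i =>
  mul_nonneg (mul_nonneg (mul_nonneg (ha i) (hb i)) (hc i)) (hd i)

lemma quad_congr {l l' : List (Fin 3 → ℝ)} (h : ∀ f, lsum l f = lsum l' f)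
    (G : (Fin 3 → ℝ) → ℝ) : quad l G = quad l' G := by
  simp only [quad, h]

lemma quad_lin (l : List (Fin 3 → ℝ)) (a b : ℝ) (G G' : (Fin 3 → ℝ) → ℝ) :
    quad l (fun x => a * G x + b * G' x) = a * quad l G + b * quad l G' := by
  simp only [quad, lsum_add, lsum_mul_left]

lemma quad_add (l : List (Fin 3 → ℝ)) (G G' : (Fin 3 → ℝ) → ℝ) :
    quad l (fun x => G x + G' x) = quad l G + quad l G' := by
  simp only [quad, lsum_add]

lemma quad_mul_left (l : List (Fin 3 → ℝ)) (a : ℝ) (G : (Fin 3 → ℝ) → ℝ) :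
    quad l (fun x => a * G x) = a * quad l G := by
  simp only [quad, lsum_mul_left]

lemma quad_coord (l : List (Fin 3 → ℝ)) (i : Fin 3) :
    quad l (fun x => x i) = lsum l (fun x => x i) ^ 4 := by
  simp only [quad, lsum_mul_left, lsum_mul_right]
  ring

lemma quad_map (φ : (Fin 3 → ℝ) → Fin 3 → ℝ)
    (hφ : ∀ a b c d, φ (prod4 a b c d) = prod4 (φ a) (φ b) (φ c) (φ d)) (l : List (Fin 3 → ℝ))
    (G : (Fin 3 → ℝ) → ℝ) : quad (l.map φ) G = quad l fun x => G (φ x) := by
  simp only [quad, lsum_map]
  refine lsum_congr fun a _ => lsum_congr fun b _ => lsum_congr fun c _ => lsum_congr fun d _ => ?_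
  exact congrArg G (hφ a b c d).symm

lemma quad_symm {l : List (Fin 3 → ℝ)} (hl : SymL l) (σ : Equiv.Perm (Fin 3))
    (G : (Fin 3 → ℝ) → ℝ) : quad l (fun x => G fun i => x (σ i)) = quad l G := by
  refine Eq.trans ?_ (hl σ fun a => lsum l fun b => lsum l fun c => lsum l fun d =>
    G (prod4 a b c d))
  refine lsum_congr fun a _ => ?_
  refine Eq.trans ?_ (hl σ fun b => lsum l fun c => lsum l fun d =>
    G (prod4 (fun i => a (σ i)) b c d))
  refine lsum_congr fun b _ => ?_
  refine Eq.trans ?_ (hl σ fun c => lsum l fun d =>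
    G (prod4 (fun i => a (σ i)) (fun i => b (σ i)) c d))
  refine lsum_congr fun c _ => ?_
  exact hl σ fun d => G (prod4 (fun i => a (σ i)) (fun i => b (σ i)) (fun i => c (σ i)) d)

/-- A function vanishing at the products with a bad factor only sees the good factors. -/
lemma quad_append {F Z : List (Fin 3 → ℝ)} {D : (Fin 3 → ℝ) → ℝ}
    (h : ∀ a ∈ F ++ Z, ∀ b ∈ F ++ Z, ∀ c ∈ F ++ Z, ∀ d ∈ F ++ Z,
      (a ∈ Z ∨ b ∈ Z ∨ c ∈ Z ∨ d ∈ Z) → D (prod4 a b c d) = 0) :
    quad (F ++ Z) D = quad F D := by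
  have hz : ∀ f : (Fin 3 → ℝ) → ℝ, (∀ z ∈ Z, f z = 0) → lsum (F ++ Z) f = lsum F f := by
    intro f hf
    have h0 : lsum Z f = lsum Z fun _ => (0 : ℝ) := lsum_congr hf
    rw [lsum_append, h0, lsum_const, mul_zero, add_zero]
  have hall : ∀ (f : (Fin 3 → ℝ) → ℝ), (∀ x ∈ F ++ Z, f x = 0) → lsum (F ++ Z) f = 0 := by
    intro f hf
    rw [lsum_congr hf, lsum_const, mul_zero]
  have hm : ∀ {x}, x ∈ F → x ∈ F ++ Z := fun hx => List.mem_append_left _ hx
  have hm' : ∀ {x}, x ∈ Z → x ∈ F ++ Z := fun hx => List.mem_append_right _ hx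
  rw [quad, hz]
  · refine lsum_congr fun a ha => ?_
    rw [hz]
    · refine lsum_congr fun b hb => ?_
      rw [hz]
      · refine lsum_congr fun c hc => ?_
        exact hz _ fun d hd => h a (hm ha) b (hm hb) c (hm hc) d (hm' hd) (by tauto)
      · intro c hc
        exact hall _ fun d hd => h a (hm ha) b (hm hb) c (hm' hc) d hd (by tauto)
    · intro b hb
      exact hall _ fun c hc => hall _ fun d hd => h a (hm ha) b (hm' hb) c hc d hd (by tauto)
  · intro a ha
    exact hall _ fun b hb => hall _ fun c hc => hall _ fun d hd =>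
      h a (hm' ha) b hb c hc d hd (by tauto)

/-- Removing the last coordinate. -/
def face (x : Fin 3 → ℝ) : Fin 3 → ℝ := fun i => if i = 2 then 0 else x i

lemma face_prod4 (a b c d : Fin 3 → ℝ) :
    face (prod4 a b c d) = prod4 (face a) (face b) (face c) (face d) := by
  funext i; fin_cases i <;> simp [face, prod4]

lemma NN.face {a : Fin 3 → ℝ} (ha : NN a) : NN (face a) := fun i => by
  unfold Vale.Agent.P154.D4.face; split_ifs
  · exact le_rfl
  · exact ha i

lemma prod4_zero {a b c d : Fin 3 → ℝ} {i : Fin 3} (h : a i = 0 ∨ b i = 0 ∨ c i = 0 ∨ d i = 0) :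
    prod4 a b c d i = 0 := by
  rcases h with h | h | h | h <;> simp [prod4, h]

/-- Value at a vector with one nonzero coordinate. -/
lemma single_eval {H : (Fin 3 → ℝ) → ℝ} (hP : SubP H) (hS : Symm H) {x : Fin 3 → ℝ} (hx : NN x)
    (i : Fin 3) (h : ∀ j, j ≠ i → x j = 0) : H x = x i * H v100 := by
  have hn : NN (fun j => v100 (Equiv.swap 0 i j)) := fun j => by
    show 0 ≤ v100 (Equiv.swap 0 i j)
    generalize Equiv.swap 0 i j = k
    fin_cases k <;> norm_num [v100]
  have e : x = x i • fun j => v100 (Equiv.swap 0 i j) := by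
    funext j
    rcases eq_or_ne j i with hj | hj
    · subst hj; simp [v100, Equiv.swap_apply_right]
    · rw [h j hj]
      fin_cases i <;> fin_cases j <;> simp_all [v100, Equiv.swap_apply_def]
  conv_lhs => rw [e]
  rw [hP.smul _ (hx i) _ hn, hS (Equiv.swap 0 i) v100]

/-- Products with a vanishing coordinate, reduced to a face. -/
theorem split_eq {H : (Fin 3 → ℝ) → ℝ} (hP : SubP H) (hS : Symm H) {F Z : List (Fin 3 → ℝ)}
    (hl : SymL (F ++ Z)) (hF : SymL F) (hn : ∀ x ∈ F ++ Z, NN x)
    (hz : ∀ z ∈ Z, ∃ i, z i = 0) :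
    quad (F ++ Z) H = quad F H + 3 * (quad ((F ++ Z).map face) H - quad (F.map face) H) -
      H v100 * (∑ i, lsum (F ++ Z) (fun x => x i) ^ 4 - ∑ i, lsum F (fun x => x i) ^ 4) := by
  let K : (Fin 3 → ℝ) → ℝ := fun x =>
    H (face fun i => x (Equiv.swap 0 2 i)) + H (face fun i => x (Equiv.swap 1 2 i)) + H (face x) +
      (-(H v100)) * (x 0 + x 1 + x 2)
  have hD : quad (F ++ Z) (fun x => H x + (-1) * K x) = quad F (fun x => H x + (-1) * K x) := by
    refine quad_append fun a ha b hb c hc d hd hbad => ?_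
    have hpn := NN.prod4 (hn a ha) (hn b hb) (hn c hc) (hn d hd)
    set x := prod4 a b c d
    have hx : x 0 = 0 ∨ x 1 = 0 ∨ x 2 = 0 := by
      have key : ∃ i, x i = 0 := by
        rcases hbad with h | h | h | h <;> obtain ⟨i, hi⟩ := hz _ h <;>
          exact ⟨i, prod4_zero (by tauto)⟩
      obtain ⟨i, hi⟩ := key
      fin_cases i <;> tauto
    have hs : ∀ σ : Equiv.Perm (Fin 3), NN (face fun i => x (σ i)) :=
      fun σ => NN.face fun i => hpn (σ i)
    show H x + (-1) * K x = 0
    rcases hx with h0 | h0 | h0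
    · have h1 : (H (face fun i => x (Equiv.swap 0 2 i))) = H x := by
        rw [← hS (Equiv.swap 0 2) x]
        refine congrArg H (funext fun i => ?_)
        fin_cases i <;> simp [face, Equiv.swap_apply_def, h0]
      have h2 := single_eval hP hS (hs (Equiv.swap 1 2)) 1 (fun j hj => by
        fin_cases j <;> simp_all [face, Equiv.swap_apply_def])
      have h3 := single_eval hP hS (NN.face hpn) 1 (fun j hj => by
        fin_cases j <;> simp_all [face])
      simp only [K, h1, h2, h3]
      simp [face, Equiv.swap_apply_def, h0]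
      ring
    · have h2 : (H (face fun i => x (Equiv.swap 1 2 i))) = H x := by
        rw [← hS (Equiv.swap 1 2) x]
        refine congrArg H (funext fun i => ?_)
        fin_cases i <;> simp [face, Equiv.swap_apply_def, h0]
      have h1 := single_eval hP hS (hs (Equiv.swap 0 2)) 0 (fun j hj => by
        fin_cases j <;> simp_all [face, Equiv.swap_apply_def])
      have h3 := single_eval hP hS (NN.face hpn) 0 (fun j hj => by
        fin_cases j <;> simp_all [face])
      simp only [K, h1, h2, h3]
      simp [face, Equiv.swap_apply_def, h0]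
      ring
    · have h3 : H (face x) = H x := by
        refine congrArg H (funext fun i => ?_)
        fin_cases i <;> simp [face, h0]
      have h1 := single_eval hP hS (hs (Equiv.swap 0 2)) 1 (fun j hj => by
        fin_cases j <;> simp_all [face, Equiv.swap_apply_def])
      have h2 := single_eval hP hS (hs (Equiv.swap 1 2)) 0 (fun j hj => by
        fin_cases j <;> simp_all [face, Equiv.swap_apply_def])
      simp only [K, h1, h2, h3]
      simp [face, Equiv.swap_apply_def, h0]
      ring
  have hK : ∀ l, SymL l → quad l K = 3 * quad (l.map face) H +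
      (-(H v100)) * ∑ i, lsum l (fun x => x i) ^ 4 := by
    intro l hl
    simp only [K, quad_add, quad_mul_left, quad_symm hl (Equiv.swap 0 2) (fun x => H (face x)),
      quad_symm hl (Equiv.swap 1 2) (fun x => H (face x)), ← quad_map face face_prod4,
      quad_coord, Fin.sum_univ_three]
    ring
  rw [quad_add, quad_add, quad_mul_left, quad_mul_left, hK _ hl, hK _ hF] at hD
  linarith

/-- On a face, products with a vanishing coordinate are certainties. -/
theorem face_eq {H : (Fin 3 → ℝ) → ℝ} (hP : SubP H) (hS : Symm H) {F Z : List (Fin 3 → ℝ)}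
    (hn : ∀ x ∈ F ++ Z, NN x) (h2 : ∀ x ∈ F ++ Z, x 2 = 0)
    (hz : ∀ z ∈ Z, z 0 = 0 ∨ z 1 = 0) :
    quad (F ++ Z) H = quad F H + H v100 *
      ((lsum (F ++ Z) (fun x => x 0) ^ 4 + lsum (F ++ Z) (fun x => x 1) ^ 4) -
        (lsum F (fun x => x 0) ^ 4 + lsum F (fun x => x 1) ^ 4)) := by
  have hD : quad (F ++ Z) (fun x => H x + (-(H v100)) * (x 0 + x 1)) =
      quad F (fun x => H x + (-(H v100)) * (x 0 + x 1)) := by
    refine quad_append fun a ha b hb c hc d hd hbad => ?_
    have hpn := NN.prod4 (hn a ha) (hn b hb) (hn c hc) (hn d hd)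
    set x := prod4 a b c d
    have hx2 : x 2 = 0 := prod4_zero (Or.inl (h2 a ha))
    have hx : x 0 = 0 ∨ x 1 = 0 := by
      rcases hbad with h | h | h | h <;> rcases hz _ h with hi | hi <;>
        first | exact Or.inl (prod4_zero (by tauto)) | exact Or.inr (prod4_zero (by tauto))
    rcases hx with h0 | h0
    · have := single_eval hP hS hpn 1 (fun j hj => by fin_cases j <;> simp_all)
      rw [this, h0]; ring
    · have := single_eval hP hS hpn 0 (fun j hj => by fin_cases j <;> simp_all)
      rw [this, h0]; ring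
  simp only [quad_add, quad_mul_left, quad_coord] at hD
  linarith

end Vale.Agent.P154.D4
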