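import Vale.Agent.P154.D4.Slots

/-!
One generation of the computation is sound.
-/

namespace Vale.Agent.P154.D4

open Finset

lemma edgeE_succ (n : ℕ) (g : (Fin 3 → ℝ) → ℝ) :
    (edgeE (n + 1)).S g = (Tr.Ens.prodE 4 fun _ => edgeE n).S fun x => g (chalf x) := by
  rw [edgeE, Tr.Ens.S_chanE]
  simp only [chanV_half]
  rfl

/-- A weighted slot of the face, as a vector. -/
noncomputable def fU (G : Lat) (a : ℕ × ℕ) : Fin 3 → ℝ :=
  ((a.2 : ℝ) / (unitP * (G.q : ℝ) ^ G.L)) • ![G.t ^ ((a.1 : ℤ) - G.L), 1, 0]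

lemma fU_nn {G : Lat} (hG : G.good = true) (a : ℕ × ℕ) : NN (fU G a) := by
  have h : (0 : ℝ) ≤ (a.2 : ℝ) / (unitP * (G.q : ℝ) ^ G.L) := div_nonneg (Nat.cast_nonneg _)
    (mul_pos unitP_pos (pow_pos (Lat.good.p_pos hG).2 _)).le
  intro i
  refine mul_nonneg h ?_
  fin_cases i <;> simp [zpow_nonneg (t_pos hG).le]

lemma quad_fU {G : Lat} (hG : G.good = true) (l : List (ℕ × ℕ)) {H : (Fin 3 → ℝ) → ℝ}
    (hP : SubP H) :
    quad (l.map (fU G)) H = 1 / scale4 G * qs l fun s => H (pt1 G s) := by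
  have ht := t_pos hG
  have hu := unitP_pos
  have hq := (Lat.good.p_pos hG).2
  change quad (l.map (fU G)) H = 1 / scale4 G * lsum l (fun a => lsum l fun b => lsum l fun c =>
    lsum l fun d => ((a.2 * b.2 * c.2 * d.2 : ℕ) : ℝ) * H (pt1 G (a.1 + b.1 + c.1 + d.1)))
  simp only [quad, lsum_map, ← lsum_mul_left]
  refine lsum_congr fun a _ => lsum_congr fun b _ => lsum_congr fun c _ => lsum_congr fun d _ => ?_
  have hn : NN (pt1 G (a.1 + b.1 + c.1 + d.1)) := fun i => by
    fin_cases i <;> simp [pt1]; exact zpow_nonneg ht.le _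
  rw [← mul_assoc, ← hP.smul _ (by rw [scale4]; positivity) _ hn]
  refine congrArg H (funext fun i => ?_)
  fin_cases i
  · simp [fU, pt1, scale4]
    rw [show ((a.1 : ℤ) + b.1 + c.1 + d.1 - 4 * G.L) = ((a.1 : ℤ) - G.L) + ((b.1 : ℤ) - G.L) +
      ((c.1 : ℤ) - G.L) + ((d.1 : ℤ) - G.L) by ring, zpow_add₀ ht.ne', zpow_add₀ ht.ne',
      zpow_add₀ ht.ne']
    field_simp
  · simp [fU, pt1, scale4]
    field_simp
  · simp [fU, pt1]

lemma face_fvecs {G : Lat} (hG : G.good = true) (W : List ℕ) :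
    (fvecs G W).map face = (G.atoms Lat.atom1 W).map (fU G) := by
  rw [fvecs, atoms_eq, List.map_map, List.map_map]
  refine List.map_congr_left fun a ha => ?_
  obtain ⟨h1, h2, -⟩ := base_mem hG ha
  have hu := unitP_pos
  have hq := (Lat.good.p_pos hG).2
  have ht := t_pos hG
  funext i
  simp only [Function.comp, fU, Lat.atom1, Pi.smul_apply, smul_eq_mul]
  rw [Nat.cast_mul, t_scale hG h2]
  fin_cases i
  · simp [face, fV, Lat.vec, expo]
    rw [show (((a.2.1 + G.L - a.2.2.1 : ℕ) : ℤ) - G.L) = ((a.2.1 : ℤ) - a.2.2.1) by omega,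
      zpow_sub₀ ht.ne', zpow_natCast, zpow_natCast]
    field_simp
  · simp [face, fV, Lat.vec, expo]
    field_simp
  · simp [face, fV, Lat.vec, expo]

lemma shift_sum {K : ℕ} {c : ℕ → ℕ} (hc : ∀ s, c s < 2 ^ K) (n : ℕ) :
    (∑ s ∈ range (n + 1), c s * 2 ^ (K * s)) >>> (K * n) = c n := by
  have h : ∀ m, ∑ s ∈ range m, c s * 2 ^ (K * s) < 2 ^ (K * m) := by
    intro m
    induction m with
    | zero => simp
    | succ m ih =>
      rw [sum_range_succ, Nat.mul_succ, pow_add]
      have := Nat.mul_le_mul_right (2 ^ (K * m)) (hc m)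
      rw [Nat.succ_mul] at this
      calc _ < 2 ^ (K * m) + c m * 2 ^ (K * m) := Nat.add_lt_add_right ih _
        _ ≤ 2 ^ K * 2 ^ (K * m) := by omega
        _ = _ := mul_comm _ _
  rw [sum_range_succ, Nat.shiftRight_eq_div_pow, Nat.add_mul_div_right _ _ (by positivity),
    Nat.div_eq_of_lt (h n), zero_add]

lemma unpack_length (K den : ℕ) : ∀ (n acc : ℕ), (unpackAcc K den acc n).length = n
  | 0, _ => rfl
  | n + 1, acc => by simp [unpackAcc, unpack_length K den n]

lemma unpack_getD (K den : ℕ) : ∀ (n acc k : ℕ), k < n →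
    (unpackAcc K den acc n).getD k 0 = digit K acc k / den
  | n + 1, acc, 0, _ => by simp [unpackAcc, digit]
  | n + 1, acc, k + 1, h => by
    rw [unpackAcc, List.getD_cons_succ, unpack_getD K den n _ k (by omega), digit, digit,
      ← Nat.shiftRight_add, Nat.mul_succ, add_comm K]

lemma lsum_zip_getD {α β : Type*} (a0 : α) (b0 : β) : ∀ (l : List α) (l' : List β),
    l.length = l'.length → ∀ f : α × β → ℝ,
      lsum (l.zip l') f = ∑ k ∈ range l'.length, f (l.getD k a0, l'.getD k b0)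
  | [], [], _, f => by simp
  | a :: l, b :: l', h, f => by
    simp only [List.zip_cons_cons, lsum_cons, List.length_cons, sum_range_succ', List.getD_cons_succ,
      List.getD_cons_zero]
    rw [lsum_zip_getD a0 b0 l l' (by simpa using h) f]
    ring

lemma fvecs_test {G : Lat} (hG : G.good = true) {W : List ℕ} (hW : W.length = G.reps.length)
    {g : (Fin 3 → ℝ) → ℝ} (hg : Test g) :
    lsum (fvecs G W) g = ∑ k ∈ range G.reps.length,
      6 * ((W.getD k 0 : ℕ) : ℝ) / unitP * gv G g G.reps.length k := by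
  have hperm : ∀ (w : ℕ) (e : ℕ × ℕ × ℕ) (σ : Equiv.Perm (Fin 3)),
      g (fun i => fV G (w, e) (σ i)) = (w : ℝ) / unitP * g (G.vec e) := by
    intro w e σ
    rw [hg.symm σ, ← hg.subP.smul _ (div_nonneg (Nat.cast_nonneg _) unitP_pos.le) _ (vec_nn hG e)]
    rfl
  rw [fvecs, lsum_map, lsum_base, lsum_zip_getD 0 (0, 0, 0) W G.reps hW]
  refine sum_congr rfl fun k hk => ?_
  rw [gv, if_neg (mem_range.1 hk).ne]
  obtain ⟨I, J, K⟩ := G.reps.getD k (0, 0, 0)
  set w := W.getD k 0
  have h1 := hperm w (I, J, K) 1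
  have h2 := hperm w (I, J, K) (Equiv.swap 1 2)
  have h3 := hperm w (I, J, K) (Equiv.swap 0 1)
  have h4 := hperm w (I, J, K) (Equiv.swap 0 1 * Equiv.swap 1 2)
  have h5 := hperm w (I, J, K) (Equiv.swap 1 2 * Equiv.swap 0 1)
  have h6 := hperm w (I, J, K) (Equiv.swap 0 2)
  simp only [perm_vec, fV_eq] at h1 h2 h3 h4 h5 h6 ⊢
  simp [Equiv.swap_apply_def] at h1 h2 h3 h4 h5 h6
  simp only [h1, h2, h3, h4, h5, h6]
  ring

lemma pow_mid {f E U : ℕ} (h : f + 2 * E ≤ U) : 6 * (E + f) ^ 4 ≤ 3 * U ^ 4 + 3 * f ^ 4 := by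
  have h4 := Nat.pow_le_pow_left h 4
  have e : (f + 2 * E) ^ 4 + f ^ 4 =
      2 * (E + f) ^ 4 + (12 * E ^ 2 * f ^ 2 + 24 * E ^ 3 * f + 14 * E ^ 4) := by ring
  omega

/-- A slot of the sector after the channel. -/
lemma sector_point {G : Lat} (hG : G.good = true) {g : (Fin 3 → ℝ) → ℝ} (hg : Test g)
    {A i : ℕ} (hA : A ∈ range (4 * G.L + 1)) (hi : i ∈ range (4 * G.L + 1 - A)) :
    g (chalf (pt2 G (A * G.wid + (A + i)))) =
      g fun c => (sectorI G A (A + i) c : ℝ) / ((2 * G.p ^ (4 * G.L) : ℕ) : ℝ) := by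
  have hq := (Lat.good.p_pos hG).2
  have ht := t_pos hG
  have hA' : A ≤ 4 * G.L := by have := mem_range.1 hA; omega
  have hi' : A + i ≤ 4 * G.L := by have := mem_range.1 hi; omega
  have hB : A + i < G.wid := by simp only [Lat.wid]; omega
  have hd : (A * G.wid + (A + i)) / G.wid = A ∧ (A * G.wid + (A + i)) % G.wid = A + i := by
    rw [add_comm, mul_comm]
    refine ⟨?_, by rw [Nat.add_mul_mod_self_left, Nat.mod_eq_of_lt hB]⟩
    rw [Nat.add_mul_div_left _ _ (by simp [Lat.wid]), Nat.div_eq_of_lt hB, zero_add]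
  have hp := (Lat.good.p_pos hG).1
  have hk : ∀ m, m ≤ 4 * G.L → G.t ^ ((m : ℤ) - 4 * G.L) =
      ((G.p ^ m * G.q ^ (4 * G.L - m) : ℕ) : ℝ) / (G.p : ℝ) ^ (4 * G.L) := by
    intro m hm
    rw [show ((4 : ℤ) * G.L) = ((4 * G.L : ℕ) : ℤ) by push_cast; ring, zpow_sub₀ ht.ne',
      zpow_natCast, zpow_natCast, Lat.t, div_pow, div_pow, Nat.cast_mul, Nat.cast_pow,
      Nat.cast_pow, pow_sub₀ _ hq.ne' hm]
    field_simp
  rw [← hg.symm (Equiv.swap 0 2) (chalf (pt2 G (A * G.wid + (A + i))))]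
  refine congrArg g (funext fun c => ?_)
  simp only [pt2, hd.1, hd.2, hk A hA', hk (A + i) hi']
  fin_cases c <;> simp [chalf, sectorI, Equiv.swap_apply_def] <;> field_simp <;> ring

/-- A slot of the face after the channel. -/
lemma face_point {G : Lat} (hG : G.good = true) {g : (Fin 3 → ℝ) → ℝ} (hg : Test g) {m : ℕ}
    (hm : m ∈ range (8 * G.L + 1)) :
    g (chalf (pt1 G m)) = g fun c => (faceI G m c : ℝ) /
      ((2 * (G.p ^ (4 * G.L) * G.q ^ (4 * G.L)) : ℕ) : ℝ) := by
  have hq := (Lat.good.p_pos hG).2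
  have ht := t_pos hG
  have hm' : m ≤ 2 * (4 * G.L) := by have := mem_range.1 hm; omega
  have hp := (Lat.good.p_pos hG).1
  set U := G.p ^ (4 * G.L) * G.q ^ (4 * G.L) with hU
  set Y := G.p ^ m * G.q ^ (2 * (4 * G.L) - m) with hY
  have hU0 : (0 : ℝ) < (U : ℝ) := by rw [hU]; push_cast; positivity
  have hk : G.t ^ ((m : ℤ) - 4 * G.L) = (Y : ℝ) / (U : ℝ) := by
    rw [show ((4 : ℤ) * G.L) = ((4 * G.L : ℕ) : ℤ) by push_cast; ring, zpow_sub₀ ht.ne',
      zpow_natCast, zpow_natCast, Lat.t, div_pow, div_pow, hY, hU, Nat.cast_mul, Nat.cast_mul,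
      Nat.cast_pow, Nat.cast_pow, Nat.cast_pow, Nat.cast_pow, pow_sub₀ _ hq.ne' hm', two_mul,
      pow_add]
    field_simp
  rcases le_total U Y with hle | hle
  · rw [← hg.symm (Equiv.swap 0 2) fun c => (faceI G m c : ℝ) / ((2 * U : ℕ) : ℝ)]
    refine congrArg g (funext fun c => ?_)
    simp only [pt1, hk]
    fin_cases c <;> simp [chalf, faceI, ← hU, ← hY, Equiv.swap_apply_def, max_eq_right hle,
      min_eq_left hle] <;> field_simp <;> ring
  · rw [← hg.symm (Equiv.swap 0 2 * Equiv.swap 0 1) fun c => (faceI G m c : ℝ) /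
      ((2 * U : ℕ) : ℝ)]
    refine congrArg g (funext fun c => ?_)
    simp only [pt1, hk]
    fin_cases c <;> simp [chalf, faceI, ← hU, ← hY, Equiv.swap_apply_def, max_eq_left hle,
      min_eq_right hle] <;> field_simp <;> ring

/-- Rounding down the weights keeps an upper bound. -/
lemma round_bound {G dst : Lat} (hG : G.good = true) (hD : dst.good = true) {s' : State}
    (hv' : dst.valid s' = true) {g : (Fin 3 → ℝ) → ℝ} (hg : Test g) {N : ℕ}
    (hN : dst.reps.length = N) (a : ℕ → ℕ) (rest' : ℕ) {den : ℕ}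
    (hden : den = 2 ^ (3 * bitsP + bitsT) * G.q ^ (4 * G.L))
    (hWl : s'.W.length = N) (hW : ∀ k < N, s'.W.getD k 0 = a k / (6 * den))
    (hE : s'.E = (a N + rest' * 2 ^ (bitsT - 1)) / (3 * den)) {κ : ℝ}
    (hkap : (rest' : ℝ) = scale4 G * κ) :
    1 / scale4 G * (1 / 2 ^ bitsT * ∑ k ∈ range (N + 1), (a k : ℝ) * gv dst g N k) +
      κ * (1 / 2 * g v110) ≤ lsum (family dst s') g := by
  subst hN
  have hq := (Lat.good.p_pos hG).2
  have hu0 := unitP_pos
  have hsc : 0 < scale4 G := by rw [scale4]; positivity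
  set N := dst.reps.length with hN
  rw [family_test s' (restW_nonneg hD hv') hg, fvecs_test hD hWl hg, sum_range_succ, mul_add,
    mul_add, mul_sum, mul_sum, gv, if_pos rfl, add_assoc]
  have hvn : NN v110 := fun c => by fin_cases c <;> norm_num [v110]
  have hg0 : g v110 ≤ 0 := hg.nonpos hvn
  have hsd : scale4 G * 2 ^ bitsT = (den : ℝ) * unitP := by
    rw [hden, scale4, Nat.cast_mul, Nat.cast_pow, Nat.cast_pow, pow_add, mul_pow, ← pow_mul,
      mul_comm G.L 4]
    show _ = _ * ((2 : ℝ) ^ bitsP)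
    unfold unitP
    push_cast
    ring
  have hden0 : (0 : ℝ) < den := by rw [hden]; push_cast; positivity
  refine add_le_add (sum_le_sum fun k hk => ?_) ?_
  · have hk' := mem_range.1 hk
    have hgk : gv dst g N k ≤ 0 := by
      rw [gv, if_neg hk'.ne]; exact hg.nonpos (vec_nn hD _)
    rw [← mul_assoc, ← mul_assoc]
    refine mul_le_mul_of_nonpos_right ?_ hgk
    rw [one_div_mul_one_div, hsd, hW k hk']
    have h1 := (Nat.cast_le (α := ℝ)).2 (Nat.div_mul_le_self (a k) (6 * den))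
    push_cast at h1
    rw [div_mul_eq_mul_div, one_mul, div_le_div_iff₀ hu0 (by positivity)]
    nlinarith
  · rw [← mul_assoc (1 / scale4 G), ← mul_assoc, ← mul_assoc κ,
      ← add_mul]
    refine mul_le_mul_of_nonpos_right ?_ hg0
    rw [one_div_mul_one_div, hsd, State.e, hE]
    have h1 := (Nat.cast_le (α := ℝ)).2
      (Nat.div_mul_le_self (a N + rest' * 2 ^ (bitsT - 1)) (3 * den))
    push_cast at h1
    have hT : (2 : ℝ) ^ bitsT = 2 * 2 ^ (bitsT - 1) := by
      rw [← pow_succ']; rfl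
    have h2 : κ * (1 / 2) =
        (rest' : ℝ) * 2 ^ (bitsT - 1) / ((den : ℝ) * unitP) := by
      rw [← hsd, hkap, hT]
      field_simp
    rw [h2, div_mul_eq_mul_div, one_mul, ← add_div, mul_div_assoc',
      div_le_div_iff₀ hu0 (by positivity)]
    nlinarith

/-- One generation. -/
theorem step_sound (d : StepData) (dst : Lat) (hok : d.ok dst = true) {s s' : State}
    (h : d.step s = (s', true)) (hv' : dst.valid s' = true) {n : ℕ} (hu : Up n d.src s) :
    Up (n + 1) dst s' := by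
  simp only [StepData.ok, Bool.and_eq_true, decide_eq_true_eq] at hok
  obtain ⟨⟨⟨⟨hG, hD⟩, hn, htab, htab1⟩, hrows⟩, hface⟩ := hok
  refine ⟨hv', fun g hg => ?_⟩
  set G := d.src with hGdef
  set H : (Fin 3 → ℝ) → ℝ := fun x => g (chalf x) with hH
  have hHP : SubP H := hg.subP.comp_chalf
  have hHS : Symm H := hg.symm.comp_chalf
  simp only [StepData.step, Prod.mk.injEq, Bool.and_eq_true, decide_eq_true_eq] at h
  obtain ⟨hs', ⟨⟨hb2, hb1⟩, hbK⟩, hv⟩ := h
  rw [← hGdef] at hs' hb2 hb1 hbK hv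
  have hfam := family_nn hG hv
  have hr := restW_nonneg hG hv
  have hu0 := unitP_pos
  have hq := (Lat.good.p_pos hG).2
  have ht := t_pos hG
  have hsc : 0 < scale4 G := by rw [scale4]; positivity
  -- the upper bound by quadruples
  have h0 : (edgeE (n + 1)).S g ≤ quad (family G s) H := by
    rw [edgeE_succ]
    exact quad_mono hfam (fun f hf => hu.below hG hf) hHP
  -- reduction to the face
  set e := s.e
  set r := restW G s
  set e0 : Fin 3 → ℝ := ![e, e, 0] with he0
  set rest : List (Fin 3 → ℝ) := [![e, 0, 0], ![0, e, 0], ![r, 0, 0], ![0, r, 0], ![0, 0, 0]]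
  set F' := (fvecs G s.W).map face with hF'
  have hre : ∀ f, lsum ((family G s).map face) f = lsum ((e0 :: F') ++ rest) f := by
    intro f
    have z1 : face ![e, e, 0] = e0 := by funext i; fin_cases i <;> simp [face, e0]
    have z2 : face ![e, 0, e] = ![e, 0, 0] := by funext i; fin_cases i <;> simp [face]
    have z3 : face ![0, e, e] = ![0, e, 0] := by funext i; fin_cases i <;> simp [face]
    have z4 : face ![r, 0, 0] = ![r, 0, 0] := by funext i; fin_cases i <;> simp [face]
    have z5 : face ![0, r, 0] = ![0, r, 0] := by funext i; fin_cases i <;> simp [face]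
    have z6 : face ![0, 0, r] = ![0, 0, 0] := by funext i; fin_cases i <;> simp [face]
    simp only [family, zvecs, List.map_append, List.map_cons, List.map_nil, lsum_append,
      lsum_cons, lsum_nil, rest, e, r] at z1 z2 z3 z4 z5 z6 ⊢
    simp only [z1, z2, z3, z4, z5, z6]
    ring
  have hzero : ∀ z ∈ zvecs G s, ∃ i, z i = 0 := by
    intro z hz
    simp only [zvecs, List.mem_cons, List.not_mem_nil, or_false] at hz
    rcases hz with rfl | rfl | rfl | rfl | rfl | rfl
    · exact ⟨2, rfl⟩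
    · exact ⟨1, rfl⟩
    · exact ⟨0, rfl⟩
    · exact ⟨1, rfl⟩
    · exact ⟨0, rfl⟩
    · exact ⟨0, rfl⟩
  have hsplit := split_eq hHP hHS (F := fvecs G s.W) (Z := zvecs G s) (symL_family G s)
    (symL_fvecs G s.W) hfam hzero
  rw [← family] at hsplit
  have hen : NN e0 := fun i => by fin_cases i <;> simp [e0, e, e_nonneg s]
  have hfn : ∀ x ∈ F', NN x ∧ x 2 = 0 := by
    intro x hx
    obtain ⟨y, hy, rfl⟩ := List.mem_map.1 hx
    exact ⟨NN.face (hfam y (List.mem_append_left _ hy)), by simp [face]⟩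
  have hrest : ∀ x ∈ rest, NN x ∧ x 2 = 0 ∧ (x 0 = 0 ∨ x 1 = 0) := by
    intro x hx
    simp only [rest, List.mem_cons, List.not_mem_nil, or_false] at hx
    rcases hx with rfl | rfl | rfl | rfl | rfl <;>
      refine ⟨fun i => ?_, rfl, ?_⟩ <;> first
        | (fin_cases i <;> simp [e, r, e_nonneg s, hr])
        | exact Or.inl rfl
        | exact Or.inr rfl
  have hface2 := face_eq hHP hHS (F := e0 :: F') (Z := rest)
    (fun x hx => by
      rcases List.mem_append.1 hx with hx | hx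
      · rcases List.mem_cons.1 hx with rfl | hx
        · exact hen
        · exact (hfn x hx).1
      · exact (hrest x hx).1)
    (fun x hx => by
      rcases List.mem_append.1 hx with hx | hx
      · rcases List.mem_cons.1 hx with rfl | hx
        · simp [e0]
        · exact (hfn x hx).2
      · exact (hrest x hx).2.1)
    (fun z hz => (hrest z hz).2.2)
  rw [quad_congr hre] at hsplit
  set f := colF G s.W with hf
  have c0 : ∀ i, i ≠ 2 → lsum F' (fun x => x i) = f := fun i hi => by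
    rw [hF', lsum_map, hf, ← colF_eq hG s.W i]
    exact lsum_congr fun x _ => by simp [face, hi]
  have c1 : ∀ i, i ≠ 2 → lsum ((e0 :: F') ++ rest) (fun x => x i) = 1 := fun i hi => by
    rw [← hre, lsum_map, ← family_col hG s i]
    exact lsum_congr fun x _ => by simp [face, hi]
  simp only [c1 0 (by decide), c1 1 (by decide), lsum_cons, c0 0 (by decide), c0 1 (by decide),
    e0, Matrix.cons_val_zero, Matrix.cons_val_one] at hface2
  simp only [Fin.sum_univ_three, colF_eq hG, family_col hG, ← hf] at hsplit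
  rw [hface2] at hsplit
  -- the certainty goes to the exclusion point
  have hHe : H v100 = 1 / 2 * g v110 := by
    have hvn : NN v110 := fun c => by fin_cases c <;> norm_num [v110]
    rw [← hg.subP.smul _ (by norm_num) _ hvn, hH, ← hg.symm (Equiv.swap 0 2)]
    refine congrArg g (funext fun i => ?_)
    fin_cases i <;> simp [chalf, v100, v110, Equiv.swap_apply_def]
  -- digits
  set F1 := G.atoms Lat.atom1 s.W with hF1
  set G1 := (G.L, s.E * G.q ^ G.L) :: F1 with hG1
  have he1 : e0 = fU G (G.L, s.E * G.q ^ G.L) := by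
    funext i
    fin_cases i <;> simp [e0, fU, e, State.e] <;> field_simp
  have hfaceG : quad (e0 :: F') H - quad F' H = 1 / scale4 G *
      ∑ m ∈ range (8 * G.L + 1), ((digit d.K (pack d.K G1 ^ 4 - pack d.K F1 ^ 4) m : ℕ) : ℝ) *
        H (pt1 G m) := by
    have hin : ∀ b ∈ G1, 4 * b.1 < 8 * G.L + 1 := by
      intro b hb
      rcases List.mem_cons.1 hb with rfl | hb
      · show 4 * G.L < _; omega
      · rw [hF1, atoms_eq, List.mem_map] at hb
        obtain ⟨a, ha, rfl⟩ := hb
        have := base_mem hG ha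
        simp only [Lat.atom1]
        omega
    rw [he1, hF', face_fvecs hG, ← hF1, ← List.map_cons, ← hG1, quad_fU hG G1 hHP,
      quad_fU hG F1 hHP, qs_eq_sum hin,
      qs_eq_sum fun b hb => hin b (List.mem_cons_of_mem _ hb), ← mul_sub, ← sum_sub_distrib]
    refine congrArg _ (sum_congr rfl fun m hm => ?_)
    rw [digit_pow4_sub hin hb1 (mem_range.1 hm), Nat.cast_sub (coef_cons_le _ _ _)]
    ring
  have hfull := quad_fvecs hG s.W hb2 hHP hHS
  -- accumulated bound
  rw [packT_eq, hn] at hs' hbK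
  have bu := allRows_bound hG hD d.K d.K' (pack d.K (G.atoms Lat.atom2 s.W) ^ 4) hg 0 d.tab hrows
  have bv := faceSum_bound hG hD d.K d.K' (pack d.K G1 ^ 4 - pack d.K F1 ^ 4) hg 0 d.tab1 hface
  set u := allRows d.K d.K' dst.reps.length (4 * G.L) G.wid
    (pack d.K (G.atoms Lat.atom2 s.W) ^ 4) 0 d.tab
  set v := faceSum d.K d.K' dst.reps.length (pack d.K G1 ^ 4 - pack d.K F1 ^ 4) 0 d.tab1
  obtain ⟨a, ha1, ha2, ha3⟩ := bu.add bv
  simp only at ha1 ha2
  have hak : ∀ k, (if k < dst.reps.length + 1 then a k else 0) < 2 ^ d.K' := fun k => by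
    split_ifs with hk
    · refine lt_of_le_of_lt ?_ hbK
      rw [ha2]
      exact single_le_sum (fun j _ => Nat.zero_le (a j)) (mem_range.2 hk)
    · positivity
  have hacc : u.1 + v.1 = ∑ k ∈ range (dst.reps.length + 1),
      (if k < dst.reps.length + 1 then a k else 0) * 2 ^ (d.K' * k) := by
    rw [ha1]
    exact sum_congr rfl fun k hk => by rw [if_pos (mem_range.1 hk)]
  set N := dst.reps.length with hN
  set den := 2 ^ (3 * bitsP + bitsT) * G.q ^ (4 * G.L) with hden
  set rest' := 3 * (2 ^ bitsP * G.q ^ G.L) ^ 4 + 3 * mass F1 ^ 4 - 6 * mass G1 ^ 4 with hrest'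
  have hW : ∀ k < N, s'.W.getD k 0 = a k / (6 * den) := fun k hk => by
    rw [← hs']
    show (unpackAcc d.K' (6 * den) (u.1 + v.1) N).getD k 0 = _
    rw [unpack_getD _ _ N _ k hk, hacc, digit_sum _ _ hak, if_pos (by omega), if_pos (by omega)]
  have hWl : s'.W.length = N := by
    rw [← hs']
    exact unpack_length _ _ _ _
  have hE : s'.E = (a N + rest' * 2 ^ (bitsT - 1)) / (3 * den) := by
    rw [← hs']
    show ((u.1 + v.1) >>> (d.K' * N) + rest' * 2 ^ (bitsT - 1)) / (3 * den) = _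
    rw [hacc, shift_sum hak, if_pos (by omega)]
  -- the digit sums are the sums of `Bound`
  have hsum : quad (fvecs G s.W) H + 3 * (quad (e0 :: F') H - quad F' H) ≤
      1 / scale4 G * (1 / 2 ^ bitsT * ∑ k ∈ range (N + 1), (a k : ℝ) * gv dst g N k) := by
    rw [hfull, hfaceG, ← mul_assoc 3, mul_comm (3 : ℝ), mul_assoc, ← mul_add]
    refine mul_le_mul_of_nonneg_left (le_trans (le_of_eq ?_) ha3) (by positivity)
    simp only [htab, htab1, zero_add]
    congr 1
    · exact sum_congr rfl fun A hA => sum_congr rfl fun i hi => by rw [hH]; simp only [sector_point hG hg hA hi]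
    · rw [mul_sum]
      refine sum_congr rfl fun m hm => ?_
      rw [hH]; simp only [face_point hG hg hm]
      push_cast
      ring
  have hvs := hv
  simp only [Lat.valid, Bool.and_eq_true, decide_eq_true_eq] at hvs
  have hmass : mass G1 = s.E * G.q ^ G.L + mass F1 := rfl
  have hkap : ((rest' : ℕ) : ℝ) = scale4 G * (3 + 3 * f ^ 4 - 6 * (e + f) ^ 4) := by
    rw [hrest', hmass, Nat.cast_sub (pow_mid hvs.2)]
    push_cast
    rw [scale4, hf, colF, ← hF1]
    show _ = _ * (3 + _ - 6 * (s.e + _) ^ 4)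
    rw [State.e, show (2 : ℝ) ^ bitsP = unitP from rfl]
    field_simp
  have hfin := round_bound hG hD hv' hg hN.symm a rest' hden hWl hW hE hkap
  refine h0.trans (le_trans (le_of_eq ?_) ((add_le_add hsum le_rfl).trans hfin))
  rw [hsplit, hHe]
  ring

end Vale.Agent.P154.D4
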