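import Vale.Agent.P154.D4.Order
import Vale.Agent.P154.D4.Digits

/-!
The tables: each entry bounds a point passed through the channel by points of the target lattice,
and the accumulated packed sums bound the sums of such points.
-/

namespace Vale.Agent.P154.D4

open Finset

/-- Coordinate `c` of an exponent triple. -/
def expo (e : ℕ × ℕ × ℕ) (c : Fin 3) : ℕ := if c = 0 then e.1 else if c = 1 then e.2.1 else e.2.2

/-- The exclusion vector `(1, 1, 0)`. -/
def excl (c : Fin 3) : ℕ := if c = 2 then 0 else 1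

/-- A representative as an integer vector, in units of `q ^ (-L)`. -/
def Lat.repI (G : Lat) (k : ℕ) (c : Fin 3) : ℕ :=
  G.p ^ expo (G.reps.getD k (0, 0, 0)) c * G.q ^ (G.L - expo (G.reps.getD k (0, 0, 0)) c)

/-- The certificate of an entry for the point `V / den`. -/
def Lat.entryOk (G : Lat) (den : ℕ) (V : Fin 3 → ℕ) (e : Entry) : Bool :=
  decide (e.i1 < G.reps.length ∧ e.i2 < G.reps.length ∧ e.i3 < G.reps.length ∧
    ∀ c : Fin 3, (e.w1 * G.repI e.i1 c + e.w2 * G.repI e.i2 c + e.w3 * G.repI e.i3 c +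
      e.wE * (excl c * G.q ^ G.L)) * den ≤ V c * 2 ^ bitsT * G.q ^ G.L)

/-- The image of a slot of the sector, times `2 p ^ m`. -/
def sectorI (G : Lat) (A B : ℕ) (c : Fin 3) : ℕ :=
  let m := 4 * G.L
  let X0 := G.p ^ A * G.q ^ (m - A)
  let X1 := G.p ^ B * G.q ^ (m - B)
  let X2 := G.p ^ m
  if c = 0 then X0 + X1 else if c = 1 then X0 + X2 else X1 + X2

/-- The image of a slot of the face, times `2 (p q) ^ m`. -/
def faceI (G : Lat) (s : ℕ) (c : Fin 3) : ℕ :=
  let m := 4 * G.L
  let U := G.p ^ m * G.q ^ m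
  let Y := G.p ^ s * G.q ^ (2 * m - s)
  if c = 0 then U + Y else if c = 1 then max U Y else min U Y

/-- A row is certified. -/
def rowOk (src dst : Lat) (A : ℕ) : ℕ → List ℕ → Bool
  | _, [] => true
  | B, x :: xs => dst.entryOk (2 * src.p ^ (4 * src.L)) (sectorI src A B) (Entry.ofNat x) &&
      rowOk src dst A (B + 1) xs

/-- The sector is certified. -/
def rowsOk (src dst : Lat) : ℕ → List (List ℕ) → Bool
  | _, [] => true
  | A, r :: rs => decide (r.length + A = 4 * src.L + 1) && rowOk src dst A A r &&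
      rowsOk src dst (A + 1) rs

/-- The face is certified. -/
def faceOk (src dst : Lat) : ℕ → List ℕ → Bool
  | _, [] => true
  | s, x :: xs => dst.entryOk (2 * (src.p ^ (4 * src.L) * src.q ^ (4 * src.L))) (faceI src s)
      (Entry.ofNat x) && faceOk src dst (s + 1) xs

/-- Conditions on a lattice. -/
def Lat.good (G : Lat) : Bool :=
  decide (0 < G.p ∧ 0 < G.q) &&
    G.reps.all fun e => decide (e.1 ≤ G.L ∧ e.2.1 ≤ G.L ∧ e.2.2 ≤ G.L)

/-- A step is certified. -/
def StepData.ok (d : StepData) (dst : Lat) : Bool :=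
  d.src.good && dst.good && decide (d.n = dst.reps.length ∧ d.tab.length = 4 * d.src.L + 1 ∧
    d.tab1.length = 8 * d.src.L + 1) && rowsOk d.src dst 0 d.tab && faceOk d.src dst 0 d.tab1

/-- The ratio of a lattice. -/
noncomputable def Lat.t (G : Lat) : ℝ := (G.p : ℝ) / G.q

/-- A representative. -/
noncomputable def Lat.vec (G : Lat) (e : ℕ × ℕ × ℕ) : Fin 3 → ℝ := fun c => G.t ^ expo e c

/-- The vector `(1, 1, 0)`. -/
def v110 : Fin 3 → ℝ := ![1, 1, 0]

/-- Certainty. -/
def v100 : Fin 3 → ℝ := ![1, 0, 0]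

/-- The test functions: sublinear, symmetric and vanishing at certainty. -/
structure Test (G : (Fin 3 → ℝ) → ℝ) : Prop where
  subP : SubP G
  symm : Symm G
  zero : G v100 = 0

lemma Test.unit {G : (Fin 3 → ℝ) → ℝ} (hG : Test G) (i : Fin 3) :
    G (fun j => if j = i then 1 else 0) = 0 := by
  refine (congrArg G (funext fun j => ?_)).trans ((hG.symm (Equiv.swap 0 i) v100).trans hG.zero)
  fin_cases i <;> fin_cases j <;> simp [v100, Equiv.swap_apply_def]

lemma Test.nonpos {G : (Fin 3 → ℝ) → ℝ} (hG : Test G) {x : Fin 3 → ℝ} (hx : NN x) : G x ≤ 0 := by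
  set u : Fin 3 → Fin 3 → ℝ := fun i j => if j = i then 1 else 0 with hu
  have hn : ∀ (i : Fin 3), NN (u i) := fun i j => by simp only [hu]; split_ifs <;> norm_num
  have hs : ∀ i, G (x i • u i) = 0 := fun i => by
    rw [hG.subP.smul _ (hx i) _ (hn i), hG.unit i, mul_zero]
  have hns : ∀ i, NN (x i • u i) := fun i j => mul_nonneg (hx i) (hn i j)
  have hx' : x = x 0 • u 0 + (x 1 • u 1 + x 2 • u 2) := by
    funext j; fin_cases j <;> simp [hu]
  have h12 : NN (x 1 • u 1 + x 2 • u 2) := fun j => add_nonneg (hns 1 j) (hns 2 j)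
  rw [hx']
  refine (hG.subP.add _ _ (hns 0) h12).trans ?_
  have := hG.subP.add _ _ (hns 1) (hns 2)
  rw [hs] at this ⊢
  linarith [hs 2]

/-- Value at a target: a representative, or the exclusion point. -/
noncomputable def gv (G : Lat) (g : (Fin 3 → ℝ) → ℝ) (n k : ℕ) : ℝ :=
  if k = n then g v110 else g (G.vec (G.reps.getD k (0, 0, 0)))

variable {src dst : Lat}

lemma Lat.good.p_pos {G : Lat} (h : G.good = true) : (0 : ℝ) < G.p ∧ (0 : ℝ) < G.q := by
  simp only [Lat.good, Bool.and_eq_true, decide_eq_true_eq] at h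
  exact ⟨by exact_mod_cast h.1.1, by exact_mod_cast h.1.2⟩

lemma Lat.good.le {G : Lat} (h : G.good = true) {e : ℕ × ℕ × ℕ} (he : e ∈ G.reps) (c : Fin 3) :
    expo e c ≤ G.L := by
  simp only [Lat.good, Bool.and_eq_true, List.all_eq_true, decide_eq_true_eq] at h
  have := h.2 e he
  unfold expo
  split_ifs <;> omega

lemma vec_nn {G : Lat} (h : G.good = true) (e : ℕ × ℕ × ℕ) : NN (G.vec e) := fun c =>
  pow_nonneg (div_nonneg (Lat.good.p_pos h).1.le (Lat.good.p_pos h).2.le) _

lemma repI_eq (hd : dst.good = true) {k : ℕ} (hk : k < dst.reps.length) (c : Fin 3) :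
    (dst.repI k c : ℝ) = (dst.q : ℝ) ^ dst.L * dst.vec (dst.reps.getD k (0, 0, 0)) c := by
  have hle := Lat.good.le hd (e := dst.reps.getD k (0, 0, 0))
    (by rw [List.getD_eq_getElem _ _ hk]; exact List.getElem_mem hk) c
  have hq := (Lat.good.p_pos hd).2.ne'
  rw [Lat.repI, Lat.vec, Lat.t, div_pow, Nat.cast_mul, Nat.cast_pow, Nat.cast_pow,
    pow_sub₀ _ hq hle]
  field_simp

/-- An entry bounds the test value of its point. -/
lemma entry_le (hd : dst.good = true) {den : ℕ} (hden : 0 < den) {V : Fin 3 → ℕ} {e : Entry}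
    (he : dst.entryOk den V e = true) {g : (Fin 3 → ℝ) → ℝ} (hg : Test g) :
    g (fun c => (V c : ℝ) / den) ≤ 1 / 2 ^ bitsT * ((e.w1 : ℝ) * gv dst g dst.reps.length e.i1 +
      e.w2 * gv dst g dst.reps.length e.i2 + e.w3 * gv dst g dst.reps.length e.i3 +
      e.wE * gv dst g dst.reps.length dst.reps.length) := by
  simp only [Lat.entryOk, decide_eq_true_eq] at he
  obtain ⟨h1, h2, h3, hc⟩ := he
  have hq := (Lat.good.p_pos hd).2
  set T : ℝ := 2 ^ bitsT with hT
  have hT0 : 0 < T := by positivity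
  set x1 := dst.vec (dst.reps.getD e.i1 (0, 0, 0))
  set x2 := dst.vec (dst.reps.getD e.i2 (0, 0, 0))
  set x3 := dst.vec (dst.reps.getD e.i3 (0, 0, 0))
  have hv : NN v110 := fun c => by fin_cases c <;> norm_num [v110]
  set y := ((e.w1 : ℝ) / T) • x1 + (((e.w2 : ℝ) / T) • x2 + (((e.w3 : ℝ) / T) • x3 +
    ((e.wE : ℝ) / T) • v110)) with hy
  have hn : ∀ (w : ℕ) (x : Fin 3 → ℝ), NN x → NN (((w : ℝ) / T) • x) := fun w x hx c =>
    mul_nonneg (by positivity) (hx c)
  have n1 := hn e.w1 x1 (vec_nn hd _)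
  have n2 := hn e.w2 x2 (vec_nn hd _)
  have n3 := hn e.w3 x3 (vec_nn hd _)
  have n4 := hn e.wE v110 hv
  set r : Fin 3 → ℝ := fun c => (V c : ℝ) / den - y c with hr
  have hrn : NN r := by
    intro c
    have hcast := (Nat.cast_le (α := ℝ)).2 (hc c)
    have hex : (excl c : ℝ) = v110 c := by fin_cases c <;> simp [excl, v110]
    push_cast [repI_eq hd h1, repI_eq hd h2, repI_eq hd h3, hex] at hcast
    have hy' : y c * (T * den) * (dst.q : ℝ) ^ dst.L =
        ((e.w1 : ℝ) * x1 c + e.w2 * x2 c + e.w3 * x3 c + e.wE * v110 c) * den *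
          (dst.q : ℝ) ^ dst.L := by
      simp only [hy, Pi.add_apply, Pi.smul_apply, smul_eq_mul]
      field_simp
      ring
    have hden' : (0 : ℝ) < den := by exact_mod_cast hden
    simp only [hr, sub_nonneg]
    rw [le_div_iff₀ hden']
    have : y c * den * (T * (dst.q : ℝ) ^ dst.L) ≤ V c * (T * (dst.q : ℝ) ^ dst.L) := by
      rw [hT] at hy' ⊢
      linarith
    exact le_of_mul_le_mul_right this (by positivity)
  have hyn : NN y := fun c => add_nonneg (n1 c) (add_nonneg (n2 c) (add_nonneg (n3 c) (n4 c)))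
  have heq : (fun c => (V c : ℝ) / den) = y + r := by funext c; simp [hr]
  rw [heq]
  refine (hg.subP.add _ _ hyn hrn).trans ?_
  have hr0 := hg.nonpos hrn
  have hy1 : g y ≤ g (((e.w1 : ℝ) / T) • x1) + (g (((e.w2 : ℝ) / T) • x2) +
      (g (((e.w3 : ℝ) / T) • x3) + g (((e.wE : ℝ) / T) • v110))) := by
    refine (hg.subP.add _ _ n1 fun c => add_nonneg (n2 c) (add_nonneg (n3 c) (n4 c))).trans ?_
    refine add_le_add le_rfl ((hg.subP.add _ _ n2 fun c => add_nonneg (n3 c) (n4 c)).trans ?_)
    exact add_le_add le_rfl (hg.subP.add _ _ n3 n4)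
  simp only [hg.subP.smul _ (div_nonneg (Nat.cast_nonneg _) hT0.le) _ (vec_nn hd _),
    hg.subP.smul _ (div_nonneg (Nat.cast_nonneg _) hT0.le) _ hv, x1, x2, x3] at hy1
  simp only [gv, h1.ne, h2.ne, h3.ne, if_false, if_true]
  refine le_trans (add_le_add hy1 hr0) (le_of_eq ?_)
  ring

/-- The packed accumulator bounds `T`. -/
def Bound (dst : Lat) (K' : ℕ) (g : (Fin 3 → ℝ) → ℝ) (acc : ℕ × ℕ) (T : ℝ) : Prop :=
  ∃ a : ℕ → ℕ, acc.1 = ∑ k ∈ range (dst.reps.length + 1), a k * 2 ^ (K' * k) ∧
    acc.2 = ∑ k ∈ range (dst.reps.length + 1), a k ∧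
    T ≤ 1 / 2 ^ bitsT * ∑ k ∈ range (dst.reps.length + 1), (a k : ℝ) * gv dst g dst.reps.length k

lemma Bound.zero (K' : ℕ) (g : (Fin 3 → ℝ) → ℝ) : Bound dst K' g (0, 0) 0 :=
  ⟨fun _ => 0, by simp, by simp, by simp⟩

lemma Bound.add {K' : ℕ} {g : (Fin 3 → ℝ) → ℝ} {x y : ℕ × ℕ} {S T : ℝ}
    (hx : Bound dst K' g x S) (hy : Bound dst K' g y T) :
    Bound dst K' g (x.1 + y.1, x.2 + y.2) (S + T) := by
  obtain ⟨a, ha1, ha2, ha3⟩ := hx
  obtain ⟨b, hb1, hb2, hb3⟩ := hy
  refine ⟨fun k => a k + b k, ?_, ?_, ?_⟩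
  · simp only [ha1, hb1, add_mul, sum_add_distrib]
  · simp only [ha2, hb2, sum_add_distrib]
  · push_cast
    simp only [add_mul, sum_add_distrib, mul_add]
    linarith

lemma Bound.entry (hd : dst.good = true) (K' c : ℕ) {den : ℕ} (hden : 0 < den) {V : Fin 3 → ℕ}
    {e : Entry} (he : dst.entryOk den V e = true) {g : (Fin 3 → ℝ) → ℝ} (hg : Test g) :
    Bound dst K' g (e.pack K' dst.reps.length c) ((c : ℝ) * g fun i => (V i : ℝ) / den) := by
  have hl := entry_le hd hden he hg
  simp only [Lat.entryOk, decide_eq_true_eq] at he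
  set n := dst.reps.length
  refine ⟨fun k => c * ((if k = e.i1 then e.w1 else 0) + (if k = e.i2 then e.w2 else 0) +
    (if k = e.i3 then e.w3 else 0) + (if k = n then e.wE else 0)), ?_, ?_, ?_⟩
  · simp only [Entry.pack, Nat.shiftLeft_eq, add_mul, mul_add, sum_add_distrib, mul_ite, mul_zero,
      ite_mul, zero_mul, sum_ite_eq', mem_range]
    rw [if_pos (by omega), if_pos (by omega), if_pos (by omega), if_pos (by omega)]
  · simp only [Entry.pack, mul_add, sum_add_distrib, mul_ite, mul_zero, sum_ite_eq', mem_range]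
    rw [if_pos (by omega), if_pos (by omega), if_pos (by omega), if_pos (by omega)]
  · refine (mul_le_mul_of_nonneg_left hl (Nat.cast_nonneg c)).trans (le_of_eq ?_)
    push_cast
    simp only [mul_add, add_mul, sum_add_distrib, mul_ite, mul_zero, ite_mul, zero_mul,
      sum_ite_eq', mem_range]
    rw [if_pos (by omega), if_pos (by omega), if_pos (by omega), if_pos (by omega)]
    ring

lemma rowSum_bound (hs : src.good = true) (hd : dst.good = true) (K K' A row : ℕ)
    {g : (Fin 3 → ℝ) → ℝ} (hg : Test g) : ∀ (B : ℕ) (xs : List ℕ), rowOk src dst A B xs = true →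
    Bound dst K' g (rowSum K K' dst.reps.length (4 * src.L) A row B xs)
      (∑ i ∈ range xs.length, ((mult (4 * src.L) A (B + i) * digit K row (B + i) : ℕ) : ℝ) *
        g fun c => (sectorI src A (B + i) c : ℝ) / ((2 * src.p ^ (4 * src.L) : ℕ) : ℝ)) := by
  intro B xs
  induction xs generalizing B with
  | nil => intro _; simpa [rowSum] using Bound.zero K' g
  | cons x xs ih =>
    intro h
    simp only [rowOk, Bool.and_eq_true] at h
    have hp : 0 < 2 * src.p ^ (4 * src.L) := by
      have : 0 < src.p := by exact_mod_cast (Lat.good.p_pos hs).1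
      positivity
    have h0 := Bound.entry hd K' (mult (4 * src.L) A B * digit K row B) hp h.1 hg
    refine cast ?_ (h0.add (ih (B + 1) h.2))
    simp only [List.length_cons, sum_range_succ', add_zero]
    rw [add_comm (∑ _ ∈ range _, _)]
    congr 2
    exact sum_congr rfl fun i _ => by rw [Nat.add_right_comm, Nat.add_assoc]

lemma allRows_bound (hs : src.good = true) (hd : dst.good = true) (K K' N : ℕ)
    {g : (Fin 3 → ℝ) → ℝ} (hg : Test g) : ∀ (A : ℕ) (ts : List (List ℕ)),
    rowsOk src dst A ts = true →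
    Bound dst K' g (allRows K K' dst.reps.length (4 * src.L) src.wid N A ts)
      (∑ j ∈ range ts.length, ∑ i ∈ range (4 * src.L + 1 - (A + j)),
        ((mult (4 * src.L) (A + j) (A + j + i) * digit K N ((A + j) * src.wid + (A + j + i)) : ℕ) : ℝ) *
          g fun c => (sectorI src (A + j) (A + j + i) c : ℝ) / ((2 * src.p ^ (4 * src.L) : ℕ) : ℝ)) := by
  intro A ts
  induction ts generalizing A with
  | nil => intro _; simpa [allRows] using Bound.zero K' g
  | cons r rs ih =>
    intro h
    simp only [rowsOk, Bool.and_eq_true, decide_eq_true_eq] at h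
    have h0 := rowSum_bound hs hd K K' A ((N >>> (K * (A * src.wid))) &&& (2 ^ (K * src.wid) - 1))
      hg A r h.1.2
    have hr : 4 * src.L + 1 - A = r.length := by omega
    have hdig : ∀ i < r.length,
        digit K ((N >>> (K * (A * src.wid))) &&& (2 ^ (K * src.wid) - 1)) (A + i) =
          digit K N (A * src.wid + (A + i)) := by
      intro i hi
      refine Nat.eq_of_testBit_eq fun b => ?_
      simp only [digit, Nat.testBit_and, Nat.testBit_shiftRight, Nat.testBit_two_pow_sub_one]
      by_cases hb : b < K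
      · have hlt : K * (A + i) + b < K * src.wid := by
          have : A + i + 1 ≤ src.wid := by simp only [Lat.wid]; omega
          have := Nat.mul_le_mul_left K this
          rw [Nat.mul_succ] at this
          omega
        simp only [hb, hlt, decide_true, Bool.and_true]
        congr 1
        ring
      · simp [hb]
    refine cast ?_ (h0.add (ih (A + 1) h.2))
    simp only [List.length_cons, sum_range_succ', add_zero, hr]
    rw [add_comm (∑ _ ∈ range rs.length, _)]
    congr 2
    · refine sum_congr rfl fun i hi => ?_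
      rw [hdig i (mem_range.1 hi)]
    · refine sum_congr rfl fun j _ => ?_
      rw [show A + (j + 1) = A + 1 + j by omega]

lemma faceSum_bound (hs : src.good = true) (hd : dst.good = true) (K K' D : ℕ)
    {g : (Fin 3 → ℝ) → ℝ} (hg : Test g) : ∀ (s : ℕ) (xs : List ℕ), faceOk src dst s xs = true →
    Bound dst K' g (faceSum K K' dst.reps.length D s xs)
      (∑ i ∈ range xs.length, ((3 * digit K D (s + i) : ℕ) : ℝ) *
        g fun c => (faceI src (s + i) c : ℝ) /
          ((2 * (src.p ^ (4 * src.L) * src.q ^ (4 * src.L)) : ℕ) : ℝ)) := by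
  intro s xs
  induction xs generalizing s with
  | nil => intro _; simpa [faceSum] using Bound.zero K' g
  | cons x xs ih =>
    intro h
    simp only [faceOk, Bool.and_eq_true] at h
    have hp : 0 < 2 * (src.p ^ (4 * src.L) * src.q ^ (4 * src.L)) := by
      have : 0 < src.p := by exact_mod_cast (Lat.good.p_pos hs).1
      have : 0 < src.q := by exact_mod_cast (Lat.good.p_pos hs).2
      positivity
    have h0 := Bound.entry hd K' (3 * digit K D s) hp h.1 hg
    refine cast ?_ (h0.add (ih (s + 1) h.2))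
    simp only [List.length_cons, sum_range_succ', add_zero]
    rw [add_comm (∑ _ ∈ range _, _)]
    congr 2
    exact sum_congr rfl fun i _ => by rw [Nat.add_right_comm, Nat.add_assoc]

end Vale.Agent.P154.D4
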