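import Vale.Agent.P154.D4.Base
import Vale.Agent.P154.D4.Data.Run00
import Vale.Agent.P154.D4.Data.Run01
import Vale.Agent.P154.D4.Data.Run02
import Vale.Agent.P154.D4.Data.Run03
import Vale.Agent.P154.D4.Data.Run04
import Vale.Agent.P154.D4.Data.Run05
import Vale.Agent.P154.D4.Data.Run06
import Vale.Agent.P154.D4.Data.Run07
import Vale.Agent.P154.D4.Data.Run08
import Vale.Agent.P154.D4.Data.Run09
import Vale.Agent.P154.D4.Data.Run10
import Vale.Agent.P154.D4.Data.Run11
import Vale.Agent.P154.D4.Data.Run12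
import Vale.Agent.P154.D4.Data.Run13
import Vale.Agent.P154.D4.Data.Run14
import Vale.Agent.P154.D4.Data.Run15
import Vale.Agent.P154.D4.Data.Run16
import Vale.Agent.P154.D4.Data.Run17
import Vale.Agent.P154.D4.Data.Run18
import Vale.Agent.P154.D4.Data.Run19
import Vale.Agent.P154.D4.Data.CheckAA
import Vale.Agent.P154.D4.Data.CheckAB
import Vale.Agent.P154.D4.Data.CheckBB
import Vale.Agent.P154.D4.Data.CheckBC
import Vale.Agent.P154.D4.Data.CheckCC
import Vale.Agent.P154.D4.Glue

/-!
The chain of 170 generations, and nonreconstruction of proper three-colourings on the `4`-ary tree.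
-/

namespace Vale.Agent.P154.D4

theorem srcAA : stepAA.src = latA := rfl

theorem srcAB : stepAB.src = latA := rfl

theorem srcBB : stepBB.src = latB := rfl

theorem srcBC : stepBC.src = latB := rfl

theorem srcCC : stepCC.src = latC := rfl

theorem up0 (u0 : Up 0 latA state0) :
    Up 13 latA state13 := by
  have u1 : Up 1 latA state1 := up_step srcAA stepAA_ok (steps0.1)
    (valid_of_step srcAA (steps0.2.1)) u0
  have u2 : Up 2 latA state2 := up_step srcAA stepAA_ok (steps0.2.1)
    (valid_of_step srcAA (steps0.2.2.1)) u1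
  have u3 : Up 3 latA state3 := up_step srcAA stepAA_ok (steps0.2.2.1)
    (valid_of_step srcAA (steps0.2.2.2.1)) u2
  have u4 : Up 4 latA state4 := up_step srcAA stepAA_ok (steps0.2.2.2.1)
    (valid_of_step srcAA (steps0.2.2.2.2.1)) u3
  have u5 : Up 5 latA state5 := up_step srcAA stepAA_ok (steps0.2.2.2.2.1)
    (valid_of_step srcAA (steps0.2.2.2.2.2.1)) u4
  have u6 : Up 6 latA state6 := up_step srcAA stepAA_ok (steps0.2.2.2.2.2.1)
    (valid_of_step srcAA (steps0.2.2.2.2.2.2.1)) u5
  have u7 : Up 7 latA state7 := up_step srcAA stepAA_ok (steps0.2.2.2.2.2.2.1)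
    (valid_of_step srcAA (steps0.2.2.2.2.2.2.2.1)) u6
  have u8 : Up 8 latA state8 := up_step srcAA stepAA_ok (steps0.2.2.2.2.2.2.2.1)
    (valid_of_step srcAA (steps0.2.2.2.2.2.2.2.2.1)) u7
  have u9 : Up 9 latA state9 := up_step srcAA stepAA_ok (steps0.2.2.2.2.2.2.2.2.1)
    (valid_of_step srcAA (steps0.2.2.2.2.2.2.2.2.2.1)) u8
  have u10 : Up 10 latA state10 := up_step srcAA stepAA_ok (steps0.2.2.2.2.2.2.2.2.2.1)
    (valid_of_step srcAA (steps0.2.2.2.2.2.2.2.2.2.2.1)) u9
  have u11 : Up 11 latA state11 := up_step srcAA stepAA_ok (steps0.2.2.2.2.2.2.2.2.2.2.1)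
    (valid_of_step srcAA (steps0.2.2.2.2.2.2.2.2.2.2.2.1)) u10
  have u12 : Up 12 latA state12 := up_step srcAA stepAA_ok (steps0.2.2.2.2.2.2.2.2.2.2.2.1)
    (valid_of_step srcAA (steps0.2.2.2.2.2.2.2.2.2.2.2.2)) u11
  exact up_step srcAA stepAA_ok (steps0.2.2.2.2.2.2.2.2.2.2.2.2)
    (valid_of_step srcAA (steps13.1)) u12

theorem up1 (u13 : Up 13 latA state13) :
    Up 26 latA state26 := by
  have u14 : Up 14 latA state14 := up_step srcAA stepAA_ok (steps13.1)
    (valid_of_step srcAA (steps13.2.1)) u13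
  have u15 : Up 15 latA state15 := up_step srcAA stepAA_ok (steps13.2.1)
    (valid_of_step srcAA (steps13.2.2.1)) u14
  have u16 : Up 16 latA state16 := up_step srcAA stepAA_ok (steps13.2.2.1)
    (valid_of_step srcAA (steps13.2.2.2.1)) u15
  have u17 : Up 17 latA state17 := up_step srcAA stepAA_ok (steps13.2.2.2.1)
    (valid_of_step srcAA (steps13.2.2.2.2.1)) u16
  have u18 : Up 18 latA state18 := up_step srcAA stepAA_ok (steps13.2.2.2.2.1)
    (valid_of_step srcAA (steps13.2.2.2.2.2.1)) u17
  have u19 : Up 19 latA state19 := up_step srcAA stepAA_ok (steps13.2.2.2.2.2.1)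
    (valid_of_step srcAA (steps13.2.2.2.2.2.2.1)) u18
  have u20 : Up 20 latA state20 := up_step srcAA stepAA_ok (steps13.2.2.2.2.2.2.1)
    (valid_of_step srcAA (steps13.2.2.2.2.2.2.2.1)) u19
  have u21 : Up 21 latA state21 := up_step srcAA stepAA_ok (steps13.2.2.2.2.2.2.2.1)
    (valid_of_step srcAA (steps13.2.2.2.2.2.2.2.2.1)) u20
  have u22 : Up 22 latA state22 := up_step srcAA stepAA_ok (steps13.2.2.2.2.2.2.2.2.1)
    (valid_of_step srcAA (steps13.2.2.2.2.2.2.2.2.2.1)) u21
  have u23 : Up 23 latA state23 := up_step srcAA stepAA_ok (steps13.2.2.2.2.2.2.2.2.2.1)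
    (valid_of_step srcAA (steps13.2.2.2.2.2.2.2.2.2.2.1)) u22
  have u24 : Up 24 latA state24 := up_step srcAA stepAA_ok (steps13.2.2.2.2.2.2.2.2.2.2.1)
    (valid_of_step srcAA (steps13.2.2.2.2.2.2.2.2.2.2.2.1)) u23
  have u25 : Up 25 latA state25 := up_step srcAA stepAA_ok (steps13.2.2.2.2.2.2.2.2.2.2.2.1)
    (valid_of_step srcAA (steps13.2.2.2.2.2.2.2.2.2.2.2.2)) u24
  exact up_step srcAA stepAA_ok (steps13.2.2.2.2.2.2.2.2.2.2.2.2)
    (valid_of_step srcAA (steps26.1)) u25

theorem up2 (u26 : Up 26 latA state26) :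
    Up 39 latA state39 := by
  have u27 : Up 27 latA state27 := up_step srcAA stepAA_ok (steps26.1)
    (valid_of_step srcAA (steps26.2.1)) u26
  have u28 : Up 28 latA state28 := up_step srcAA stepAA_ok (steps26.2.1)
    (valid_of_step srcAA (steps26.2.2.1)) u27
  have u29 : Up 29 latA state29 := up_step srcAA stepAA_ok (steps26.2.2.1)
    (valid_of_step srcAA (steps26.2.2.2.1)) u28
  have u30 : Up 30 latA state30 := up_step srcAA stepAA_ok (steps26.2.2.2.1)
    (valid_of_step srcAA (steps26.2.2.2.2.1)) u29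
  have u31 : Up 31 latA state31 := up_step srcAA stepAA_ok (steps26.2.2.2.2.1)
    (valid_of_step srcAA (steps26.2.2.2.2.2.1)) u30
  have u32 : Up 32 latA state32 := up_step srcAA stepAA_ok (steps26.2.2.2.2.2.1)
    (valid_of_step srcAA (steps26.2.2.2.2.2.2.1)) u31
  have u33 : Up 33 latA state33 := up_step srcAA stepAA_ok (steps26.2.2.2.2.2.2.1)
    (valid_of_step srcAA (steps26.2.2.2.2.2.2.2.1)) u32
  have u34 : Up 34 latA state34 := up_step srcAA stepAA_ok (steps26.2.2.2.2.2.2.2.1)
    (valid_of_step srcAA (steps26.2.2.2.2.2.2.2.2.1)) u33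
  have u35 : Up 35 latA state35 := up_step srcAA stepAA_ok (steps26.2.2.2.2.2.2.2.2.1)
    (valid_of_step srcAA (steps26.2.2.2.2.2.2.2.2.2.1)) u34
  have u36 : Up 36 latA state36 := up_step srcAA stepAA_ok (steps26.2.2.2.2.2.2.2.2.2.1)
    (valid_of_step srcAA (steps26.2.2.2.2.2.2.2.2.2.2.1)) u35
  have u37 : Up 37 latA state37 := up_step srcAA stepAA_ok (steps26.2.2.2.2.2.2.2.2.2.2.1)
    (valid_of_step srcAA (steps26.2.2.2.2.2.2.2.2.2.2.2.1)) u36
  have u38 : Up 38 latA state38 := up_step srcAA stepAA_ok (steps26.2.2.2.2.2.2.2.2.2.2.2.1)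
    (valid_of_step srcAA (steps26.2.2.2.2.2.2.2.2.2.2.2.2)) u37
  exact up_step srcAA stepAA_ok (steps26.2.2.2.2.2.2.2.2.2.2.2.2)
    (valid_of_step srcAA (steps39.1)) u38

theorem up3 (u39 : Up 39 latA state39) :
    Up 52 latA state52 := by
  have u40 : Up 40 latA state40 := up_step srcAA stepAA_ok (steps39.1)
    (valid_of_step srcAA (steps39.2.1)) u39
  have u41 : Up 41 latA state41 := up_step srcAA stepAA_ok (steps39.2.1)
    (valid_of_step srcAA (steps39.2.2.1)) u40
  have u42 : Up 42 latA state42 := up_step srcAA stepAA_ok (steps39.2.2.1)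
    (valid_of_step srcAA (steps39.2.2.2.1)) u41
  have u43 : Up 43 latA state43 := up_step srcAA stepAA_ok (steps39.2.2.2.1)
    (valid_of_step srcAA (steps39.2.2.2.2.1)) u42
  have u44 : Up 44 latA state44 := up_step srcAA stepAA_ok (steps39.2.2.2.2.1)
    (valid_of_step srcAA (steps39.2.2.2.2.2.1)) u43
  have u45 : Up 45 latA state45 := up_step srcAA stepAA_ok (steps39.2.2.2.2.2.1)
    (valid_of_step srcAA (steps39.2.2.2.2.2.2.1)) u44
  have u46 : Up 46 latA state46 := up_step srcAA stepAA_ok (steps39.2.2.2.2.2.2.1)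
    (valid_of_step srcAA (steps39.2.2.2.2.2.2.2.1)) u45
  have u47 : Up 47 latA state47 := up_step srcAA stepAA_ok (steps39.2.2.2.2.2.2.2.1)
    (valid_of_step srcAA (steps39.2.2.2.2.2.2.2.2.1)) u46
  have u48 : Up 48 latA state48 := up_step srcAA stepAA_ok (steps39.2.2.2.2.2.2.2.2.1)
    (valid_of_step srcAA (steps39.2.2.2.2.2.2.2.2.2.1)) u47
  have u49 : Up 49 latA state49 := up_step srcAA stepAA_ok (steps39.2.2.2.2.2.2.2.2.2.1)
    (valid_of_step srcAA (steps39.2.2.2.2.2.2.2.2.2.2.1)) u48
  have u50 : Up 50 latA state50 := up_step srcAA stepAA_ok (steps39.2.2.2.2.2.2.2.2.2.2.1)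
    (valid_of_step srcAA (steps39.2.2.2.2.2.2.2.2.2.2.2.1)) u49
  have u51 : Up 51 latA state51 := up_step srcAA stepAA_ok (steps39.2.2.2.2.2.2.2.2.2.2.2.1)
    (valid_of_step srcAA (steps39.2.2.2.2.2.2.2.2.2.2.2.2)) u50
  exact up_step srcAA stepAA_ok (steps39.2.2.2.2.2.2.2.2.2.2.2.2)
    (valid_of_step srcAA (steps52.1)) u51

theorem up4 (u52 : Up 52 latA state52) :
    Up 65 latA state65 := by
  have u53 : Up 53 latA state53 := up_step srcAA stepAA_ok (steps52.1)
    (valid_of_step srcAA (steps52.2.1)) u52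
  have u54 : Up 54 latA state54 := up_step srcAA stepAA_ok (steps52.2.1)
    (valid_of_step srcAA (steps52.2.2.1)) u53
  have u55 : Up 55 latA state55 := up_step srcAA stepAA_ok (steps52.2.2.1)
    (valid_of_step srcAA (steps52.2.2.2.1)) u54
  have u56 : Up 56 latA state56 := up_step srcAA stepAA_ok (steps52.2.2.2.1)
    (valid_of_step srcAA (steps52.2.2.2.2.1)) u55
  have u57 : Up 57 latA state57 := up_step srcAA stepAA_ok (steps52.2.2.2.2.1)
    (valid_of_step srcAA (steps52.2.2.2.2.2.1)) u56
  have u58 : Up 58 latA state58 := up_step srcAA stepAA_ok (steps52.2.2.2.2.2.1)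
    (valid_of_step srcAA (steps52.2.2.2.2.2.2.1)) u57
  have u59 : Up 59 latA state59 := up_step srcAA stepAA_ok (steps52.2.2.2.2.2.2.1)
    (valid_of_step srcAA (steps52.2.2.2.2.2.2.2.1)) u58
  have u60 : Up 60 latA state60 := up_step srcAA stepAA_ok (steps52.2.2.2.2.2.2.2.1)
    (valid_of_step srcAA (steps52.2.2.2.2.2.2.2.2.1)) u59
  have u61 : Up 61 latA state61 := up_step srcAA stepAA_ok (steps52.2.2.2.2.2.2.2.2.1)
    (valid_of_step srcAA (steps52.2.2.2.2.2.2.2.2.2.1)) u60
  have u62 : Up 62 latA state62 := up_step srcAA stepAA_ok (steps52.2.2.2.2.2.2.2.2.2.1)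
    (valid_of_step srcAA (steps52.2.2.2.2.2.2.2.2.2.2.1)) u61
  have u63 : Up 63 latA state63 := up_step srcAA stepAA_ok (steps52.2.2.2.2.2.2.2.2.2.2.1)
    (valid_of_step srcAA (steps52.2.2.2.2.2.2.2.2.2.2.2.1)) u62
  have u64 : Up 64 latA state64 := up_step srcAA stepAA_ok (steps52.2.2.2.2.2.2.2.2.2.2.2.1)
    (valid_of_step srcAA (steps52.2.2.2.2.2.2.2.2.2.2.2.2)) u63
  exact up_step srcAA stepAA_ok (steps52.2.2.2.2.2.2.2.2.2.2.2.2)
    (valid_of_step srcAA (steps65.1)) u64

theorem up5 (u65 : Up 65 latA state65) :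
    Up 76 latA state76 := by
  have u66 : Up 66 latA state66 := up_step srcAA stepAA_ok (steps65.1)
    (valid_of_step srcAA (steps65.2.1)) u65
  have u67 : Up 67 latA state67 := up_step srcAA stepAA_ok (steps65.2.1)
    (valid_of_step srcAA (steps65.2.2.1)) u66
  have u68 : Up 68 latA state68 := up_step srcAA stepAA_ok (steps65.2.2.1)
    (valid_of_step srcAA (steps65.2.2.2.1)) u67
  have u69 : Up 69 latA state69 := up_step srcAA stepAA_ok (steps65.2.2.2.1)
    (valid_of_step srcAA (steps65.2.2.2.2.1)) u68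
  have u70 : Up 70 latA state70 := up_step srcAA stepAA_ok (steps65.2.2.2.2.1)
    (valid_of_step srcAA (steps65.2.2.2.2.2.1)) u69
  have u71 : Up 71 latA state71 := up_step srcAA stepAA_ok (steps65.2.2.2.2.2.1)
    (valid_of_step srcAA (steps65.2.2.2.2.2.2.1)) u70
  have u72 : Up 72 latA state72 := up_step srcAA stepAA_ok (steps65.2.2.2.2.2.2.1)
    (valid_of_step srcAA (steps65.2.2.2.2.2.2.2.1)) u71
  have u73 : Up 73 latA state73 := up_step srcAA stepAA_ok (steps65.2.2.2.2.2.2.2.1)
    (valid_of_step srcAA (steps65.2.2.2.2.2.2.2.2.1)) u72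
  have u74 : Up 74 latA state74 := up_step srcAA stepAA_ok (steps65.2.2.2.2.2.2.2.2.1)
    (valid_of_step srcAA (steps65.2.2.2.2.2.2.2.2.2.1)) u73
  have u75 : Up 75 latA state75 := up_step srcAA stepAA_ok (steps65.2.2.2.2.2.2.2.2.2.1)
    (valid_of_step srcAA (steps65.2.2.2.2.2.2.2.2.2.2)) u74
  exact up_step srcAA stepAA_ok (steps65.2.2.2.2.2.2.2.2.2.2)
    (valid_of_step srcAB (steps76)) u75

theorem up6 (u76 : Up 76 latA state76) :
    Up 77 latB state77 := by
  exact up_step srcAB stepAB_ok (steps76)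
    (valid_of_step srcBB (steps77.1)) u76

theorem up7 (u77 : Up 77 latB state77) :
    Up 87 latB state87 := by
  have u78 : Up 78 latB state78 := up_step srcBB stepBB_ok (steps77.1)
    (valid_of_step srcBB (steps77.2.1)) u77
  have u79 : Up 79 latB state79 := up_step srcBB stepBB_ok (steps77.2.1)
    (valid_of_step srcBB (steps77.2.2.1)) u78
  have u80 : Up 80 latB state80 := up_step srcBB stepBB_ok (steps77.2.2.1)
    (valid_of_step srcBB (steps77.2.2.2.1)) u79
  have u81 : Up 81 latB state81 := up_step srcBB stepBB_ok (steps77.2.2.2.1)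
    (valid_of_step srcBB (steps77.2.2.2.2.1)) u80
  have u82 : Up 82 latB state82 := up_step srcBB stepBB_ok (steps77.2.2.2.2.1)
    (valid_of_step srcBB (steps77.2.2.2.2.2.1)) u81
  have u83 : Up 83 latB state83 := up_step srcBB stepBB_ok (steps77.2.2.2.2.2.1)
    (valid_of_step srcBB (steps77.2.2.2.2.2.2.1)) u82
  have u84 : Up 84 latB state84 := up_step srcBB stepBB_ok (steps77.2.2.2.2.2.2.1)
    (valid_of_step srcBB (steps77.2.2.2.2.2.2.2.1)) u83
  have u85 : Up 85 latB state85 := up_step srcBB stepBB_ok (steps77.2.2.2.2.2.2.2.1)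
    (valid_of_step srcBB (steps77.2.2.2.2.2.2.2.2.1)) u84
  have u86 : Up 86 latB state86 := up_step srcBB stepBB_ok (steps77.2.2.2.2.2.2.2.2.1)
    (valid_of_step srcBB (steps77.2.2.2.2.2.2.2.2.2)) u85
  exact up_step srcBB stepBB_ok (steps77.2.2.2.2.2.2.2.2.2)
    (valid_of_step srcBB (steps87.1)) u86

theorem up8 (u87 : Up 87 latB state87) :
    Up 97 latB state97 := by
  have u88 : Up 88 latB state88 := up_step srcBB stepBB_ok (steps87.1)
    (valid_of_step srcBB (steps87.2.1)) u87
  have u89 : Up 89 latB state89 := up_step srcBB stepBB_ok (steps87.2.1)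
    (valid_of_step srcBB (steps87.2.2.1)) u88
  have u90 : Up 90 latB state90 := up_step srcBB stepBB_ok (steps87.2.2.1)
    (valid_of_step srcBB (steps87.2.2.2.1)) u89
  have u91 : Up 91 latB state91 := up_step srcBB stepBB_ok (steps87.2.2.2.1)
    (valid_of_step srcBB (steps87.2.2.2.2.1)) u90
  have u92 : Up 92 latB state92 := up_step srcBB stepBB_ok (steps87.2.2.2.2.1)
    (valid_of_step srcBB (steps87.2.2.2.2.2.1)) u91
  have u93 : Up 93 latB state93 := up_step srcBB stepBB_ok (steps87.2.2.2.2.2.1)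
    (valid_of_step srcBB (steps87.2.2.2.2.2.2.1)) u92
  have u94 : Up 94 latB state94 := up_step srcBB stepBB_ok (steps87.2.2.2.2.2.2.1)
    (valid_of_step srcBB (steps87.2.2.2.2.2.2.2.1)) u93
  have u95 : Up 95 latB state95 := up_step srcBB stepBB_ok (steps87.2.2.2.2.2.2.2.1)
    (valid_of_step srcBB (steps87.2.2.2.2.2.2.2.2.1)) u94
  have u96 : Up 96 latB state96 := up_step srcBB stepBB_ok (steps87.2.2.2.2.2.2.2.2.1)
    (valid_of_step srcBB (steps87.2.2.2.2.2.2.2.2.2)) u95
  exact up_step srcBB stepBB_ok (steps87.2.2.2.2.2.2.2.2.2)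
    (valid_of_step srcBB (steps97.1)) u96

theorem up9 (u97 : Up 97 latB state97) :
    Up 104 latB state104 := by
  have u98 : Up 98 latB state98 := up_step srcBB stepBB_ok (steps97.1)
    (valid_of_step srcBB (steps97.2.1)) u97
  have u99 : Up 99 latB state99 := up_step srcBB stepBB_ok (steps97.2.1)
    (valid_of_step srcBB (steps97.2.2.1)) u98
  have u100 : Up 100 latB state100 := up_step srcBB stepBB_ok (steps97.2.2.1)
    (valid_of_step srcBB (steps97.2.2.2.1)) u99
  have u101 : Up 101 latB state101 := up_step srcBB stepBB_ok (steps97.2.2.2.1)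
    (valid_of_step srcBB (steps97.2.2.2.2.1)) u100
  have u102 : Up 102 latB state102 := up_step srcBB stepBB_ok (steps97.2.2.2.2.1)
    (valid_of_step srcBB (steps97.2.2.2.2.2.1)) u101
  have u103 : Up 103 latB state103 := up_step srcBB stepBB_ok (steps97.2.2.2.2.2.1)
    (valid_of_step srcBB (steps97.2.2.2.2.2.2)) u102
  exact up_step srcBB stepBB_ok (steps97.2.2.2.2.2.2)
    (valid_of_step srcBC (steps104)) u103

theorem up10 (u104 : Up 104 latB state104) :
    Up 105 latC state105 := by
  exact up_step srcBC stepBC_ok (steps104)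
    (valid_of_step srcCC (steps105.1)) u104

theorem up11 (u105 : Up 105 latC state105) :
    Up 113 latC state113 := by
  have u106 : Up 106 latC state106 := up_step srcCC stepCC_ok (steps105.1)
    (valid_of_step srcCC (steps105.2.1)) u105
  have u107 : Up 107 latC state107 := up_step srcCC stepCC_ok (steps105.2.1)
    (valid_of_step srcCC (steps105.2.2.1)) u106
  have u108 : Up 108 latC state108 := up_step srcCC stepCC_ok (steps105.2.2.1)
    (valid_of_step srcCC (steps105.2.2.2.1)) u107
  have u109 : Up 109 latC state109 := up_step srcCC stepCC_ok (steps105.2.2.2.1)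
    (valid_of_step srcCC (steps105.2.2.2.2.1)) u108
  have u110 : Up 110 latC state110 := up_step srcCC stepCC_ok (steps105.2.2.2.2.1)
    (valid_of_step srcCC (steps105.2.2.2.2.2.1)) u109
  have u111 : Up 111 latC state111 := up_step srcCC stepCC_ok (steps105.2.2.2.2.2.1)
    (valid_of_step srcCC (steps105.2.2.2.2.2.2.1)) u110
  have u112 : Up 112 latC state112 := up_step srcCC stepCC_ok (steps105.2.2.2.2.2.2.1)
    (valid_of_step srcCC (steps105.2.2.2.2.2.2.2)) u111
  exact up_step srcCC stepCC_ok (steps105.2.2.2.2.2.2.2)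
    (valid_of_step srcCC (steps113.1)) u112

theorem up12 (u113 : Up 113 latC state113) :
    Up 121 latC state121 := by
  have u114 : Up 114 latC state114 := up_step srcCC stepCC_ok (steps113.1)
    (valid_of_step srcCC (steps113.2.1)) u113
  have u115 : Up 115 latC state115 := up_step srcCC stepCC_ok (steps113.2.1)
    (valid_of_step srcCC (steps113.2.2.1)) u114
  have u116 : Up 116 latC state116 := up_step srcCC stepCC_ok (steps113.2.2.1)
    (valid_of_step srcCC (steps113.2.2.2.1)) u115
  have u117 : Up 117 latC state117 := up_step srcCC stepCC_ok (steps113.2.2.2.1)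
    (valid_of_step srcCC (steps113.2.2.2.2.1)) u116
  have u118 : Up 118 latC state118 := up_step srcCC stepCC_ok (steps113.2.2.2.2.1)
    (valid_of_step srcCC (steps113.2.2.2.2.2.1)) u117
  have u119 : Up 119 latC state119 := up_step srcCC stepCC_ok (steps113.2.2.2.2.2.1)
    (valid_of_step srcCC (steps113.2.2.2.2.2.2.1)) u118
  have u120 : Up 120 latC state120 := up_step srcCC stepCC_ok (steps113.2.2.2.2.2.2.1)
    (valid_of_step srcCC (steps113.2.2.2.2.2.2.2)) u119
  exact up_step srcCC stepCC_ok (steps113.2.2.2.2.2.2.2)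
    (valid_of_step srcCC (steps121.1)) u120

theorem up13 (u121 : Up 121 latC state121) :
    Up 129 latC state129 := by
  have u122 : Up 122 latC state122 := up_step srcCC stepCC_ok (steps121.1)
    (valid_of_step srcCC (steps121.2.1)) u121
  have u123 : Up 123 latC state123 := up_step srcCC stepCC_ok (steps121.2.1)
    (valid_of_step srcCC (steps121.2.2.1)) u122
  have u124 : Up 124 latC state124 := up_step srcCC stepCC_ok (steps121.2.2.1)
    (valid_of_step srcCC (steps121.2.2.2.1)) u123
  have u125 : Up 125 latC state125 := up_step srcCC stepCC_ok (steps121.2.2.2.1)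
    (valid_of_step srcCC (steps121.2.2.2.2.1)) u124
  have u126 : Up 126 latC state126 := up_step srcCC stepCC_ok (steps121.2.2.2.2.1)
    (valid_of_step srcCC (steps121.2.2.2.2.2.1)) u125
  have u127 : Up 127 latC state127 := up_step srcCC stepCC_ok (steps121.2.2.2.2.2.1)
    (valid_of_step srcCC (steps121.2.2.2.2.2.2.1)) u126
  have u128 : Up 128 latC state128 := up_step srcCC stepCC_ok (steps121.2.2.2.2.2.2.1)
    (valid_of_step srcCC (steps121.2.2.2.2.2.2.2)) u127
  exact up_step srcCC stepCC_ok (steps121.2.2.2.2.2.2.2)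
    (valid_of_step srcCC (steps129.1)) u128

theorem up14 (u129 : Up 129 latC state129) :
    Up 137 latC state137 := by
  have u130 : Up 130 latC state130 := up_step srcCC stepCC_ok (steps129.1)
    (valid_of_step srcCC (steps129.2.1)) u129
  have u131 : Up 131 latC state131 := up_step srcCC stepCC_ok (steps129.2.1)
    (valid_of_step srcCC (steps129.2.2.1)) u130
  have u132 : Up 132 latC state132 := up_step srcCC stepCC_ok (steps129.2.2.1)
    (valid_of_step srcCC (steps129.2.2.2.1)) u131
  have u133 : Up 133 latC state133 := up_step srcCC stepCC_ok (steps129.2.2.2.1)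
    (valid_of_step srcCC (steps129.2.2.2.2.1)) u132
  have u134 : Up 134 latC state134 := up_step srcCC stepCC_ok (steps129.2.2.2.2.1)
    (valid_of_step srcCC (steps129.2.2.2.2.2.1)) u133
  have u135 : Up 135 latC state135 := up_step srcCC stepCC_ok (steps129.2.2.2.2.2.1)
    (valid_of_step srcCC (steps129.2.2.2.2.2.2.1)) u134
  have u136 : Up 136 latC state136 := up_step srcCC stepCC_ok (steps129.2.2.2.2.2.2.1)
    (valid_of_step srcCC (steps129.2.2.2.2.2.2.2)) u135
  exact up_step srcCC stepCC_ok (steps129.2.2.2.2.2.2.2)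
    (valid_of_step srcCC (steps137.1)) u136

theorem up15 (u137 : Up 137 latC state137) :
    Up 145 latC state145 := by
  have u138 : Up 138 latC state138 := up_step srcCC stepCC_ok (steps137.1)
    (valid_of_step srcCC (steps137.2.1)) u137
  have u139 : Up 139 latC state139 := up_step srcCC stepCC_ok (steps137.2.1)
    (valid_of_step srcCC (steps137.2.2.1)) u138
  have u140 : Up 140 latC state140 := up_step srcCC stepCC_ok (steps137.2.2.1)
    (valid_of_step srcCC (steps137.2.2.2.1)) u139
  have u141 : Up 141 latC state141 := up_step srcCC stepCC_ok (steps137.2.2.2.1)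
    (valid_of_step srcCC (steps137.2.2.2.2.1)) u140
  have u142 : Up 142 latC state142 := up_step srcCC stepCC_ok (steps137.2.2.2.2.1)
    (valid_of_step srcCC (steps137.2.2.2.2.2.1)) u141
  have u143 : Up 143 latC state143 := up_step srcCC stepCC_ok (steps137.2.2.2.2.2.1)
    (valid_of_step srcCC (steps137.2.2.2.2.2.2.1)) u142
  have u144 : Up 144 latC state144 := up_step srcCC stepCC_ok (steps137.2.2.2.2.2.2.1)
    (valid_of_step srcCC (steps137.2.2.2.2.2.2.2)) u143
  exact up_step srcCC stepCC_ok (steps137.2.2.2.2.2.2.2)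
    (valid_of_step srcCC (steps145.1)) u144

theorem up16 (u145 : Up 145 latC state145) :
    Up 153 latC state153 := by
  have u146 : Up 146 latC state146 := up_step srcCC stepCC_ok (steps145.1)
    (valid_of_step srcCC (steps145.2.1)) u145
  have u147 : Up 147 latC state147 := up_step srcCC stepCC_ok (steps145.2.1)
    (valid_of_step srcCC (steps145.2.2.1)) u146
  have u148 : Up 148 latC state148 := up_step srcCC stepCC_ok (steps145.2.2.1)
    (valid_of_step srcCC (steps145.2.2.2.1)) u147
  have u149 : Up 149 latC state149 := up_step srcCC stepCC_ok (steps145.2.2.2.1)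
    (valid_of_step srcCC (steps145.2.2.2.2.1)) u148
  have u150 : Up 150 latC state150 := up_step srcCC stepCC_ok (steps145.2.2.2.2.1)
    (valid_of_step srcCC (steps145.2.2.2.2.2.1)) u149
  have u151 : Up 151 latC state151 := up_step srcCC stepCC_ok (steps145.2.2.2.2.2.1)
    (valid_of_step srcCC (steps145.2.2.2.2.2.2.1)) u150
  have u152 : Up 152 latC state152 := up_step srcCC stepCC_ok (steps145.2.2.2.2.2.2.1)
    (valid_of_step srcCC (steps145.2.2.2.2.2.2.2)) u151
  exact up_step srcCC stepCC_ok (steps145.2.2.2.2.2.2.2)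
    (valid_of_step srcCC (steps153.1)) u152

theorem up17 (u153 : Up 153 latC state153) :
    Up 161 latC state161 := by
  have u154 : Up 154 latC state154 := up_step srcCC stepCC_ok (steps153.1)
    (valid_of_step srcCC (steps153.2.1)) u153
  have u155 : Up 155 latC state155 := up_step srcCC stepCC_ok (steps153.2.1)
    (valid_of_step srcCC (steps153.2.2.1)) u154
  have u156 : Up 156 latC state156 := up_step srcCC stepCC_ok (steps153.2.2.1)
    (valid_of_step srcCC (steps153.2.2.2.1)) u155
  have u157 : Up 157 latC state157 := up_step srcCC stepCC_ok (steps153.2.2.2.1)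
    (valid_of_step srcCC (steps153.2.2.2.2.1)) u156
  have u158 : Up 158 latC state158 := up_step srcCC stepCC_ok (steps153.2.2.2.2.1)
    (valid_of_step srcCC (steps153.2.2.2.2.2.1)) u157
  have u159 : Up 159 latC state159 := up_step srcCC stepCC_ok (steps153.2.2.2.2.2.1)
    (valid_of_step srcCC (steps153.2.2.2.2.2.2.1)) u158
  have u160 : Up 160 latC state160 := up_step srcCC stepCC_ok (steps153.2.2.2.2.2.2.1)
    (valid_of_step srcCC (steps153.2.2.2.2.2.2.2)) u159
  exact up_step srcCC stepCC_ok (steps153.2.2.2.2.2.2.2)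
    (valid_of_step srcCC (steps161.1)) u160

theorem up18 (u161 : Up 161 latC state161) :
    Up 169 latC state169 := by
  have u162 : Up 162 latC state162 := up_step srcCC stepCC_ok (steps161.1)
    (valid_of_step srcCC (steps161.2.1)) u161
  have u163 : Up 163 latC state163 := up_step srcCC stepCC_ok (steps161.2.1)
    (valid_of_step srcCC (steps161.2.2.1)) u162
  have u164 : Up 164 latC state164 := up_step srcCC stepCC_ok (steps161.2.2.1)
    (valid_of_step srcCC (steps161.2.2.2.1)) u163
  have u165 : Up 165 latC state165 := up_step srcCC stepCC_ok (steps161.2.2.2.1)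
    (valid_of_step srcCC (steps161.2.2.2.2.1)) u164
  have u166 : Up 166 latC state166 := up_step srcCC stepCC_ok (steps161.2.2.2.2.1)
    (valid_of_step srcCC (steps161.2.2.2.2.2.1)) u165
  have u167 : Up 167 latC state167 := up_step srcCC stepCC_ok (steps161.2.2.2.2.2.1)
    (valid_of_step srcCC (steps161.2.2.2.2.2.2.1)) u166
  have u168 : Up 168 latC state168 := up_step srcCC stepCC_ok (steps161.2.2.2.2.2.2.1)
    (valid_of_step srcCC (steps161.2.2.2.2.2.2.2)) u167
  exact up_step srcCC stepCC_ok (steps161.2.2.2.2.2.2.2)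
    (valid_of_step srcCC (steps169)) u168

theorem up19 (u169 : Up 169 latC state169) :
    Up 170 latC state170 := by
  exact up_step srcCC stepCC_ok (steps169)
    (state170_valid) u169

/-- The bound at generation 170. -/
theorem up_last : Up 170 latC state170 :=
  up19 <|
    up18 <|
    up17 <|
    up16 <|
    up15 <|
    up14 <|
    up13 <|
    up12 <|
    up11 <|
    up10 <|
    up9 <|
    up8 <|
    up7 <|
    up6 <|
    up5 <|
    up4 <|
    up3 <|
    up2 <|
    up1 <|
    up0 up_zero

/-- The result of the computation. -/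
theorem transient : Transient :=
  transient_of_upper (fun _ hG => up_last.below latC_good hG)
    (small_bound latC_good state170_valid state170_small).1
    (small_bound latC_good state170_valid state170_small).2

/-- Nonreconstruction on the `d`-ary tree, `d ≤ 4`, for `λ ∈ [-1/2, 0]`. -/
theorem nonReconstructs_regular_le_four (d : ℕ) (hd : d ≤ 4) (lam : ℝ)
    (hl : -(1 / 2) ≤ lam) (h0 : lam ≤ 0) : NonReconstructs (aRegular 3 lam d) :=
  nonReconstructs_four transient d hd lam hl h0

end Vale.Agent.P154.D4
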